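import Vale.Agent.P117.K.BrV

/-! # P117 / K : bridge : `StKT` from `JF` / `JS`, `StKTU` from `JU` -/

open Filter Topology
open Vale.Agent.P127 Vale.Agent.P127.Stk

set_option linter.all false

namespace Vale.Agent.P117.K

section fin

variable {Ω : Type} [Fintype Ω]

/-- the real time -/
noncomputable def rt (L : ℕ) (t : Ω → ℕ) (ω : Ω) : ℝ := (t ω : ℝ) / 2 ^ L

theorem hc_line (P : Law Ω) (L : ℕ) (x y : Ω → Fin 2 → ℤ) (t : Ω → ℕ) :
    Stk.hc P (fun ω => U.tb L (rl L (x ω) (y ω))) (fun ω => U.pq L (rt L t ω, U.pos (rl L (x ω) (y ω)) (rt L t ω))) =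
      Stk.hc P (fun ω => (x ω, y ω)) (fun ω => (pos L (x ω, y ω) (t ω), t ω)) := by
  have e1 : (fun ω => U.tb L (rl L (x ω) (y ω))) = fun ω => (x ω, y ω) := funext fun ω => tb_rl L _ _
  have e2 : (fun ω => U.pq L (rt L t ω, U.pos (rl L (x ω) (y ω)) (rt L t ω))) = fun ω => ((t ω:ℤ), pos L (x ω, y ω) (t ω)) :=
    funext fun ω => pq_rl L _ _ _
  rw [e1, e2]
  refine hc_congr P ?_ ?_ ?_ ?_ <;> intro ω ω' _ _ h
  all_goals first
    | exact h
    | (simp only [Prod.mk.injEq, Nat.cast_inj] at h ⊢; tauto)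

theorem hc_time (P : Law Ω) (L : ℕ) (x y : Ω → Fin 2 → ℤ) (t : Ω → ℕ) :
    Stk.hc P (fun ω => fl1 L (rt L t ω)) (fun ω => U.tb L (rl L (x ω) (y ω))) =
      Stk.hc P t (fun ω => (x ω, y ω)) := by
  have e1 : (fun ω => U.tb L (rl L (x ω) (y ω))) = fun ω => (x ω, y ω) := funext fun ω => tb_rl L _ _
  have e2 : (fun ω => fl1 L (rt L t ω)) = fun ω => (t ω:ℤ) := funext fun ω => fl1_t L _
  rw [e1, e2]
  unfold Stk.hc
  congr 1
  refine P.H_congr fun ω ω' => ?_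
  simp

theorem LnOk_rl {L : ℕ} {x y : Fin 2 → ℤ} (hx : ∀ i, 0 ≤ x i ∧ x i < 2 ^ L) (hy : ∀ i, 0 ≤ y i ∧ y i < 2 ^ L) : U.LnOk (rl L x y) := by
  have key : ∀ u : Fin 2 → ℤ, (∀ i, 0 ≤ u i ∧ u i < 2 ^ L) → ∀ i, |(u i : ℝ) / 2 ^ L| ≤ 1 := by
    intro u hu i
    have h1 : (0:ℝ) ≤ u i := by exact_mod_cast (hu i).1
    have h2 : (u i : ℝ) < 2 ^ L := by exact_mod_cast (hu i).2
    rw [abs_of_nonneg (by positivity), div_le_one (by positivity)]
    exact h2.le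
  exact ⟨key x hx, key y hy⟩

theorem rt_mem {L : ℕ} {t : Ω → ℕ} {ω : Ω} (h : t ω < 2 ^ L) : 0 ≤ rt L t ω ∧ rt L t ω ≤ 1 := by
  have h1 : (t ω:ℝ) < 2 ^ L := by exact_mod_cast h
  unfold rt
  exact ⟨by positivity, by rw [div_le_one (by positivity)]; exact h1.le⟩

end fin

/-- the finite inequality of P127 -/
theorem stKT_of_JF {N β : ℝ} (h : U.JF N β) : StKT (β / 2) N := by
  intro ε hε
  have hlog : 0 < Real.log 2 := Real.log_pos (by norm_num)
  obtain ⟨K0, hK0⟩ := h (ε / 2 / Real.log 2) (by positivity)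
  obtain ⟨L0, hL0⟩ := exists_nat_ge (2 * K0 / ε)
  refine ⟨L0, ?_⟩
  intro L hL Ω _ P x y t K hK hx hy ht hKT
  have h1 := hK0 Ω P (fun ω => rl L (x ω) (y ω)) (rt L t) L (fun ω _ => ⟨LnOk_rl (hx ω) (hy ω), rt_mem (ht ω)⟩)
  rw [hc_line, hc_time] at h1
  have h2 : U.excF P (U.tbx L fun ω => rl L (x ω) (y ω)) (fun _ => ()) ≤ Real.log K := excF_le P hK hKT
  have h3 : K0 ≤ ε / 2 * L := by
    have : (2 * K0 / ε) ≤ L := hL0.trans (by exact_mod_cast hL)
    rw [div_le_iff₀ hε] at this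
    linarith
  have h4 : ε / 2 / Real.log 2 * L * Real.log 2 = ε / 2 * L := by field_simp
  nlinarith

section sys

open U

variable (κ : ℝ)

/-- the system of a sequence of finite families -/
theorem sys_data {Ω : ℕ → Type} [hfin : ∀ i, Fintype (Ω i)] (P : ∀ i, Law (Ω i)) (L : ℕ → ℕ) (hL : Tendsto L (uf : Filter ℕ) atTop)
    (x y : ∀ i, Ω i → Fin 2 → ℤ) (t : ∀ i, Ω i → ℕ) (K : ℕ → ℝ) (hK : ∀ i, 1 ≤ K i)
    (hx : ∀ i ω j, 0 ≤ x i ω j ∧ x i ω j < 2 ^ L i) (hy : ∀ i ω j, 0 ≤ y i ω j ∧ y i ω j < 2 ^ L i)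
    (ht : ∀ i ω, t i ω < 2 ^ L i) (hKT : ∀ i, KTf (K i) (suppL (P i) (x i) (y i)))
    (hKL : ∀ i, Real.log (K i) ≤ 4 * (L i * Real.log 2)) :
    ∃ (S : Sys) (l : S.RV Ln) (q : S.RV Pt) (n : ℕ → ℕ), S.Bd n ∧ Sys.LnA l ∧ Sys.InA (Sys.tubes n l) q ∧ S.nu n = 1 ∧
      S.hc (Sys.tbs n l) (Sys.pr (Sys.pqs n q) (Sys.one (S := S))) = ulim (fun i => Stk.hc (P i) (fun ω => (x i ω, y i ω))
        (fun ω => (pos (L i) (x i ω, y i ω) (t i ω), t i ω)) / (L i * Real.log 2)) ∧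
      S.hc (Sys.pqs n q) (Sys.pr (Sys.tbs n l) (Sys.one (S := S))) = ulim (fun i => Stk.hc (P i) (t i)
        (fun ω => (x i ω, y i ω)) / (L i * Real.log 2)) ∧
      S.exc (Sys.tubes n l) (Sys.one (S := S)) ≤ ulim (fun i => Real.log (K i) / (L i * Real.log 2)) := by
  have hlog : 0 < Real.log 2 := Real.log_pos (by norm_num)
  let S : Sys := ⟨Ω, hfin, P, L, hL⟩
  let l : S.RV Ln := fun i ω => rl (L i) (x i ω) (y i ω)
  let q : S.RV Pt := fun i ω => (rt (L i) (t i) ω, U.pos (rl (L i) (x i ω) (y i ω)) (rt (L i) (t i) ω))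
  have hpos : ∀ᶠ i in (uf : Filter ℕ), (0:ℝ) < (L i : ℝ) * Real.log 2 := S.nm_pos
  refine ⟨S, l, q, L, ⟨1, Eventually.of_forall fun i => ?_⟩, Eventually.of_forall fun i ω _ => LnOk_rl (hx i ω) (hy i ω), ?_, ?_, ?_, ?_, ?_⟩
  · show (L i:ℝ) ≤ 1 * L i
    linarith
  · refine ⟨1, Eventually.of_forall fun i ω _ => ?_⟩
    refine ⟨(rt_mem (ht i ω)).1, (rt_mem (ht i ω)).2, ?_, ?_⟩
    · have e : (fun j => (q i ω).2 j - U.pos (((Sys.tubes L l) i).l ω) (q i ω).1 j) = fun _ => 0 := by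
        ext j
        exact sub_self _
      rw [e]
      simp [U.co]
    · have e : (fun j => (q i ω).2 j - U.pos (((Sys.tubes L l) i).l ω) (q i ω).1 j) = fun _ => 0 := by
        ext j
        exact sub_self _
      rw [e]
      simp [U.co]
  · unfold Sys.nu
    refine ulim_eq (Tendsto.congr' ?_ tendsto_const_nhds)
    filter_upwards [S.L_pos] with i hi
    have : (0:ℝ) < S.L i := by exact_mod_cast hi
    exact (div_self this.ne').symm
  · unfold Sys.hc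
    refine ulim_congr (Eventually.of_forall fun i => ?_)
    have e1 := hc_line (P i) (L i) (x i) (y i) (t i)
    show Stk.hc (P i) (fun ω => U.tb (L i) (rl (L i) (x i ω) (y i ω)))
      (fun ω => (U.pq (L i) (rt (L i) (t i) ω, U.pos (rl (L i) (x i ω) (y i ω)) (rt (L i) (t i) ω)), ())) / _ = _
    rw [← e1]
    congr 1
    unfold Stk.hc
    congr 1
    · refine (P i).H_congr fun ω ω' => ?_
      simp
    · refine (P i).H_congr fun ω ω' => ?_
      simp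
  · unfold Sys.hc
    refine ulim_congr (Eventually.of_forall fun i => ?_)
    have e1 := hc_time (P i) (L i) (x i) (y i) (t i)
    show Stk.hc (P i) (fun ω => U.pq (L i) (rt (L i) (t i) ω, U.pos (rl (L i) (x i ω) (y i ω)) (rt (L i) (t i) ω)))
      (fun ω => (U.tb (L i) (rl (L i) (x i ω) (y i ω)), ())) / _ = _
    have e3 : (fun ω => U.pq (L i) (rt (L i) (t i) ω, U.pos (rl (L i) (x i ω) (y i ω)) (rt (L i) (t i) ω))) = fun ω => ((t i ω:ℤ), pos (L i) (x i ω, y i ω) (t i ω)) :=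
      funext fun ω => pq_rl (L i) _ _ _
    have e4 : (fun ω => (U.tb (L i) (rl (L i) (x i ω) (y i ω)), ())) = fun ω => ((x i ω, y i ω), ()) := funext fun ω => by rw [tb_rl]
    rw [e3, e4]
    show _ = Stk.hc (P i) (t i) (fun ω => (x i ω, y i ω)) / ((L i:ℝ) * Real.log 2)
    congr 1
    unfold Stk.hc
    congr 1
    · refine (P i).H_congr fun ω ω' => ?_
      simp only [Prod.mk.injEq, Nat.cast_inj, and_true]
      constructor
      · rintro ⟨⟨h1, _⟩, h2⟩; exact ⟨h1, h2⟩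
      · rintro ⟨h1, h2⟩
        refine ⟨⟨h1, ?_⟩, h2⟩
        rw [h1, h2.1, h2.2]
    · refine (P i).H_congr fun ω ω' => ?_
      simp
  · unfold Sys.exc
    have hb : ∀ i, 0 ≤ excF (P i) (tBx (L i) (x i) (y i)) (fun _ => ()) ∧ excF (P i) (tBx (L i) (x i) (y i)) (fun _ => ()) ≤ Real.log (K i) :=
      fun i => ⟨excF_nonneg (P i) (hK i) (hKT i), excF_le (P i) (hK i) (hKT i)⟩
    refine ulim_le (UB.of_le (C := 4) ?_ ?_) (UB.of_le (C := 4) ?_ ?_) ?_
    · filter_upwards [hpos] with i hi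
      exact div_nonneg (hb i).1 hi.le
    · filter_upwards [hpos] with i hi
      refine (div_le_iff₀ hi).2 ((hb i).2.trans (hKL i))
    · filter_upwards [hpos] with i hi
      exact div_nonneg (Real.log_nonneg (hK i)) hi.le
    · filter_upwards [hpos] with i hi
      exact (div_le_iff₀ hi).2 (hKL i)
    · filter_upwards [hpos] with i hi
      exact div_le_div_of_nonneg_right (hb i).2 hi.le

end sys

end Vale.Agent.P117.K
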