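import Vale.Agent.P117.K.DefsKT

/-! # P117 / K : the entropic form implies the combinatorial form (helper377) -/

open Finset
open Vale.Agent.P127 Vale.Agent.P127.Stk

set_option linter.all false

namespace Vale.Agent.P117.K

/-- the uniform law -/
noncomputable def ulaw3 (Ω : Type) [Fintype Ω] [Nonempty Ω] : Law Ω where
  w := fun _ => 1 / (Fintype.card Ω : ℝ)
  nn := fun _ => by positivity
  sum_one := by
    rw [sum_const, nsmul_eq_mul, card_univ]
    have : (0 : ℝ) < Fintype.card Ω := by exact_mod_cast Fintype.card_pos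
    field_simp

/-- the entropy of a variable with fibres of the same size under the uniform law -/
lemma ulaw3_H {Ω : Type} [Fintype Ω] [Nonempty Ω] {S : Type*} (X : Ω → S) {k : ℕ} (hk : 0 < k)
    (h : ∀ ω, Nat.card {ω' // X ω' = X ω} = k) :
    (ulaw3 Ω).H X = Real.log (Fintype.card Ω) - Real.log k := by
  classical
  have hΩ : (0 : ℝ) < Fintype.card Ω := by exact_mod_cast Fintype.card_pos
  have hk' : (0 : ℝ) < k := by exact_mod_cast hk
  unfold Law.H
  rw [(ulaw3 Ω).ex_congr (g := fun _ => Real.log (Fintype.card Ω) - Real.log k), Law.ex_const]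
  intro ω _
  have h1 : (ulaw3 Ω).pr X (X ω) = k / Fintype.card Ω := by
    unfold Law.pr ulaw3
    simp only
    rw [sum_const, nsmul_eq_mul]
    have : (#{ω' | X ω' = X ω} : ℕ) = k := by
      rw [← h ω, Nat.card_eq_fintype_card, Fintype.card_subtype]
    rw [this]
    ring
  rw [h1, Real.log_div hk'.ne' hΩ.ne']
  ring

theorem KTf.mono {K : ℝ} {T T' : Finset ((Fin 2 → ℤ) × (Fin 2 → ℤ))} (h : KTf K T) (hT : T' ⊆ T) :
    KTf K T' := by
  classical
  intro a b w1 w2 x0 y0 hab h1 h2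
  refine le_trans ?_ (h a b w1 w2 x0 y0 hab h1 h2)
  exact_mod_cast card_le_card (filter_subset_filter _ hT)

theorem hits_le (L : ℕ) (l : (Fin 2 → ℤ) × (Fin 2 → ℤ)) (E : Finset ((Fin 2 → ℤ) × ℕ)) :
    hits L l E ≤ 2 ^ L := by
  unfold hits
  refine (card_filter_le _ _).trans ?_
  rw [card_range]

/-- crude count of a Katz-Tao family -/
theorem KTf.card_le {K : ℝ} {T : Finset ((Fin 2 → ℤ) × (Fin 2 → ℤ))} (h : KTf K T) {L : ℕ}
    (hT : ∀ l ∈ T, ∀ i, (0 ≤ l.1 i ∧ l.1 i < 2 ^ L) ∧ (0 ≤ l.2 i ∧ l.2 i < 2 ^ L)) :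
    (T.card : ℝ) ≤ K * (2 ^ L * 2 ^ L) := by
  classical
  have h1 : (1:ℝ) ≤ 2 ^ L := one_le_pow₀ (by norm_num)
  have h2 := h 1 0 (2 ^ L) (2 ^ L) 0 0 (by norm_num) h1 le_rfl
  refine le_trans (le_of_eq ?_) h2
  congr 2
  symm
  rw [filter_eq_self]
  intro l hl
  have key : ∀ z : ℤ, 0 ≤ z → z < 2 ^ L → |(z : ℝ)| ≤ 2 ^ L := by
    intro z h0 h3
    rw [abs_of_nonneg (by exact_mod_cast h0)]
    have : (z : ℝ) < ((2 ^ L : ℤ) : ℝ) := by exact_mod_cast h3
    push_cast at this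
    exact this.le
  unfold inP
  simp only [Pi.zero_apply, sub_zero, one_mul, zero_mul, add_zero, neg_zero, zero_add]
  exact ⟨key _ (hT l hl 0).1.1 (hT l hl 0).1.2, key _ (hT l hl 1).1.1 (hT l hl 1).1.2,
    key _ (hT l hl 0).2.1 (hT l hl 0).2.2, key _ (hT l hl 1).2.1 (hT l hl 1).2.2⟩

theorem stKTC : StKTC := by
  classical
  intro κ Np hκ hNp h ε hε
  have hlog : 0 < Real.log 2 := Real.log_pos (by norm_num)
  obtain ⟨L₀, H⟩ := h (ε * Real.log 2) (by positivity)
  refine ⟨8 ^ L₀, by positivity, ?_⟩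
  intro L T K E k hK hT1 hKT hk1 hk
  have hK0 : 0 < K := by linarith
  rcases T.eq_empty_or_nonempty with rfl | hTne
  · simp only [card_empty, CharP.cast_eq_zero, mul_zero]
    positivity
  have hk0 : 0 < k := hk1
  have hE1 : 0 < #E := by
    obtain ⟨l, hl⟩ := hTne
    have h1 := hk l hl
    have h2 : 0 < hits L l E := lt_of_lt_of_le hk0 h1
    obtain ⟨t, ht⟩ := card_pos.1 h2
    exact card_pos.2 ⟨_, (mem_filter.1 ht).2⟩
  have hE1r : (1 : ℝ) ≤ #E := by exact_mod_cast hE1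
  have hT0 : 0 < #T := card_pos.2 hTne
  have hkL : k ≤ 2 ^ L := by
    obtain ⟨l, hl⟩ := hTne
    exact (hk l hl).trans (hits_le L l E)
  have hkr : (0 : ℝ) < k := by exact_mod_cast hk0
  have hkLr : (k : ℝ) ≤ 2 ^ L := by exact_mod_cast hkL
  have h1ε : (1 : ℝ) ≤ (2 : ℝ) ^ ((2 * κ + ε) * L) := Real.one_le_rpow (by norm_num) (by positivity)
  have hq : (1 : ℝ) ≤ (2 : ℝ) ^ L / k := by rwa [one_le_div hkr]
  have h1q : (1 : ℝ) ≤ ((2 : ℝ) ^ L / k) ^ Np := Real.one_le_rpow hq hNp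
  by_cases hL : L < L₀
  · -- small scales
    have e1 : (T.card : ℝ) ≤ K * (2 ^ L * 2 ^ L) := hKT.card_le hT1
    have e2 : (8:ℝ) ^ L ≤ 8 ^ L₀ := pow_le_pow_right₀ (by norm_num) hL.le
    have e3 : (8:ℝ) ^ L = 2 ^ L * (2 ^ L * 2 ^ L) := by
      rw [← mul_pow, ← mul_pow]; norm_num
    calc (k:ℝ) * T.card ≤ 2 ^ L * (K * (2 ^ L * 2 ^ L)) :=
          mul_le_mul hkLr e1 (by positivity) (by positivity)
      _ = 8 ^ L * K * 1 * 1 * 1 := by rw [e3]; ring
      _ ≤ 8 ^ L₀ * K * (2:ℝ) ^ ((2 * κ + ε) * L) * ((2:ℝ) ^ L / k) ^ Np * E.card := by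
        gcongr
  · push Not at hL
    -- shadings with exactly `k` elements
    have hsub : ∀ l : (Fin 2 → ℤ) × (Fin 2 → ℤ), ∃ Y : Finset ℕ, l ∈ T →
        (Y ⊆ (range (2 ^ L)).filter fun t => (pos L l t, t) ∈ E) ∧ #Y = k := by
      intro l
      by_cases hl : l ∈ T
      · obtain ⟨Y, hY1, hY2⟩ := exists_subset_card_eq (hk l hl)
        exact ⟨Y, fun _ => ⟨hY1, hY2⟩⟩
      · exact ⟨∅, fun h => absurd h hl⟩
    choose Y hY using hsub
    set F : Finset ((_ : (Fin 2 → ℤ) × (Fin 2 → ℤ)) × ℕ) := T.sigma Y with hF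
    have hFcard : #F = #T * k := by
      rw [hF, card_sigma, sum_congr rfl fun l hl => (hY l hl).2, sum_const, smul_eq_mul]
    have hF0 : 0 < #F := by rw [hFcard]; exact Nat.mul_pos hT0 hk0
    have hne : Nonempty F := by
      obtain ⟨p, hp⟩ := card_pos.1 hF0
      exact ⟨⟨p, hp⟩⟩
    have hFm : ∀ p : F, p.1.1 ∈ T ∧ p.1.2 ∈ Y p.1.1 := fun p => mem_sigma.1 p.2
    set P : Law F := ulaw3 F with hP
    set x : F → Fin 2 → ℤ := fun p => p.1.1.1 with hx
    set y : F → Fin 2 → ℤ := fun p => p.1.1.2 with hy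
    set t : F → ℕ := fun p => p.1.2 with ht
    have hKT' : KTf K (suppL P x y) := by
      refine hKT.mono ?_
      intro l hl
      unfold suppL at hl
      rw [mem_image] at hl
      obtain ⟨p, -, rfl⟩ := hl
      exact (hFm p).1
    have hkey := H L hL F P x y t K hK (fun p i => (hT1 _ (hFm p).1 i).1)
      (fun p i => (hT1 _ (hFm p).1 i).2)
      (fun p => mem_range.1 (mem_filter.1 ((hY _ (hFm p).1).1 (hFm p).2)).1) hKT'
    have hcF : (Fintype.card F : ℝ) = #T * k := by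
      rw [Fintype.card_coe, hFcard]
      push_cast
      rfl
    have hTr : (0 : ℝ) < #T := by exact_mod_cast hT0
    have hlcF : Real.log (Fintype.card F) = Real.log #T + Real.log k := by
      rw [hcF, Real.log_mul hTr.ne' hkr.ne']
    have hHl : P.H (fun p => (x p, y p)) = Real.log #T := by
      rw [hP, ulaw3_H (fun p : F => (x p, y p)) hk0, hlcF]
      · ring
      · intro p
        have hl : ∀ q : F, (x q, y q) = (x p, y p) → q.1.1 = p.1.1 := fun q h => h
        have e : {q : F // (x q, y q) = (x p, y p)} ≃ (Y p.1.1 : Finset ℕ) :=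
          { toFun := fun q => ⟨q.1.1.2, by
              have h1 := (hFm q.1).2
              rwa [hl q.1 q.2] at h1⟩
            invFun := fun s => ⟨⟨⟨p.1.1, s.1⟩, mem_sigma.2 ⟨(hFm p).1, s.2⟩⟩, rfl⟩
            left_inv := by
              rintro ⟨⟨⟨l, s⟩, hq⟩, hq2⟩
              have h1 : l = p.1.1 := hl ⟨⟨l, s⟩, hq⟩ hq2
              subst h1
              rfl
            right_inv := fun s => rfl }
        rw [Nat.card_congr e, Nat.card_eq_fintype_card, Fintype.card_coe, (hY _ (hFm p).1).2]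
    have hHtl : P.H (fun p => (t p, (x p, y p))) = Real.log #T + Real.log k := by
      rw [hP, ulaw3_H (fun p : F => (t p, (x p, y p))) one_pos, hlcF]
      · simp
      · intro p
        rw [Nat.card_eq_one_iff_unique]
        refine ⟨⟨fun a b => ?_⟩, ⟨⟨p, rfl⟩⟩⟩
        suffices hall : ∀ q : {q : F // (t q, (x q, y q)) = (t p, (x p, y p))}, q = ⟨p, rfl⟩ by
          rw [hall a, hall b]
        rintro ⟨q, hq⟩
        rw [Prod.mk.injEq] at hq
        have h1 : q.1.1 = p.1.1 := hq.2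
        have h2 : q.1.2 = p.1.2 := hq.1
        refine Subtype.ext (Subtype.ext ?_)
        exact Sigma.ext h1 (heq_of_eq h2)
    have hHlZ : P.H (fun p => ((x p, y p), (pos L (x p, y p) (t p), t p))) =
        P.H (fun p => (t p, (x p, y p))) := by
      refine P.H_congr fun p q => ?_
      simp only [Prod.mk.injEq]
      constructor
      · rintro ⟨⟨h1, h2⟩, _, h3⟩
        exact ⟨h3, h1, h2⟩
      · rintro ⟨h1, h2, h3⟩
        exact ⟨⟨h2, h3⟩, by rw [h1, h2, h3], h1⟩
    have hHZ : P.H (fun p => (pos L (x p, y p) (t p), t p)) ≤ Real.log #E := by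
      have hZ : ∀ p : F, (pos L (x p, y p) (t p), t p) ∈ E := fun p =>
        (mem_filter.1 ((hY _ (hFm p).1).1 (hFm p).2)).2
      have h1 := P.H_le_log_card (fun p => (⟨_, hZ p⟩ : E))
      rw [Fintype.card_coe] at h1
      refine le_trans (le_of_eq ?_) h1
      refine P.H_congr fun p q => ?_
      rw [Subtype.mk.injEq]
    unfold hc at hkey
    rw [hHlZ, hHtl, hHl] at hkey
    -- the final computation
    have hEr : (0 : ℝ) < #E := by linarith
    have hq0 : (0:ℝ) < (2:ℝ) ^ L / k := by linarith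
    have hfin : Real.log ((k : ℝ) * #T) ≤
        Real.log (K * (2:ℝ) ^ ((2 * κ + ε) * L) * ((2:ℝ) ^ L / k) ^ Np * #E) := by
      rw [Real.log_mul hkr.ne' hTr.ne', Real.log_mul (by positivity) hEr.ne',
        Real.log_mul (by positivity) (by positivity), Real.log_mul hK0.ne' (by positivity),
        Real.log_rpow (by norm_num), Real.log_rpow hq0, Real.log_div (by positivity) hkr.ne',
        Real.log_pow]
      nlinarith
    have hfin2 := (Real.log_le_log_iff (by positivity) (by positivity)).1 hfin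
    refine hfin2.trans ?_
    have h1 : (1 : ℝ) ≤ 8 ^ L₀ := one_le_pow₀ (by norm_num)
    have h2 : 0 ≤ K * (2:ℝ) ^ ((2 * κ + ε) * L) * ((2:ℝ) ^ L / k) ^ Np * #E := by positivity
    calc K * (2:ℝ) ^ ((2 * κ + ε) * L) * ((2:ℝ) ^ L / k) ^ Np * #E
        = 1 * (K * (2:ℝ) ^ ((2 * κ + ε) * L) * ((2:ℝ) ^ L / k) ^ Np * #E) := by ring
      _ ≤ 8 ^ L₀ * (K * (2:ℝ) ^ ((2 * κ + ε) * L) * ((2:ℝ) ^ L / k) ^ Np * #E) :=
        mul_le_mul_of_nonneg_right h1 h2
      _ = _ := by ring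

/-- the trivial bound -/
theorem hc_triv {Ω : Type} [Fintype Ω] (P : Law Ω) (L : ℕ) (x y : Ω → Fin 2 → ℤ) (t : Ω → ℕ)
    (hy : ∀ ω i, 0 ≤ y ω i ∧ y ω i < 2 ^ L) :
    hc P (fun ω => (x ω, y ω)) (fun ω => (pos L (x ω, y ω) (t ω), t ω)) ≤ 2 * (L * Real.log 2) := by
  classical
  have h1 : hc P (fun ω => (x ω, y ω)) (fun ω => (pos L (x ω, y ω) (t ω), t ω)) ≤
      hc P y (fun ω => (pos L (x ω, y ω) (t ω), t ω)) := by
    refine Stk.hc_mono_left P ?_
    intro ω ω' p p' e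
    simp only [Prod.mk.injEq] at e ⊢
    obtain ⟨e1, e2, e3⟩ := e
    refine ⟨?_, e1⟩
    funext i
    have h2 := congrFun e2 i
    unfold pos at h2
    simp only at h2
    rw [e1, e3] at h2
    linarith
  refine h1.trans ((Stk.hc_le_H P _ _).trans ?_)
  have hY : ∀ ω, y ω ∈ Fintype.piFinset fun _ : Fin 2 => Finset.Ico (0 : ℤ) (2 ^ L) := by
    intro ω
    rw [Fintype.mem_piFinset]
    exact fun i => mem_Ico.2 (hy ω i)
  have h3 := P.H_le_log_card (fun ω =>
    (⟨y ω, hY ω⟩ : (Fintype.piFinset fun _ : Fin 2 => Finset.Ico (0 : ℤ) (2 ^ L))))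
  have h4 : P.H y = P.H (fun ω =>
      (⟨y ω, hY ω⟩ : (Fintype.piFinset fun _ : Fin 2 => Finset.Ico (0 : ℤ) (2 ^ L)))) := by
    refine P.H_congr fun p q => ?_
    rw [Subtype.mk.injEq]
  rw [h4]
  refine h3.trans (le_of_eq ?_)
  rw [Fintype.card_coe, Fintype.card_piFinset, prod_const, card_univ, Fintype.card_fin,
    Int.card_Ico, sub_zero]
  have h5 : ((2 : ℤ) ^ L).toNat = 2 ^ L := by
    have : ((2 : ℤ) ^ L) = ((2 ^ L : ℕ) : ℤ) := by push_cast; rfl
    rw [this, Int.toNat_natCast]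
  rw [h5]
  push_cast
  rw [Real.log_pow, Real.log_pow]
  push_cast
  ring

theorem stKTUN : StKTUN := by
  intro hU κ hκ
  have hlog : 0 < Real.log 2 := Real.log_pos (by norm_num)
  obtain ⟨η, L₀, hη, H⟩ := hU (2 * κ * Real.log 2) (by positivity)
  refine ⟨2 * Real.log 2 / η, by positivity, ?_⟩
  intro ε hε
  refine ⟨L₀, ?_⟩
  intro L hL Ω _ P x y t K hK hx hy ht hKT
  have hKlog : 0 ≤ Real.log K := Real.log_nonneg hK
  have hL0 : (0:ℝ) ≤ L := Nat.cast_nonneg L
  by_cases hd : L * Real.log 2 - hc P t (fun ω => (x ω, y ω)) ≤ η * L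
  · have h1 := H L hL Ω P x y t K hK hx hy ht hKT hd
    have h2 : 0 ≤ L * Real.log 2 - hc P t (fun ω => (x ω, y ω)) := by
      have h3 := Stk.hc_le_H P t (fun ω => (x ω, y ω))
      have h4 := P.H_le_log_card (fun ω => (⟨t ω, mem_range.2 (ht ω)⟩ : (Finset.range (2 ^ L))))
      have h5 : P.H t = P.H (fun ω => (⟨t ω, mem_range.2 (ht ω)⟩ : (Finset.range (2 ^ L)))) := by
        refine P.H_congr fun p q => ?_
        rw [Subtype.mk.injEq]
      rw [Fintype.card_coe, card_range] at h4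
      push_cast at h4
      rw [Real.log_pow] at h4
      linarith
    have h6 : 0 ≤ 2 * Real.log 2 / η * (L * Real.log 2 - hc P t (fun ω => (x ω, y ω))) :=
      mul_nonneg (by positivity) h2
    have h7 : 0 ≤ ε * L := by positivity
    nlinarith
  · push Not at hd
    have h1 := hc_triv P L x y t hy
    have h2 : 2 * (L * Real.log 2) ≤
        2 * Real.log 2 / η * (L * Real.log 2 - hc P t (fun ω => (x ω, y ω))) := by
      have h3 : 2 * Real.log 2 / η * (η * L) ≤
          2 * Real.log 2 / η * (L * Real.log 2 - hc P t (fun ω => (x ω, y ω))) :=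
        mul_le_mul_of_nonneg_left hd.le (by positivity)
      refine le_trans (le_of_eq ?_) h3
      field_simp
    have h4 : 0 ≤ 2 * κ * (L * Real.log 2) := by positivity
    have h7 : 0 ≤ ε * L := by positivity
    linarith

end Vale.Agent.P117.K
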