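import Mathlib

/-! # P117 / K : Bochner-Riesz in three dimensions near `L²` from the Kakeya theorem with shadings.
Definitions and interfaces of the blocks. -/

open MeasureTheory Complex Set
open scoped ENNReal NNReal ContDiff FourierTransform SchwartzMap

set_option linter.all false

namespace Vale.Agent.P117.K

/-- physical space, also frequency space; the third coordinate is `x 2` -/
abbrev E3 := EuclideanSpace ℝ (Fin 3)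

/-- the grid indices -/
noncomputable def grd (N : ℕ) : Finset (ℤ × ℤ) := Finset.Ico (0:ℤ) N ×ˢ Finset.Ico (0:ℤ) N

/-- stereographic coordinates of a frequency `ξ` (slopes on the cone) -/
noncomputable def v1 (ξ : E3) : ℝ := ξ 0 / (1 + ξ 2)
noncomputable def v2 (ξ : E3) : ℝ := ξ 1 / (1 + ξ 2)

/-- the unit vector with stereographic coordinates `v1, v2` -/
noncomputable def omv (a b : ℝ) : E3 :=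
  !₂[2 * a / (1 + a ^ 2 + b ^ 2), 2 * b / (1 + a ^ 2 + b ^ 2), (1 - a ^ 2 - b ^ 2) / (1 + a ^ 2 + b ^ 2)]

/-- base point `(4/9, 4/9, 7/9)` of the sphere, with stereographic coordinates `(1/4, 1/4)` and slopes `(4/7, 4/7)` -/
noncomputable def xist : E3 := !₂[4/9, 4/9, 7/9]

/-- direction of the cap `k` -/
noncomputable def om (N : ℕ) (k : ℤ × ℤ) : E3 := omv (k.1 / N) (k.2 / N)

/-- slopes of the direction of the cap `k` : `om N k` is proportional to `(sl1, sl2, 1)` -/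
noncomputable def sl1 (N : ℕ) (k : ℤ × ℤ) : ℝ := 2 * (k.1 / N) / (1 - (k.1 / N) ^ 2 - (k.2 / N) ^ 2)
noncomputable def sl2 (N : ℕ) (k : ℤ × ℤ) : ℝ := 2 * (k.2 / N) / (1 - (k.1 / N) ^ 2 - (k.2 / N) ^ 2)

/-- gauge of the tube `N × N × N²` of the cap `k` -/
noncomputable def gam (N : ℕ) (k : ℤ × ℤ) (x : E3) : ℝ :=
  ‖x - (inner ℝ (om N k) x : ℝ) • om N k‖ / N + |(inner ℝ (om N k) x : ℝ)| / (N:ℝ) ^ 2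

/-- normalised tube weight -/
noncomputable def Phs (M N : ℕ) (k : ℤ × ℤ) (x : E3) : ℝ≥0∞ :=
  ENNReal.ofReal (((N:ℝ) ^ 4)⁻¹ * ((1 + gam N k x) ^ M)⁻¹)

/-- amplitudes: `g` lives in the `c1 N⁻²`-neighbourhood of the unit sphere near `xist`, and its normalised slopes
`N v - o` stay away from the integers -/
structure Ams (c1 : ℝ) (N : ℕ) (o1 o2 : ℝ) (g : E3 → ℂ) : Prop where
  meas : Measurable g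
  int : Integrable g
  sq : ∫⁻ ξ, ‖g ξ‖ₑ ^ 2 < ⊤
  sph : ∀ ξ, g ξ ≠ 0 → |‖ξ‖ ^ 2 - 1| ≤ c1 / (N:ℝ) ^ 2
  loc : ∀ ξ, g ξ ≠ 0 → ‖ξ - xist‖ ≤ c1
  grid1 : ∀ ξ, g ξ ≠ 0 → 1 / 8 ≤ Int.fract (N * v1 ξ - o1) ∧ Int.fract (N * v1 ξ - o1) ≤ 7 / 8
  grid2 : ∀ ξ, g ξ ≠ 0 → 1 / 8 ≤ Int.fract (N * v2 ξ - o2) ∧ Int.fract (N * v2 ξ - o2) ≤ 7 / 8

/-- the piece of `g` in the cell `k` of the grid shifted by `o` -/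
noncomputable def pc (N : ℕ) (o1 o2 : ℝ) (k : ℤ × ℤ) (g : E3 → ℂ) (ξ : E3) : ℂ := by
  classical exact if (⌊N * v1 ξ - o1⌋, ⌊N * v2 ξ - o2⌋) = k then g ξ else 0

/-- the tube averages of the piece `k` -/
noncomputable def den (M N : ℕ) (o1 o2 : ℝ) (g : E3 → ℂ) (k : ℤ × ℤ) (x : E3) : ℝ≥0∞ :=
  ∫⁻ y, ‖𝓕⁻ (pc N o1 o2 k g) y‖ₑ ^ 2 * Phs M N k (x - y)

/-- the square function with tube averages -/
noncomputable def SqS (M N : ℕ) (o1 o2 : ℝ) (g : E3 → ℂ) (x : E3) : ℝ≥0∞ :=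
  ∑ k ∈ grd N, den M N o1 o2 g k x

/-! ## LIFT blocks: consequences of the theorems on the cone of P106 -/

/-- [REF3] refined square function estimate at exponent three -/
def StREF3 : Prop := ∀ (ε : ℝ) (M : ℕ), 0 < ε → ∃ (K0 : ℕ) (c1 C : ℝ), 2 ≤ K0 ∧ 0 < c1 ∧ 0 ≤ C ∧
  ∀ (n : ℕ) (o1 o2 : ℝ) (g : E3 → ℂ), 2 ≤ n → o1 ∈ Icc (0:ℝ) (1/2) → o2 ∈ Icc (0:ℝ) (1/2) → Ams c1 (K0 ^ n) o1 o2 g →
    ∫⁻ x, ‖𝓕⁻ g x‖ₑ ^ 3 / SqS M (K0 ^ n) o1 o2 g x ^ (1/2 : ℝ) ≤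
      ENNReal.ofReal (C * ((K0:ℝ) ^ n) ^ ε) * ∫⁻ ξ, ‖g ξ‖ₑ ^ 2

/-- [LOC3] local orthogonality on balls of radius `N` -/
def StLOC3 : Prop := ∀ (M : ℕ), ∃ (c1 C : ℝ), 0 < c1 ∧ 0 ≤ C ∧
  ∀ (N : ℕ) (o1 o2 : ℝ) (g : E3 → ℂ), 4 ≤ N → o1 ∈ Icc (0:ℝ) (1/2) → o2 ∈ Icc (0:ℝ) (1/2) → Ams c1 N o1 o2 g →
    ∀ y : E3, ∫⁻ x in Metric.closedBall y N, ‖𝓕⁻ g x‖ₑ ^ 2 ≤ ENNReal.ofReal (C * (N:ℝ) ^ 3) * SqS M N o1 o2 g y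

/-- [BER3] crude pointwise bound -/
def StBER3 : Prop := ∀ (M : ℕ), ∃ (c1 C : ℝ), 0 < c1 ∧ 0 ≤ C ∧
  ∀ (N : ℕ) (o1 o2 : ℝ) (g : E3 → ℂ), 4 ≤ N → o1 ∈ Icc (0:ℝ) (1/2) → o2 ∈ Icc (0:ℝ) (1/2) → Ams c1 N o1 o2 g →
    ∀ y : E3, ‖𝓕⁻ g y‖ₑ ^ 2 ≤ ENNReal.ofReal (C * (N:ℝ) ^ 20) * SqS M N o1 o2 g y

/-! ## KIN blocks -/

/-- measurable, integrable and bounded by one -/
structure Ad1 (h : E3 → ℂ) : Prop where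
  meas : Measurable h
  int : Integrable h
  bdd : ∀ x, ‖h x‖ ≤ 1

/-- admissible input: measurable, integrable and bounded (Schwartz functions, and their rotations, are) -/
structure Adf (h : E3 → ℂ) : Prop where
  meas : Measurable h
  int : Integrable h
  bdd : ∃ C : ℝ, ∀ x, ‖h x‖ ≤ C

/-- radial profile supported in `[-c1, c1]` -/
structure Prf (c1 : ℝ) (φ : ℝ → ℂ) : Prop where
  smooth : ContDiff ℝ ∞ φ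
  supp : ∀ u, φ u ≠ 0 → |u| ≤ c1

/-- spatial cutoff supported in the ball of radius `c1` around `xist` -/
structure Cut (c1 : ℝ) (χ : E3 → ℂ) : Prop where
  smooth : ContDiff ℝ ∞ χ
  supp : ∀ ξ, χ ξ ≠ 0 → ‖ξ - xist‖ ≤ c1

/-- the multiplier of the localised Bochner-Riesz operator at scale `R` -/
noncomputable def mult (φ : ℝ → ℂ) (χ : E3 → ℂ) (R : ℝ) (ξ : E3) : ℂ := φ (R * (‖ξ‖ ^ 2 - 1)) * χ ξ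

/-- the localised Bochner-Riesz operator at scale `R` -/
noncomputable def SR (φ : ℝ → ℂ) (χ : E3 → ℂ) (R : ℝ) (h : E3 → ℂ) : E3 → ℂ :=
  𝓕⁻ (fun ξ => mult φ χ R ξ * 𝓕 h ξ)

/-- sheared plank of half-dimensions `w1, w2, R` through `p`, with the slope `(s1, s2)` and the horizontal frame
`(a, b), (-b, a)` -/
def Plk (R a b s1 s2 w1 w2 : ℝ) (p : E3) : Set E3 :=
  {z | |a * (z 0 - p 0 - s1 * (z 2 - p 2)) + b * (z 1 - p 1 - s2 * (z 2 - p 2))| ≤ w1 ∧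
    |-b * (z 0 - p 0 - s1 * (z 2 - p 2)) + a * (z 1 - p 1 - s2 * (z 2 - p 2))| ≤ w2 ∧ |z 2 - p 2| ≤ R}

/-- the direction of the cap `k` is in the plank -/
def dirP (N : ℕ) (R a b s1 s2 w1 w2 : ℝ) (k : ℤ × ℤ) : Prop :=
  |a * (sl1 N k - s1) + b * (sl2 N k - s2)| ≤ w1 / R ∧ |-b * (sl1 N k - s1) + a * (sl2 N k - s2)| ≤ w2 / R

/-- weighted Katz-Tao condition for densities -/
def KTd (N : ℕ) (A : ℝ) (ν : ℤ × ℤ → E3 → ℝ≥0∞) : Prop := by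
  classical exact
  ∀ (a b s1 s2 w1 w2 : ℝ) (p : E3), a ^ 2 + b ^ 2 = 1 → (N:ℝ) ≤ w1 → w1 ≤ w2 →
    ∑ k ∈ (grd N).filter (fun k => dirP N ((N:ℝ) ^ 2) a b s1 s2 w1 w2 k), ∫⁻ x in Plk ((N:ℝ) ^ 2) a b s1 s2 w1 w2 p, ν k x ≤
      ENNReal.ofReal (A * (w1 * w2 * (N:ℝ) ^ 2))

/-- [KIN3] decomposition of `SR h` into four amplitudes on shifted grids, with control of their tube averages. The
shifts are `0` and `1/2`. -/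
def StKIN3 : Prop := ∀ ε : ℝ, 0 < ε → ∃ M0 : ℕ, ∀ (M : ℕ) (B c1 : ℝ) (φ : ℝ → ℂ) (χ : E3 → ℂ), M0 ≤ M → 1 ≤ B →
  0 < c1 → c1 ≤ 1 / 100 → Prf c1 φ → Cut c1 χ → ∃ C : ℝ, 1 ≤ C ∧
  ∀ (N : ℕ) (R : ℝ) (h : E3 → ℂ), 4 ≤ N → (N:ℝ) ^ 2 ≤ R → R ≤ B * (N:ℝ) ^ 2 → Ad1 h →
  ∃ g : Fin 2 × Fin 2 → E3 → ℂ,
    (∀ o, Ams c1 N (o.1.val / 2) (o.2.val / 2) (g o)) ∧
    (∀ x, ‖SR φ χ R h x‖ ≤ ∑ o, ‖𝓕⁻ (g o) x‖) ∧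
    (∀ o, ∫⁻ ξ, ‖g o ξ‖ₑ ^ 2 ≤ ENNReal.ofReal C * ∫⁻ y, ‖h y‖ₑ ^ 2) ∧
    (∀ o k x, den M N (o.1.val / 2) (o.2.val / 2) (g o) k x ≤ ENNReal.ofReal C) ∧
    (∀ o, KTd N (C * (N:ℝ) ^ ε) (den M N (o.1.val / 2) (o.2.val / 2) (g o)))

/-- [KINB] elementary facts on the densities: Peetre, mass, localisation of the indices -/
def StKINB : Prop := ∀ M : ℕ, 5 ≤ M → ∃ C : ℝ, 1 ≤ C ∧ ∀ (N : ℕ) (c1 o1 o2 : ℝ) (g : E3 → ℂ), 4 ≤ N → 0 < c1 → c1 ≤ 1 / 100 →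
  o1 ∈ Icc (0:ℝ) (1/2) → o2 ∈ Icc (0:ℝ) (1/2) → Ams c1 N o1 o2 g →
    (∀ k, Measurable (den M N o1 o2 g k)) ∧
    (∀ k x y, den M N o1 o2 g k x ≤ ENNReal.ofReal ((1 + gam N k (x - y)) ^ M) * den M N o1 o2 g k y) ∧
    (∫⁻ x, SqS M N o1 o2 g x ≤ ENNReal.ofReal C * ∫⁻ ξ, ‖g ξ‖ₑ ^ 2) ∧
    (∫⁻ x, ‖𝓕⁻ g x‖ₑ ^ 2 ≤ ∫⁻ ξ, ‖g ξ‖ₑ ^ 2) ∧
    (∀ k x, den M N o1 o2 g k x ≠ 0 → k ∈ grd N ∧ |(k.1:ℝ) / N - 1/4| ≤ 3 * c1 + 2 / N ∧ |(k.2:ℝ) / N - 1/4| ≤ 3 * c1 + 2 / N)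

/-! ## The geometric block -/

/-- position of the line `(x, y)` at time `t` : `x + ⌊t y / 2^L⌋` (same as `P127.M3.pos`) -/
def pos (L : ℕ) (l : (Fin 2 → ℤ) × (Fin 2 → ℤ)) (t : ℕ) : Fin 2 → ℤ := fun i => l.1 i + t * l.2 i / 2 ^ L

/-- number of times at which the line `l` is in the set `E` of cells -/
def hits (L : ℕ) (l : (Fin 2 → ℤ) × (Fin 2 → ℤ)) (E : Finset ((Fin 2 → ℤ) × ℕ)) : ℕ :=
  Finset.card ((Finset.range (2 ^ L)).filter fun t => (pos L l t, t) ∈ E)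

/-- the line `(x, y)` belongs to the plank of widths `w1, w2` around the line `(x0, y0)` -/
def inP (a b w1 w2 : ℝ) (x0 y0 : Fin 2 → ℝ) (l : (Fin 2 → ℤ) × (Fin 2 → ℤ)) : Prop :=
  |a * (l.1 0 - x0 0) + b * (l.1 1 - x0 1)| ≤ w1 ∧ |-b * (l.1 0 - x0 0) + a * (l.1 1 - x0 1)| ≤ w2 ∧
  |a * (l.2 0 - y0 0) + b * (l.2 1 - y0 1)| ≤ w1 ∧ |-b * (l.2 0 - y0 0) + a * (l.2 1 - y0 1)| ≤ w2

/-- Katz-Tao condition with constant `K` for a finite set of lines -/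
def KTf (K : ℝ) (T : Finset ((Fin 2 → ℤ) × (Fin 2 → ℤ))) : Prop := by
  classical exact
  ∀ (a b w1 w2 : ℝ) (x0 y0 : Fin 2 → ℝ), a ^ 2 + b ^ 2 = 1 → 1 ≤ w1 → w1 ≤ w2 →
    ((T.filter (fun l => inP a b w1 w2 x0 y0 l)).card : ℝ) ≤ K * (w1 * w2)

/-- the Kakeya estimate for Katz-Tao families with shadings of density `k / 2^L`, price `Np` for the density of the
shading, loss `2κ`; `Np` finite and `κ` small, or `κ = 0` -/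
def StKTc (κ Np : ℝ) : Prop := ∀ ε : ℝ, 0 < ε → ∃ C : ℝ, 0 ≤ C ∧
  ∀ (L : ℕ) (T : Finset ((Fin 2 → ℤ) × (Fin 2 → ℤ))) (K : ℝ) (E : Finset ((Fin 2 → ℤ) × ℕ)) (k : ℕ), 1 ≤ K →
    (∀ l ∈ T, ∀ i, (0 ≤ l.1 i ∧ l.1 i < 2 ^ L) ∧ (0 ≤ l.2 i ∧ l.2 i < 2 ^ L)) → KTf K T → 1 ≤ k → (∀ l ∈ T, k ≤ hits L l E) →
    (k:ℝ) * T.card ≤ C * K * (2:ℝ) ^ ((2 * κ + ε) * L) * ((2:ℝ) ^ L / k) ^ Np * E.card

/-- [GEO3] bounded, locally constant, Katz-Tao densities: the level `σ` of the sum is small if the level set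
carries a large portion `e` of the mass -/
def StGEO3 (κ Np : ℝ) : Prop := ∀ ε : ℝ, 0 < ε → ∃ ε1 : ℝ, 0 < ε1 ∧ ∀ (M : ℕ) (C : ℝ), 1 ≤ C → ∃ K : ℝ, 0 ≤ K ∧
  ∀ (N : ℕ) (ν : ℤ × ℤ → E3 → ℝ≥0∞), 4 ≤ N →
    (∀ k, Measurable (ν k)) →
    (∀ k x, ν k x ≤ ENNReal.ofReal C) →
    (∀ k x y, ν k x ≤ ENNReal.ofReal ((1 + gam N k (x - y)) ^ M) * ν k y) →
    (∀ k x, ν k x ≠ 0 → |(k.1:ℝ) / N - 1/4| ≤ 3 / 100 + 2 / N ∧ |(k.2:ℝ) / N - 1/4| ≤ 3 / 100 + 2 / N) →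
    KTd N (C * (N:ℝ) ^ ε1) ν →
    ∀ (X : Set E3) (σ e E : ℝ), MeasurableSet X → 0 < σ → 0 < e → e ≤ 1 → 0 < E →
      (∀ x ∈ X, ENNReal.ofReal σ ≤ ∑ k ∈ grd N, ν k x ∧ ∑ k ∈ grd N, ν k x ≤ ENNReal.ofReal (C ^ 3 * σ)) →
      (∫⁻ x, ∑ k ∈ grd N, ν k x ≤ ENNReal.ofReal (C * E)) →
      ENNReal.ofReal (e * E) ≤ ENNReal.ofReal σ * volume X →
      σ * e ^ Np ≤ K * (N:ℝ) ^ (2 * κ + ε)

/-! ## The chain -/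

/-- [CH3] `f = |F|`, `S` the square function, `E` the energy -/
def StCH3 : Prop := ∀ (κ Np p ε' : ℝ), 0 ≤ κ → 0 ≤ Np → 2 < p → p ≤ 2 + 2 / (Np + 2) → 0 < ε' → ∃ ε : ℝ, 0 < ε ∧
  ∀ (C K : ℝ), 2 ≤ C → 0 ≤ K → ∃ C' : ℝ, 0 ≤ C' ∧
  ∀ (N : ℕ) (f S : E3 → ℝ≥0∞) (E : ℝ), 2 ≤ N → Measurable f → Measurable S → 0 < E →
  (∫⁻ z, f z ^ 3 / S z ^ (1/2 : ℝ) ≤ ENNReal.ofReal (C * (N:ℝ) ^ ε * E)) →
  (∀ z, ∫⁻ u in Metric.closedBall z N, f u ^ 2 ≤ ENNReal.ofReal (C * (N:ℝ) ^ 3) * S z) →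
  (∀ z, f z ^ 2 ≤ ENNReal.ofReal (C * (N:ℝ) ^ 20) * S z) →
  (∀ z, S z ≤ ENNReal.ofReal (C * (N:ℝ) ^ 20)) →
  (∀ z u, dist z u ≤ N → S z ≤ ENNReal.ofReal C * S u) →
  (∫⁻ z, f z ^ 2 ≤ ENNReal.ofReal (C * E)) →
  (∫⁻ z, S z ≤ ENNReal.ofReal (C * E)) →
  (∀ (X : Set E3) (σ e : ℝ), MeasurableSet X → 0 < σ → 0 < e → e ≤ 1 →
    (∀ z ∈ X, ENNReal.ofReal σ ≤ S z ∧ S z ≤ ENNReal.ofReal (C ^ 3 * σ)) →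
    ENNReal.ofReal (e * E) ≤ ENNReal.ofReal σ * volume X →
    σ * e ^ Np ≤ K * (N:ℝ) ^ (2 * κ + ε)) →
  ∫⁻ z, f z ^ p ≤ ENNReal.ofReal (C' * (N:ℝ) ^ (κ * (p - 2) + ε') * E)

/-! ## From local to global -/

/-- the localised estimate for bounded functions: loss `R^{A}` for the `p`-th power -/
def StBRb (p A : ℝ) : Prop := ∀ ε : ℝ, 0 < ε → ∃ c1 : ℝ, 0 < c1 ∧ ∀ (φ : ℝ → ℂ) (χ : E3 → ℂ), Prf c1 φ → Cut c1 χ →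
  ∃ C : ℝ, 0 ≤ C ∧ ∀ (R : ℝ) (h : E3 → ℂ), 1 ≤ R → Ad1 h →
    ∫⁻ x, ‖SR φ χ R h x‖ₑ ^ p ≤ ENNReal.ofReal (C * R ^ (A + ε)) * ∫⁻ y, ‖h y‖ₑ ^ 2

/-- the localised estimate in `L^p` with loss `R^a` -/
def StBRp (p a : ℝ) : Prop := ∀ ε : ℝ, 0 < ε → ∃ c1 : ℝ, 0 < c1 ∧ ∀ (φ : ℝ → ℂ) (χ : E3 → ℂ), Prf c1 φ → Cut c1 χ →
  ∃ C : ℝ, 0 ≤ C ∧ ∀ (R : ℝ) (f : E3 → ℂ), 1 ≤ R → Adf f →
    eLpNorm (SR φ χ R f) (ENNReal.ofReal p) volume ≤ ENNReal.ofReal (C * R ^ (a + ε)) * eLpNorm f (ENNReal.ofReal p) volume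

/-- [RST] restricted to strong type -/
def StRST : Prop := ∀ (p A : ℝ), 2 < p → 0 ≤ A → StBRb p A → StBRp p (A / p)

/-- the Bochner-Riesz operator of order delta (same as in `Results/P117/Axial`) -/
noncomputable def bochnerRiesz (δ : ℝ) (f : E3 → ℂ) (x : E3) : ℂ :=
  ∫ ξ : E3, (if ‖ξ‖ < 1 then (((1 - ‖ξ‖ ^ 2) ^ δ : ℝ) : ℂ) else 0) * 𝓕 f ξ *
    cexp (2 * Real.pi * I * (inner ℝ x ξ : ℝ))

/-- `T_δ` is bounded on `L^p` -/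
def BRbdd (δ : ℝ) (p : ℝ≥0∞) : Prop := ∃ C : ℝ≥0, ∀ f : 𝓢(E3, ℂ),
  eLpNorm (bochnerRiesz δ f) p volume ≤ C * eLpNorm (f : E3 → ℂ) p volume

/-- [TOP3] summation over the dyadic scales and the finitely many caps -/
def StTOP3 : Prop := ∀ (p a : ℝ), 2 < p → 0 ≤ a → StBRp p a → ∀ δ : ℝ, a < δ → BRbdd δ (ENNReal.ofReal p)

/-- [DUAL3] duality -/
def StDUAL3 : Prop := ∀ (p q δ : ℝ), 1 < p → 1 < q → 1 / p + 1 / q = 1 → 0 < δ → BRbdd δ (ENNReal.ofReal p) →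
  BRbdd δ (ENNReal.ofReal q)

/-- [ITP3] the range between `2` and `p0` by interpolation with `L²` (not needed if all `p` are proved directly) -/
def StL2 : Prop := ∀ δ : ℝ, 0 ≤ δ → BRbdd δ 2

end Vale.Agent.P117.K
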