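import Vale.Agent.P117.K.GeoDefs

/-!
# P117 / K : block GEO3, elementary geometry of the tubes
-/

namespace Vale.Agent.P117.K.Geo

open Finset MeasureTheory
open scoped ENNReal

/-- the caps near the base point -/
noncomputable def Gk (N : ℕ) : Finset (ℤ × ℤ) := by
  classical exact {k ∈ grd N | |(k.1:ℝ) / N - 1/4| ≤ 1/20 ∧ |(k.2:ℝ) / N - 1/4| ≤ 1/20}

section geom

variable {N : ℕ} {k : ℤ × ℤ}

lemma mem_Gk : k ∈ Gk N ↔ k ∈ grd N ∧ |(k.1:ℝ) / N - 1/4| ≤ 1/20 ∧ |(k.2:ℝ) / N - 1/4| ≤ 1/20 := by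
  unfold Gk
  rw [mem_filter]

/-- bounds of the coordinates -/
lemma Gk_bds (hk : k ∈ Gk N) : (1/5 ≤ (k.1:ℝ) / N ∧ (k.1:ℝ) / N ≤ 3/10) ∧
    (1/5 ≤ (k.2:ℝ) / N ∧ (k.2:ℝ) / N ≤ 3/10) := by
  obtain ⟨-, h1, h2⟩ := mem_Gk.1 hk
  have h3 := abs_le.1 h1
  have h4 := abs_le.1 h2
  refine ⟨⟨?_, ?_⟩, ⟨?_, ?_⟩⟩ <;> linarith [h3.1, h3.2, h4.1, h4.2]

/-- `|v|²` -/
noncomputable def vv (N : ℕ) (k : ℤ × ℤ) : ℝ := ((k.1:ℝ) / N) ^ 2 + ((k.2:ℝ) / N) ^ 2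

lemma vv_nonneg : 0 ≤ vv N k := by unfold vv; positivity

lemma vv_le (hk : k ∈ Gk N) : vv N k ≤ 18 / 100 := by
  obtain ⟨⟨h1, h2⟩, ⟨h3, h4⟩⟩ := Gk_bds hk
  unfold vv
  nlinarith

lemma inner3 (x y : E3) : inner ℝ x y = x 0 * y 0 + x 1 * y 1 + x 2 * y 2 := by
  rw [PiLp.inner_apply, Fin.sum_univ_three]
  simp only [RCLike.inner_apply, conj_trivial]
  ring

lemma norm3 (x : E3) : ‖x‖ ^ 2 = x 0 ^ 2 + x 1 ^ 2 + x 2 ^ 2 := by
  rw [← real_inner_self_eq_norm_sq, inner3]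
  ring

lemma norm_le3 (x : E3) : ‖x‖ ≤ |x 0| + |x 1| + |x 2| := by
  refine abs_le_of_sq_le_sq' ?_ (by positivity) |>.2
  rw [norm3]
  have h0 := abs_nonneg (x 0)
  have h1 := abs_nonneg (x 1)
  have h2 := abs_nonneg (x 2)
  rw [← sq_abs (x 0), ← sq_abs (x 1), ← sq_abs (x 2)]
  nlinarith [mul_nonneg h0 h1, mul_nonneg h0 h2, mul_nonneg h1 h2]

lemma om_zero : om N k 0 = 2 * (k.1 / N) / (1 + vv N k) := by
  show 2 * ((k.1:ℝ) / N) / (1 + ((k.1:ℝ) / N) ^ 2 + ((k.2:ℝ) / N) ^ 2) = _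
  unfold vv
  rw [add_assoc]
lemma om_one : om N k 1 = 2 * (k.2 / N) / (1 + vv N k) := by
  show 2 * ((k.2:ℝ) / N) / (1 + ((k.1:ℝ) / N) ^ 2 + ((k.2:ℝ) / N) ^ 2) = _
  unfold vv
  rw [add_assoc]
lemma om_two : om N k 2 = (1 - vv N k) / (1 + vv N k) := by
  show (1 - ((k.1:ℝ) / N) ^ 2 - ((k.2:ℝ) / N) ^ 2) / (1 + ((k.1:ℝ) / N) ^ 2 + ((k.2:ℝ) / N) ^ 2) = _
  unfold vv
  rw [add_assoc, sub_sub]

lemma norm_om' : ‖om N k‖ = 1 := by
  have h0 : 0 < 1 + vv N k := by have := vv_nonneg (N := N) (k := k); linarith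
  have h1 : ‖om N k‖ ^ 2 = 1 := by
    rw [norm3, om_zero, om_one, om_two]
    rw [div_pow, div_pow, div_pow, ← add_div, ← add_div, div_eq_one_iff_eq (by positivity)]
    have h2 : (2 * ((k.1:ℝ) / N)) ^ 2 + (2 * ((k.2:ℝ) / N)) ^ 2 = 4 * vv N k := by
      unfold vv
      ring
    rw [h2]
    ring
  have h2 := norm_nonneg (om N k)
  nlinarith

lemma om_two_ge (hk : k ∈ Gk N) : 41 / 59 ≤ om N k 2 := by
  have h0 := vv_nonneg (N := N) (k := k)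
  have h1 := vv_le hk
  rw [om_two, le_div_iff₀ (by linarith)]
  linarith

/-- the slopes -/
noncomputable def sk (N : ℕ) (k : ℤ × ℤ) : Fin 2 → ℝ := ![sl1 N k, sl2 N k]

lemma sk_zero : sk N k 0 = 2 * ((k.1:ℝ) / N) / (1 - vv N k) := by
  show 2 * ((k.1:ℝ) / N) / (1 - ((k.1:ℝ) / N) ^ 2 - ((k.2:ℝ) / N) ^ 2) = _
  unfold vv
  rw [sub_sub]
lemma sk_one : sk N k 1 = 2 * ((k.2:ℝ) / N) / (1 - vv N k) := by
  show 2 * ((k.2:ℝ) / N) / (1 - ((k.1:ℝ) / N) ^ 2 - ((k.2:ℝ) / N) ^ 2) = _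
  unfold vv
  rw [sub_sub]

lemma sk_mul (hk : k ∈ Gk N) :
    sk N k 0 * om N k 2 = om N k 0 ∧ sk N k 1 * om N k 2 = om N k 1 := by
  have h0 := vv_nonneg (N := N) (k := k)
  have h1 := vv_le hk
  have h2 : (1:ℝ) - vv N k ≠ 0 := by linarith
  have h3 : (1:ℝ) + vv N k ≠ 0 := by linarith
  rw [om_zero, om_one, om_two, sk_zero, sk_one]
  constructor
  · field_simp
  · field_simp

lemma sk_bds (hk : k ∈ Gk N) (i : Fin 2) : 2 / 5 ≤ sk N k i ∧ sk N k i ≤ 3 / 4 := by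
  have h0 := vv_nonneg (N := N) (k := k)
  have h1 := vv_le hk
  obtain ⟨⟨h2, h3⟩, ⟨h5, h6⟩⟩ := Gk_bds hk
  have h4 : (0:ℝ) < 1 - vv N k := by linarith
  have key : ∀ v : ℝ, 1 / 5 ≤ v → v ≤ 3 / 10 → 2 / 5 ≤ 2 * v / (1 - vv N k) ∧
      2 * v / (1 - vv N k) ≤ 3 / 4 := by
    intro v hv hv'
    rw [le_div_iff₀ h4, div_le_iff₀ h4]
    constructor <;> linarith
  fin_cases i
  · show 2 / 5 ≤ sk N k 0 ∧ sk N k 0 ≤ 3 / 4
    rw [sk_zero]
    exact key _ h2 h3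
  · show 2 / 5 ≤ sk N k 1 ∧ sk N k 1 ≤ 3 / 4
    rw [sk_one]
    exact key _ h5 h6

/-- integer direction of the cap `k` -/
noncomputable def yk (L N : ℕ) (k : ℤ × ℤ) : Fin 2 → ℤ := fun i => ⌊(2:ℝ) ^ L * sk N k i⌋

lemma yk_range (L : ℕ) (hk : k ∈ Gk N) (i : Fin 2) :
    0 ≤ yk L N k i ∧ yk L N k i < 2 ^ L := by
  have h1 := sk_bds hk i
  have hp : (0:ℝ) < 2 ^ L := by positivity
  unfold yk
  constructor
  · apply Int.floor_nonneg.2
    have : 0 ≤ sk N k i := by linarith [h1.1]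
    positivity
  · rw [Int.floor_lt]
    push_cast
    have : sk N k i < 1 := by linarith [h1.2]
    nlinarith

lemma expand_aux {a b a' b' p q V V' : ℝ} (hV : V = a ^ 2 + b ^ 2) (hV' : V' = a' ^ 2 + b' ^ 2)
    (hp1 : 1 ≤ p) (hq1 : 1 ≤ q) (hmono : 0 ≤ (p - q) * (V - V')) :
    (a - a') ^ 2 + (b - b') ^ 2 ≤ (a * p - a' * q) ^ 2 + (b * p - b' * q) ^ 2 := by
  have hd0 : 0 ≤ (a - a') ^ 2 + (b - b') ^ 2 := by positivity
  have h6 : (a * p - a' * q) * (a - a') + (b * p - b' * q) * (b - b') =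
      (p + q) / 2 * ((a - a') ^ 2 + (b - b') ^ 2) + (p - q) * (V - V') / 2 := by
    rw [hV, hV']
    ring
  have h5 : (a - a') ^ 2 + (b - b') ^ 2 ≤
      (a * p - a' * q) * (a - a') + (b * p - b' * q) * (b - b') := by
    rw [h6]
    have h7 := mul_nonneg (sub_nonneg.2 hp1) hd0
    have h8 := mul_nonneg (sub_nonneg.2 hq1) hd0
    linarith
  have h7 : ((a * p - a' * q) * (a - a') + (b * p - b' * q) * (b - b')) ^ 2 ≤
      ((a * p - a' * q) ^ 2 + (b * p - b' * q) ^ 2) * ((a - a') ^ 2 + (b - b') ^ 2) := by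
    have h8 := sq_nonneg ((a * p - a' * q) * (b - b') - (b * p - b' * q) * (a - a'))
    have h9 : ((a * p - a' * q) ^ 2 + (b * p - b' * q) ^ 2) * ((a - a') ^ 2 + (b - b') ^ 2) =
        ((a * p - a' * q) * (a - a') + (b * p - b' * q) * (b - b')) ^ 2 +
        ((a * p - a' * q) * (b - b') - (b * p - b' * q) * (a - a')) ^ 2 := by ring
    rw [h9]
    linarith
  have h8 : ((a - a') ^ 2 + (b - b') ^ 2) ^ 2 ≤
      ((a * p - a' * q) ^ 2 + (b * p - b' * q) ^ 2) * ((a - a') ^ 2 + (b - b') ^ 2) :=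
    le_trans (pow_le_pow_left₀ hd0 h5 2) h7
  rcases hd0.eq_or_lt with h | h
  · rw [← h]; positivity
  · rw [pow_two] at h8
    exact le_of_mul_le_mul_right h8 h

/-- the map from `v` to the slope is expanding -/
lemma sk_expand {k' : ℤ × ℤ} (hk : k ∈ Gk N) (hk' : k' ∈ Gk N) :
    4 * (((k.1:ℝ) / N - k'.1 / N) ^ 2 + ((k.2:ℝ) / N - k'.2 / N) ^ 2) ≤
      (sk N k 0 - sk N k' 0) ^ 2 + (sk N k 1 - sk N k' 1) ^ 2 := by
  have h0 := vv_nonneg (N := N) (k := k)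
  have h1 := vv_le hk
  have h0' := vv_nonneg (N := N) (k := k')
  have h1' := vv_le hk'
  have hp1 : 1 ≤ 1 / (1 - vv N k) := by
    rw [le_div_iff₀ (by linarith)]
    linarith
  have hq1 : 1 ≤ 1 / (1 - vv N k') := by
    rw [le_div_iff₀ (by linarith)]
    linarith
  have hmono : 0 ≤ (1 / (1 - vv N k) - 1 / (1 - vv N k')) * (vv N k - vv N k') := by
    have h3 : (1:ℝ) - vv N k ≠ 0 := by linarith
    have h4 : (1:ℝ) - vv N k' ≠ 0 := by linarith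
    have h2 : 1 / (1 - vv N k) - 1 / (1 - vv N k') =
        (vv N k - vv N k') * (1 / (1 - vv N k) * (1 / (1 - vv N k'))) := by
      field_simp
      ring
    rw [h2]
    have h5 : 0 ≤ 1 / (1 - vv N k) * (1 / (1 - vv N k')) := by positivity
    have h6 := mul_nonneg (sq_nonneg (vv N k - vv N k')) h5
    calc 0 ≤ _ := h6
      _ = _ := by ring
  have h := expand_aux (a := (k.1:ℝ) / N) (b := (k.2:ℝ) / N) (a' := (k'.1:ℝ) / N)
    (b' := (k'.2:ℝ) / N) (V := vv N k) (V' := vv N k') rfl rfl hp1 hq1 hmono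
  rw [sk_zero, sk_one, sk_zero, sk_one]
  calc _ ≤ 4 * _ := mul_le_mul_of_nonneg_left h (by norm_num)
    _ = _ := by ring

/-- few caps have the same integer direction -/
lemma yk_fibre {L : ℕ} (hN : 1 ≤ N) (hL : N ≤ 2 ^ L) (y : Fin 2 → ℤ) :
    #{k ∈ Gk N | yk L N k = y} ≤ 9 := by
  classical
  rcases ({k ∈ Gk N | yk L N k = y}).eq_empty_or_nonempty with h | ⟨k0, hk0⟩
  · rw [h, card_empty]
    norm_num
  have hN0 : (0:ℝ) < N := by exact_mod_cast hN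
  have hLN : (N:ℝ) ≤ 2 ^ L := by exact_mod_cast hL
  have hp : (0:ℝ) < 2 ^ L := by positivity
  rw [mem_filter] at hk0
  have hsub : ({k ∈ Gk N | yk L N k = y} : Finset (ℤ × ℤ)) ⊆
      Finset.Icc (k0.1 - 1) (k0.1 + 1) ×ˢ Finset.Icc (k0.2 - 1) (k0.2 + 1) := by
    intro k hk
    rw [mem_filter] at hk
    have h1 : ∀ i, |sk N k i - sk N k0 i| < 2 / N := by
      intro i
      have h2 : yk L N k i = yk L N k0 i := by rw [hk.2, hk0.2]
      unfold yk at h2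
      have h3 := Int.abs_sub_lt_one_of_floor_eq_floor h2
      have h4 : (2:ℝ) ^ L * sk N k i - 2 ^ L * sk N k0 i =
          2 ^ L * (sk N k i - sk N k0 i) := by ring
      rw [h4, abs_mul, abs_of_pos (by positivity)] at h3
      rw [lt_div_iff₀ hN0]
      have h5 := abs_nonneg (sk N k i - sk N k0 i)
      nlinarith
    have h2 := sk_expand hk.1 hk0.1
    have h3 : (sk N k 0 - sk N k0 0) ^ 2 < (2 / N) ^ 2 := by
      rw [← sq_abs]
      exact pow_lt_pow_left₀ (h1 0) (abs_nonneg _) (by norm_num)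
    have h4 : (sk N k 1 - sk N k0 1) ^ 2 < (2 / N) ^ 2 := by
      rw [← sq_abs]
      exact pow_lt_pow_left₀ (h1 1) (abs_nonneg _) (by norm_num)
    have h5 : (((k.1 - k0.1 : ℤ) : ℝ)) ^ 2 + (((k.2 - k0.2 : ℤ)):ℝ) ^ 2 < 2 := by
      have h6 : ((k.1:ℝ) / N - k0.1 / N) ^ 2 + ((k.2:ℝ) / N - k0.2 / N) ^ 2 =
          ((((k.1 - k0.1 : ℤ) : ℝ)) ^ 2 + (((k.2 - k0.2 : ℤ)):ℝ) ^ 2) / (N:ℝ) ^ 2 := by
        push_cast
        field_simp
      rw [h6] at h2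
      have h7 : 4 * (((((k.1 - k0.1 : ℤ) : ℝ)) ^ 2 + (((k.2 - k0.2 : ℤ)):ℝ) ^ 2) / (N:ℝ) ^ 2) <
          8 / (N:ℝ) ^ 2 := by
        calc _ ≤ _ := h2
          _ < (2 / N) ^ 2 + (2 / N) ^ 2 := by linarith
          _ = 8 / (N:ℝ) ^ 2 := by ring
      rw [← mul_div_assoc] at h7
      have h8 := (div_lt_div_iff_of_pos_right (by positivity : (0:ℝ) < (N:ℝ) ^ 2)).1 h7
      linarith
    have h6 : (k.1 - k0.1) ^ 2 + (k.2 - k0.2) ^ 2 < 2 := by exact_mod_cast h5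
    rw [mem_product, Finset.mem_Icc, Finset.mem_Icc]
    refine ⟨⟨?_, ?_⟩, ⟨?_, ?_⟩⟩ <;> nlinarith [sq_nonneg (k.1 - k0.1), sq_nonneg (k.2 - k0.2)]
  refine (card_le_card hsub).trans ?_
  rw [card_product, Int.card_Icc, Int.card_Icc]
  have e1 : k0.1 + 1 + 1 - (k0.1 - 1) = 3 := by ring
  have e2 : k0.2 + 1 + 1 - (k0.2 - 1) = 3 := by ring
  rw [e1, e2]
  decide

lemma gam_nonneg' (x : E3) : 0 ≤ gam N k x := by unfold gam; positivity

lemma gam_neg' (x : E3) : gam N k (-x) = gam N k x := by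
  unfold gam
  rw [inner_neg_right, neg_smul, ← neg_sub', norm_neg, abs_neg]

/-- the gauge of a point near the axis -/
lemma gam_le (hN : 1 ≤ N) (hk : k ∈ Gk N) (u : E3) {s r : ℝ} (hs : 0 ≤ s) (hs2 : s ≤ 2 * (N:ℝ) ^ 2)
    (hr : 0 ≤ r) (h0 : |u 0 - s * sk N k 0| ≤ r * N) (h1 : |u 1 - s * sk N k 1| ≤ r * N)
    (h2 : |u 2 - s| ≤ r * N) : gam N k u ≤ 6 * r + 3 := by
  have hN0 : (0:ℝ) < N := by exact_mod_cast hN
  have hN1 : (1:ℝ) ≤ N := by exact_mod_cast hN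
  have hw := norm_om' (N := N) (k := k)
  have hw2 := om_two_ge hk
  obtain ⟨e0, e1⟩ := sk_mul hk
  unfold gam
  set w := om N k with hwd
  set τ : ℝ := s / w 2 with hτ
  have hw20 : 0 < w 2 := by linarith
  set e : E3 := u - τ • w with he
  have hc0 : e 0 = u 0 - s * sk N k 0 := by
    rw [he]
    show u 0 - τ * w 0 = _
    rw [← e0, hτ]
    field_simp
  have hc1 : e 1 = u 1 - s * sk N k 1 := by
    rw [he]
    show u 1 - τ * w 1 = _
    rw [← e1, hτ]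
    field_simp
  have hc2 : e 2 = u 2 - s := by
    rw [he]
    show u 2 - τ * w 2 = _
    rw [hτ]
    field_simp
  have hne : ‖e‖ ≤ 3 * (r * N) := by
    refine (norm_le3 e).trans ?_
    rw [hc0, hc1, hc2]
    linarith
  have hu : u = τ • w + e := by rw [he]; abel
  have hww : inner ℝ w w = (1:ℝ) := by rw [real_inner_self_eq_norm_sq, hw]; norm_num
  have hie : |inner ℝ w e| ≤ ‖e‖ := by
    have := abs_real_inner_le_norm w e
    rwa [hw, one_mul] at this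
  have hiu : inner ℝ w u = τ + inner ℝ w e := by
    rw [hu, inner_add_right, real_inner_smul_right, hww, mul_one]
  have hperp : ‖u - (inner ℝ w u) • w‖ ≤ ‖e‖ := by
    have h3 : u - (inner ℝ w u) • w = e - (inner ℝ w e) • w := by
      rw [hiu, add_smul]
      nth_rewrite 1 [hu]
      abel
    rw [h3]
    have h4 : ‖e - (inner ℝ w e) • w‖ ^ 2 = ‖e‖ ^ 2 - (inner ℝ w e) ^ 2 := by
      have h5 := norm_sub_sq_real e ((inner ℝ w e) • w)
      rw [real_inner_smul_right, norm_smul, hw, mul_one, Real.norm_eq_abs, sq_abs,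
        real_inner_comm w e] at h5
      rw [h5]
      ring
    refine abs_le_of_sq_le_sq' ?_ (norm_nonneg e) |>.2
    rw [h4]
    nlinarith [sq_nonneg (inner ℝ w e)]
  have hτ0 : 0 ≤ τ := by positivity
  have hτ1 : τ ≤ 3 * (N:ℝ) ^ 2 := by
    rw [hτ, div_le_iff₀ hw20]
    nlinarith [sq_nonneg (N:ℝ)]
  have hlong : |inner ℝ w u| ≤ τ + ‖e‖ := by
    rw [hiu]
    refine (abs_add_le _ _).trans ?_
    rw [abs_of_nonneg hτ0]
    linarith
  have h5 : ‖u - (inner ℝ w u) • w‖ / N ≤ 3 * r := by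
    rw [div_le_iff₀ hN0]
    linarith
  have h6 : |inner ℝ w u| / (N:ℝ) ^ 2 ≤ 3 + 3 * r := by
    rw [div_le_iff₀ (by positivity)]
    have h7 : 3 * (r * N) ≤ 3 * r * (N:ℝ) ^ 2 := by
      have : r * N ≤ r * (N:ℝ) ^ 2 := by
        apply mul_le_mul_of_nonneg_left _ hr
        nlinarith
      linarith
    nlinarith
  linarith

end geom

end Vale.Agent.P117.K.Geo
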