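import Vale.Agent.P117.K.KinB1

/-! # Katz-Tao bound for the densities: geometry of tubes and planks -/

open MeasureTheory Complex Set
open scoped ENNReal NNReal Topology

set_option linter.all false

namespace Vale.Agent.P117.K.KB

theorem norm3_sq (x : E3) : ‖x‖ ^ 2 = x 0 ^ 2 + x 1 ^ 2 + x 2 ^ 2 := by
  rw [EuclideanSpace.norm_sq_eq]
  simp [Fin.sum_univ_three]

theorem norm_omv (a b : ℝ) : ‖omv a b‖ = 1 := by
  have h : ‖omv a b‖ ^ 2 = 1 := by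
    rw [norm3_sq]
    unfold omv
    simp
    have : (0:ℝ) < 1 + a ^ 2 + b ^ 2 := by positivity
    field_simp
    ring
  have h0 := norm_nonneg (omv a b)
  nlinarith

theorem norm_om (N : ℕ) (k : ℤ × ℤ) : ‖om N k‖ = 1 := norm_omv _ _

theorem gam_nonneg (N : ℕ) (k : ℤ × ℤ) (x : E3) : 0 ≤ gam N k x := by
  unfold gam; positivity

theorem gam_cont (N : ℕ) (k : ℤ × ℤ) : Continuous (gam N k) := by
  unfold gam
  fun_prop

/-- the rescaling map of the tube -/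
noncomputable def Am (N : ℕ) (k : ℤ × ℤ) : E3 →ₗ[ℝ] E3 :=
  ((N:ℝ)⁻¹) • LinearMap.transvection (((N:ℝ)⁻¹ - 1) • (innerₛₗ ℝ (om N k) : E3 →ₗ[ℝ] ℝ)) (om N k)

theorem Am_apply (N : ℕ) (k : ℤ × ℤ) (x : E3) :
    Am N k x = ((N:ℝ)⁻¹) • (x + ((((N:ℝ)⁻¹ - 1) * (inner ℝ (om N k) x : ℝ)) • om N k)) := by
  unfold Am
  simp [LinearMap.transvection.apply]

theorem Am_det (N : ℕ) (k : ℤ × ℤ) : LinearMap.det (Am N k) = ((N:ℝ)⁻¹) ^ 4 := by
  unfold Am
  rw [LinearMap.det_smul, LinearMap.transvection.det]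
  simp [norm_om]
  ring

theorem Am_norm (N : ℕ) (k : ℤ × ℤ) (x : E3) : ‖Am N k x‖ ≤ gam N k x := by
  rw [Am_apply]
  have e : ((N:ℝ)⁻¹) • (x + ((((N:ℝ)⁻¹ - 1) * (inner ℝ (om N k) x : ℝ)) • om N k)) =
      ((N:ℝ)⁻¹) • (x - (inner ℝ (om N k) x : ℝ) • om N k) + (((N:ℝ)⁻¹) ^ 2 * (inner ℝ (om N k) x : ℝ)) • om N k := by
    module
  rw [e]
  refine (norm_add_le _ _).trans ?_
  rw [norm_smul, norm_smul, norm_om, mul_one, norm_mul, norm_inv, norm_pow, norm_inv]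
  simp only [Real.norm_eq_abs, Nat.abs_cast]
  unfold gam
  rw [div_eq_inv_mul, div_eq_inv_mul, inv_pow]

/-- mass of the basic weight -/
noncomputable def i4 : ℝ≥0∞ := ∫⁻ u : E3, ENNReal.ofReal (((1 + ‖u‖) ^ 4)⁻¹)

theorem i4_lt : i4 < ⊤ := by
  have hint : Integrable (fun x : E3 => (1 + ‖x‖) ^ (-(4:ℝ))) := by
    apply integrable_one_add_norm
    rw [finrank_euclideanSpace_fin]; norm_num
  unfold i4
  refine lt_of_le_of_lt (lintegral_mono fun u => ?_) hint.lintegral_lt_top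
  apply ENNReal.ofReal_le_ofReal
  rw [Real.rpow_neg (by positivity)]
  apply inv_anti₀ (by positivity)
  have : (1 + ‖u‖) ^ (4:ℝ) = (1 + ‖u‖) ^ 4 := by exact_mod_cast Real.rpow_natCast (1 + ‖u‖) 4
  rw [this]

theorem int_gam4 {N : ℕ} (hN : 1 ≤ N) (k : ℤ × ℤ) :
    ∫⁻ x, ENNReal.ofReal (((N:ℝ) ^ 4)⁻¹ * ((1 + gam N k x) ^ 4)⁻¹) ≤ i4 := by
  have hN0 : (0:ℝ) < N := by exact_mod_cast hN
  have hdet : LinearMap.det (Am N k) ≠ 0 := by rw [Am_det]; positivity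
  have hc : Continuous (Am N k) := LinearMap.continuous_of_finiteDimensional _
  have mG : Measurable fun u : E3 => ENNReal.ofReal (((1 + ‖u‖) ^ 4)⁻¹) := by fun_prop
  calc ∫⁻ x, ENNReal.ofReal (((N:ℝ) ^ 4)⁻¹ * ((1 + gam N k x) ^ 4)⁻¹) ≤
      ∫⁻ x, ENNReal.ofReal (((N:ℝ) ^ 4)⁻¹) * ENNReal.ofReal (((1 + ‖Am N k x‖) ^ 4)⁻¹) := by
        refine lintegral_mono fun x => ?_
        rw [← ENNReal.ofReal_mul (by positivity)]
        apply ENNReal.ofReal_le_ofReal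
        have := Am_norm N k x
        gcongr
    _ = ENNReal.ofReal (((N:ℝ) ^ 4)⁻¹) * ∫⁻ u, ENNReal.ofReal (((1 + ‖u‖) ^ 4)⁻¹) ∂(Measure.map (Am N k) volume) := by
        rw [lintegral_const_mul' _ _ ENNReal.ofReal_ne_top, lintegral_map mG hc.measurable]
    _ = i4 := by
        rw [Measure.map_linearMap_addHaar_eq_smul_addHaar volume hdet, lintegral_smul_measure, Am_det]
        rw [smul_eq_mul, ← mul_assoc, ← ENNReal.ofReal_mul (by positivity), abs_of_pos (by positivity)]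
        have : ((N:ℝ) ^ 4)⁻¹ * (((N:ℝ)⁻¹) ^ 4)⁻¹ = 1 := by field_simp
        rw [this, ENNReal.ofReal_one, one_mul]
        rfl

theorem vol_sub (p : E3) (A : Set E3) : volume ((fun x => x - p) ⁻¹' A) = volume A := by
  simp_rw [sub_eq_add_neg]
  exact measure_preimage_add_right volume (-p) A

/-- coordinates of the sheared plank -/
def f0 (a b s1 s2 : ℝ) (x : E3) : ℝ := a * (x 0 - s1 * x 2) + b * (x 1 - s2 * x 2)
def f1 (a b s1 s2 : ℝ) (x : E3) : ℝ := -b * (x 0 - s1 * x 2) + a * (x 1 - s2 * x 2)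

/-- volume of a sheared plank -/
theorem vol_plank {a b : ℝ} (hab : a ^ 2 + b ^ 2 = 1) (s1 s2 l0 l1 l2 : ℝ) (h0 : 0 ≤ l0) (h1 : 0 ≤ l1) (h2 : 0 ≤ l2) :
    volume {x : E3 | |f0 a b s1 s2 x| ≤ l0 ∧ |f1 a b s1 s2 x| ≤ l1 ∧ |x 2| ≤ l2} = ENNReal.ofReal (8 * (l0 * l1 * l2)) := by
  set S : Set E3 := {x : E3 | |f0 a b s1 s2 x| ≤ l0 ∧ |f1 a b s1 s2 x| ≤ l1 ∧ |x 2| ≤ l2} with hS
  have mS : MeasurableSet S := by
    have c0 : Continuous (f0 a b s1 s2) := by unfold f0; fun_prop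
    have c1 : Continuous (f1 a b s1 s2) := by unfold f1; fun_prop
    have c2 : Continuous fun x : E3 => x 2 := by fun_prop
    exact ((isClosed_le c0.abs continuous_const).inter ((isClosed_le c1.abs continuous_const).inter
      (isClosed_le c2.abs continuous_const))).measurableSet
  have e1 := (PiLp.volume_preserving_toLp (Fin 3)).measure_preimage mS.nullMeasurableSet
  rw [← e1]
  set M : Matrix (Fin 3) (Fin 3) ℝ := !![a, b, -(a * s1 + b * s2); -b, a, b * s1 - a * s2; 0, 0, 1] with hM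
  have hdet : LinearMap.det (Matrix.toLin' M) = 1 := by
    rw [LinearMap.det_toLin', hM, Matrix.det_fin_three]
    simp
    linarith
  set l : Fin 3 → ℝ := ![l0, l1, l2] with hl
  have e2 : (WithLp.toLp 2 : (Fin 3 → ℝ) → E3) ⁻¹' S = (Matrix.toLin' M) ⁻¹' (Icc (-l) l) := by
    ext x
    simp only [hS, Set.mem_preimage, Set.mem_setOf_eq, Set.mem_Icc, Pi.le_def, Fin.forall_fin_succ, abs_le]
    simp [hM, hl, Matrix.toLin'_apply, Matrix.mulVec, dotProduct, Fin.sum_univ_three, f0, f1]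
    constructor
    · rintro ⟨⟨a1, a2⟩, ⟨a3, a4⟩, ⟨a5, a6⟩⟩
      refine ⟨⟨?_, ?_, ?_⟩, ?_, ?_, ?_⟩ <;> linarith
    · rintro ⟨⟨a1, a2, a3⟩, a4, a5, a6⟩
      refine ⟨⟨?_, ?_⟩, ⟨?_, ?_⟩, ?_, ?_⟩ <;> linarith
  have e3 : ENNReal.ofReal (8 * (l0 * l1 * l2)) = ENNReal.ofReal (l0 + l0) * ENNReal.ofReal (l1 + l1) * ENNReal.ofReal (l2 + l2) := by
    rw [← ENNReal.ofReal_mul (by positivity), ← ENNReal.ofReal_mul (by positivity)]
    congr 1
    ring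
  rw [e2, Measure.addHaar_preimage_linearMap _ (by rw [hdet]; exact one_ne_zero), hdet, Real.volume_Icc_pi, e3]
  simp [Fin.prod_univ_three, hl]

/-- the gauge of the plank -/
noncomputable def rho (R a b s1 s2 w1 w2 : ℝ) (x : E3) : ℝ :=
  |f0 a b s1 s2 x| / w1 + |f1 a b s1 s2 x| / w2 + |x 2| / R

theorem f0_add (a b s1 s2 : ℝ) (x y : E3) : f0 a b s1 s2 (x + y) = f0 a b s1 s2 x + f0 a b s1 s2 y := by
  unfold f0; simp; ring

theorem f1_add (a b s1 s2 : ℝ) (x y : E3) : f1 a b s1 s2 (x + y) = f1 a b s1 s2 x + f1 a b s1 s2 y := by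
  unfold f1; simp; ring

theorem f0_sub (a b s1 s2 : ℝ) (x y : E3) : f0 a b s1 s2 (x - y) = f0 a b s1 s2 x - f0 a b s1 s2 y := by
  unfold f0; simp; ring

theorem f1_sub (a b s1 s2 : ℝ) (x y : E3) : f1 a b s1 s2 (x - y) = f1 a b s1 s2 x - f1 a b s1 s2 y := by
  unfold f1; simp; ring

theorem f0_smul (a b s1 s2 t : ℝ) (x : E3) : f0 a b s1 s2 (t • x) = t * f0 a b s1 s2 x := by
  unfold f0; simp; ring

theorem f1_smul (a b s1 s2 t : ℝ) (x : E3) : f1 a b s1 s2 (t • x) = t * f1 a b s1 s2 x := by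
  unfold f1; simp; ring

section
variable {R a b s1 s2 w1 w2 : ℝ}

theorem rho_nonneg (hR : 0 ≤ R) (h1 : 0 ≤ w1) (h2 : 0 ≤ w2) (x : E3) : 0 ≤ rho R a b s1 s2 w1 w2 x := by
  unfold rho; positivity

theorem rho_cont : Continuous (rho R a b s1 s2 w1 w2) := by
  unfold rho f0 f1; fun_prop

theorem rho_sub (hR : 0 ≤ R) (h1 : 0 ≤ w1) (h2 : 0 ≤ w2) (x y : E3) :
    rho R a b s1 s2 w1 w2 (x - y) ≤ rho R a b s1 s2 w1 w2 x + rho R a b s1 s2 w1 w2 y := by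
  unfold rho
  rw [f0_sub, f1_sub]
  have e1 := abs_sub (f0 a b s1 s2 x) (f0 a b s1 s2 y)
  have e2 := abs_sub (f1 a b s1 s2 x) (f1 a b s1 s2 y)
  have e3 : |(x - y) 2| ≤ |x 2| + |y 2| := by
    have := abs_sub (x 2) (y 2)
    simpa using this
  have d1 : |f0 a b s1 s2 x - f0 a b s1 s2 y| / w1 ≤ |f0 a b s1 s2 x| / w1 + |f0 a b s1 s2 y| / w1 := by
    rw [← add_div]; gcongr
  have d2 : |f1 a b s1 s2 x - f1 a b s1 s2 y| / w2 ≤ |f1 a b s1 s2 x| / w2 + |f1 a b s1 s2 y| / w2 := by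
    rw [← add_div]; gcongr
  have d3 : |(x - y) 2| / R ≤ |x 2| / R + |y 2| / R := by
    rw [← add_div]; gcongr
  linarith

/-- volume of the dilated plank -/
theorem vol_rho (hab : a ^ 2 + b ^ 2 = 1) (hR : 0 < R) (h1 : 0 < w1) (h2 : 0 < w2) (p : E3) {r : ℝ} (hr : 0 ≤ r) :
    volume {x | rho R a b s1 s2 w1 w2 (x - p) ≤ r} ≤ ENNReal.ofReal (8 * r ^ 3) * ENNReal.ofReal (w1 * w2 * R) := by
  have e0 : volume {x | rho R a b s1 s2 w1 w2 (x - p) ≤ r} = volume {x | rho R a b s1 s2 w1 w2 x ≤ r} := by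
    exact vol_sub p {x | rho R a b s1 s2 w1 w2 x ≤ r}
  rw [e0]
  refine (measure_mono (t := {x : E3 | |f0 a b s1 s2 x| ≤ r * w1 ∧ |f1 a b s1 s2 x| ≤ r * w2 ∧ |x 2| ≤ r * R}) ?_).trans ?_
  · intro x hx
    have hx' : |f0 a b s1 s2 x| / w1 + |f1 a b s1 s2 x| / w2 + |x 2| / R ≤ r := hx
    have g1 : 0 ≤ |f0 a b s1 s2 x| / w1 := by positivity
    have g2 : 0 ≤ |f1 a b s1 s2 x| / w2 := by positivity
    have g3 : 0 ≤ |x 2| / R := by positivity
    refine ⟨?_, ?_, ?_⟩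
    · rw [← div_le_iff₀ h1]; linarith
    · rw [← div_le_iff₀ h2]; linarith
    · rw [← div_le_iff₀ hR]; linarith
  · rw [vol_plank hab _ _ _ _ _ (by positivity) (by positivity) (by positivity), ← ENNReal.ofReal_mul (by positivity)]
    apply le_of_eq
    congr 1
    ring

theorem vol_Plk (hab : a ^ 2 + b ^ 2 = 1) (hR : 0 < R) (h1 : 0 < w1) (h2 : 0 < w2) (p : E3) :
    volume (Plk R a b s1 s2 w1 w2 p) = ENNReal.ofReal (8 * (w1 * w2 * R)) := by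
  have e0 : Plk R a b s1 s2 w1 w2 p = (fun x => x - p) ⁻¹' {x : E3 | |f0 a b s1 s2 x| ≤ w1 ∧ |f1 a b s1 s2 x| ≤ w2 ∧ |x 2| ≤ R} := by
    ext x
    unfold Plk f0 f1
    simp
  rw [e0, vol_sub, vol_plank hab _ _ _ _ _ h1.le h2.le hR.le]

theorem meas_Plk (p : E3) : MeasurableSet (Plk R a b s1 s2 w1 w2 p) := by
  have c0 : Continuous fun z : E3 => |a * (z 0 - p 0 - s1 * (z 2 - p 2)) + b * (z 1 - p 1 - s2 * (z 2 - p 2))| := by fun_prop
  have c1 : Continuous fun z : E3 => |-b * (z 0 - p 0 - s1 * (z 2 - p 2)) + a * (z 1 - p 1 - s2 * (z 2 - p 2))| := by fun_prop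
  have c2 : Continuous fun z : E3 => |z 2 - p 2| := by fun_prop
  exact ((isClosed_le c0 continuous_const).inter ((isClosed_le c1 continuous_const).inter
      (isClosed_le c2 continuous_const))).measurableSet

theorem rho_Plk (hR : 0 < R) (h1 : 0 < w1) (h2 : 0 < w2) {p x : E3} (hx : x ∈ Plk R a b s1 s2 w1 w2 p) :
    rho R a b s1 s2 w1 w2 (x - p) ≤ 3 := by
  obtain ⟨g1, g2, g3⟩ := hx
  have d1 : |f0 a b s1 s2 (x - p)| / w1 ≤ 1 := by
    rw [div_le_one h1]; simpa [f0] using g1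
  have d2 : |f1 a b s1 s2 (x - p)| / w2 ≤ 1 := by
    rw [div_le_one h2]; simpa [f1] using g2
  have d3 : |(x - p) 2| / R ≤ 1 := by
    rw [div_le_one hR]; simpa using g3
  unfold rho
  linarith

end

end Vale.Agent.P117.K.KB
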