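import Vale.Agent.P117.KC.Loc3
import Vale.Agent.P117.K.KinB2

/-! # Block KINB: elementary facts on the densities -/

open MeasureTheory Complex Set
open scoped ENNReal NNReal FourierTransform

set_option linter.all false

namespace Vale.Agent.P117.KINB

open Vale.Agent.P117.K Vale.Agent.P117.KC

theorem gam_cont' (N : ℕ) (k : ℤ × ℤ) : Continuous (K.gam N k) := by
  unfold K.gam
  fun_prop

theorem measurable_Phs (M N : ℕ) (k : ℤ × ℤ) : Measurable (Phs M N k) := by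
  have h := (gam_cont' N k).measurable
  unfold Phs
  fun_prop

theorem lint_Phs {M N : ℕ} (hM : 4 ≤ M) (hN : 1 ≤ N) (k : ℤ × ℤ) : ∫⁻ x, Phs M N k x ≤ KB.i4 := by
  refine le_trans (lintegral_mono fun x => ?_) (KB.int_gam4 hN k)
  unfold Phs
  apply ENNReal.ofReal_le_ofReal
  have h := KB.gam_nonneg N k x
  gcongr
  · linarith

theorem measurable_inv_pc {N : ℕ} {o1 o2 : ℝ} {k : ℤ × ℤ} {g : K.E3 → ℂ} (hg : Integrable g) :
    Measurable fun y => ‖𝓕⁻ (pc N o1 o2 k g) y‖ₑ ^ 2 := by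
  have h := (continuous_inv (integrable_pc (N := N) (o1 := o1) (o2 := o2) (k := k) hg)).measurable
  exact (h.enorm).pow_const 2

theorem measurable_den (M N : ℕ) (o1 o2 : ℝ) {g : K.E3 → ℂ} (hg : Integrable g) (k : ℤ × ℤ) :
    Measurable (den M N o1 o2 g k) := by
  unfold den
  have h1 := measurable_inv_pc (N := N) (o1 := o1) (o2 := o2) (k := k) hg
  have h2 := measurable_Phs M N k
  apply Measurable.lintegral_prod_right' (f := fun p : K.E3 × K.E3 => ‖𝓕⁻ (pc N o1 o2 k g) p.2‖ₑ ^ 2 * Phs M N k (p.1 - p.2))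
  exact (h1.comp measurable_snd).mul (h2.comp (measurable_fst.sub measurable_snd))

theorem lint_den {M N : ℕ} (hM : 4 ≤ M) (hN : 1 ≤ N) (o1 o2 : ℝ) {g : K.E3 → ℂ} (hg : Integrable g)
    (hgm : Measurable g) (k : ℤ × ℤ) :
    ∫⁻ x, den M N o1 o2 g k x ≤ KB.i4 * ∫⁻ ξ, ‖pc N o1 o2 k g ξ‖ₑ ^ 2 := by
  have h1 := measurable_inv_pc (N := N) (o1 := o1) (o2 := o2) (k := k) hg
  have h2 := measurable_Phs M N k
  unfold den
  rw [lintegral_lintegral_swap]
  · calc ∫⁻ y, ∫⁻ x, ‖𝓕⁻ (pc N o1 o2 k g) y‖ₑ ^ 2 * Phs M N k (x - y)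
        = ∫⁻ y, ‖𝓕⁻ (pc N o1 o2 k g) y‖ₑ ^ 2 * ∫⁻ x, Phs M N k x := by
          refine lintegral_congr fun y => ?_
          have h3 : Measurable fun x : K.E3 => Phs M N k (x - y) := h2.comp (measurable_id.sub_const y)
          rw [lintegral_const_mul _ h3]
          congr 1
          exact lintegral_sub_right_eq_self (fun x => Phs M N k x) y
      _ = (∫⁻ y, ‖𝓕⁻ (pc N o1 o2 k g) y‖ₑ ^ 2) * ∫⁻ x, Phs M N k x := lintegral_mul_const _ h1
      _ ≤ (∫⁻ ξ, ‖pc N o1 o2 k g ξ‖ₑ ^ 2) * KB.i4 := by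
          exact mul_le_mul' (Vale.Agent.P106.Tri.lintegral_sq_inv_le (integrable_pc hg) (measurable_pc hgm))
            (lint_Phs hM hN k)
      _ = _ := mul_comm _ _
  · exact (((h1.comp measurable_snd).mul (h2.comp (measurable_fst.sub measurable_snd)))).aemeasurable

theorem sum_pc_le (N : ℕ) (o1 o2 : ℝ) (g : K.E3 → ℂ) (S : Finset (ℤ × ℤ)) (ξ : K.E3) :
    ∑ k ∈ S, ‖pc N o1 o2 k g ξ‖ₑ ^ 2 ≤ ‖g ξ‖ₑ ^ 2 := by
  classical
  by_cases h : (⌊N * v1 ξ - o1⌋, ⌊N * v2 ξ - o2⌋) ∈ S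
  · rw [Finset.sum_eq_single_of_mem _ h]
    · unfold pc; rw [if_pos rfl]
    · intro k _ hk
      unfold pc
      rw [if_neg (fun e => hk e.symm)]; simp
  · rw [Finset.sum_eq_zero]
    · exact bot_le
    · intro k hk
      unfold pc
      rw [if_neg (fun e => h (by rw [e]; exact hk))]; simp

theorem stKINB : StKINB := by
  intro M hM
  refine ⟨max 1 (KB.i4.toReal), le_max_left _ _, ?_⟩
  intro N c1 o1 o2 g hN hc0 hc ho1 ho2 hg
  have hN1 : 1 ≤ N := by omega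
  have hi : KB.i4 ≤ ENNReal.ofReal (max 1 (KB.i4.toReal)) := by
    calc KB.i4 = ENNReal.ofReal KB.i4.toReal := (ENNReal.ofReal_toReal KB.i4_lt.ne).symm
      _ ≤ _ := ENNReal.ofReal_le_ofReal (le_max_right _ _)
  refine ⟨fun k => measurable_den M N o1 o2 hg.int k, fun k x y => den_peetre M N o1 o2 g k x y, ?_, ?_, ?_⟩
  · unfold SqS
    rw [lintegral_finset_sum _ (fun k _ => measurable_den M N o1 o2 hg.int k)]
    calc ∑ k ∈ grd N, ∫⁻ x, den M N o1 o2 g k x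
        ≤ ∑ k ∈ grd N, KB.i4 * ∫⁻ ξ, ‖pc N o1 o2 k g ξ‖ₑ ^ 2 :=
          Finset.sum_le_sum fun k _ => lint_den (by omega) hN1 o1 o2 hg.int hg.meas k
      _ = KB.i4 * ∫⁻ ξ, ∑ k ∈ grd N, ‖pc N o1 o2 k g ξ‖ₑ ^ 2 := by
          rw [lintegral_finset_sum _ (fun k _ => ((measurable_pc hg.meas).enorm).pow_const 2), Finset.mul_sum]
      _ ≤ _ := by
          gcongr with ξ
          exact sum_pc_le N o1 o2 g _ ξ
  · exact Vale.Agent.P106.Tri.lintegral_sq_inv_le hg.int hg.meas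
  · intro k x hx
    have hpc : ∃ ξ, pc N o1 o2 k g ξ ≠ 0 := by
      by_contra hcon
      push Not at hcon
      apply hx
      have e : pc N o1 o2 k g = 0 := by ext ξ; exact hcon ξ
      have e2 : ∀ y, 𝓕⁻ (pc N o1 o2 k g) y = 0 := by
        intro y
        rw [e, Vale.Agent.P106.Tri.inv_eq]; simp
      unfold den
      simp [e2]
    obtain ⟨ξ, hξ⟩ := hpc
    obtain ⟨hk, hgξ⟩ := pc_ne hξ
    have hl := hg.loc ξ hgξ
    have hgr := floor_grd hN ho1 ho2 hc hl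
    rw [hk] at hgr
    obtain ⟨-, h1, h2⟩ := v_near (hc.trans (by norm_num)) hl
    have hN0 : (0:ℝ) < N := by exact_mod_cast hN1
    have aux : ∀ (v o : ℝ) (m : ℤ), o ∈ Icc (0:ℝ) (1/2) → |v - 1/4| ≤ 5/4 * c1 → ⌊N * v - o⌋ = m →
        |(m:ℝ) / N - 1/4| ≤ 3 * c1 + 2 / N := by
      intro v o m ho hv hm
      have h3 := Int.floor_le (N * v - o)
      have h4 := Int.lt_floor_add_one (N * v - o)
      rw [hm] at h3 h4
      have h5 : |(m:ℝ) / N - v| ≤ 2 / N := by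
        have e : (m:ℝ) / N - v = (m - N * v) / N := by field_simp
        rw [e, abs_div, abs_of_pos hN0]
        gcongr
        rw [abs_le]
        constructor <;> linarith [ho.1, ho.2]
      have h6 : (m:ℝ) / N - 1/4 = ((m:ℝ) / N - v) + (v - 1/4) := by ring
      rw [h6]
      have := abs_add_le ((m:ℝ) / N - v) (v - 1/4)
      linarith
    refine ⟨hgr, aux _ _ _ ho1 h1 (congrArg Prod.fst hk), aux _ _ _ ho2 h2 (congrArg Prod.snd hk)⟩

end Vale.Agent.P117.KINB
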