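import Vale.Agent.P117.K.MainC

/-! # P117 / K : assembly, part D : all scales -/

open MeasureTheory Complex Set
open scoped ENNReal NNReal ContDiff FourierTransform SchwartzMap

set_option linter.all false

namespace Vale.Agent.P117.K.Asm

theorem pow_bracket {K0 : ℕ} (hK : 2 ≤ K0) {R : ℝ} (hR : 1 ≤ R) : ∃ n : ℕ, ((K0 ^ n : ℕ):ℝ) ^ 2 ≤ R ∧ R ≤ (K0:ℝ) ^ 2 * ((K0 ^ n : ℕ):ℝ) ^ 2 := by
  have hK1 : (1:ℝ) < (K0:ℝ) ^ 2 := by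
    have : (2:ℝ) ≤ K0 := by exact_mod_cast hK
    nlinarith
  obtain ⟨n, hn1, hn2⟩ := exists_nat_pow_near hR hK1
  refine ⟨n, ?_, ?_⟩
  · refine le_trans (le_of_eq ?_) hn1
    push_cast
    ring
  · refine hn2.le.trans (le_of_eq ?_)
    push_cast
    ring

theorem small_scales (hSUP : StSUP3) {p c1 : ℝ} (h2 : 2 < p) (hc1 : 0 < c1) (hc1' : c1 ≤ 1 / 100) (Q : ℝ) (hQ : 1 ≤ Q) {φ : ℝ → ℂ} {χ : E3 → ℂ}
    (hφ : Prf c1 φ) (hχ : Cut c1 χ) : ∃ C : ℝ, 0 ≤ C ∧ ∀ (R : ℝ) (h : E3 → ℂ), 1 ≤ R → R ≤ Q → Ad1 h →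
      ∫⁻ x, ‖SR φ χ R h x‖ₑ ^ p ≤ ENNReal.ofReal C * ∫⁻ y, ‖h y‖ₑ ^ 2 := by
  obtain ⟨C, a, hC, ha, h0⟩ := hSUP c1 φ χ hc1 hc1' hφ hχ
  refine ⟨(C * Q ^ a) ^ (p - 2) * C, by positivity, ?_⟩
  intro R h hR hRQ hh
  obtain ⟨h1, h3⟩ := h0 R h hR hh
  have hb : ∀ x, ‖SR φ χ R h x‖ₑ ≤ ENNReal.ofReal (C * Q ^ a) := by
    intro x
    rw [← ofReal_norm_eq_enorm]
    apply ENNReal.ofReal_le_ofReal
    refine (h1 x).trans ?_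
    have : R ^ a ≤ Q ^ a := Real.rpow_le_rpow (by linarith) hRQ ha
    gcongr
  calc ∫⁻ x, ‖SR φ χ R h x‖ₑ ^ p ≤ ∫⁻ x, ENNReal.ofReal ((C * Q ^ a) ^ (p - 2)) * ‖SR φ χ R h x‖ₑ ^ 2 := by
        refine lintegral_mono fun x => ?_
        calc ‖SR φ χ R h x‖ₑ ^ p = ‖SR φ χ R h x‖ₑ ^ (p - 2) * ‖SR φ χ R h x‖ₑ ^ (2:ℝ) := by
              rw [← ENNReal.rpow_add_of_nonneg _ _ (by linarith) (by norm_num)]
              congr 1; ring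
          _ ≤ (ENNReal.ofReal (C * Q ^ a)) ^ (p - 2) * ‖SR φ χ R h x‖ₑ ^ (2:ℝ) := by
              exact mul_le_mul' (ENNReal.rpow_le_rpow (hb x) (by linarith)) le_rfl
          _ = _ := by
              rw [ENNReal.ofReal_rpow_of_pos (by positivity)]
              norm_num
    _ = ENNReal.ofReal ((C * Q ^ a) ^ (p - 2)) * ∫⁻ x, ‖SR φ χ R h x‖ₑ ^ 2 := lintegral_const_mul' _ _ ENNReal.ofReal_ne_top
    _ ≤ ENNReal.ofReal ((C * Q ^ a) ^ (p - 2)) * (ENNReal.ofReal C * ∫⁻ y, ‖h y‖ₑ ^ 2) := by gcongr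
    _ = _ := by rw [← mul_assoc, ← ENNReal.ofReal_mul (by positivity)]

/-- the localised estimate for bounded functions -/
theorem brb (hREF : StREF3) (hLOC : StLOC3) (hBER : StBER3) (hKIN : StKIN3) (hKINB : StKINB) (hCH : StCH3) (hSUP : StSUP3)
    {κ Np p : ℝ} (hκ : 0 ≤ κ) (hNp : 0 ≤ Np) (hGEO : StGEO3 κ Np) (h2 : 2 < p) (hp : p ≤ 2 + 2 / (Np + 2)) :
    StBRb p (κ * (p - 2) / 2) := by
  intro ε hε
  obtain ⟨K0, c1, hK0, hc1, hc1', hbig⟩ := big_scales hREF hLOC hBER hKIN hKINB hCH hκ hNp hGEO h2 hp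
    (ε := 2 * ε) (by positivity)
  refine ⟨c1, hc1, ?_⟩
  intro φ χ hφ hχ
  have hK0r : (2:ℝ) ≤ K0 := by exact_mod_cast hK0
  obtain ⟨CA, hCA, hA⟩ := hbig ((K0:ℝ) ^ 2) φ χ (by nlinarith) hφ hχ
  obtain ⟨CB, hCB, hB⟩ := small_scales hSUP h2 hc1 hc1' ((K0:ℝ) ^ 4) (one_le_pow₀ (by linarith)) hφ hχ
  refine ⟨CA + CB, by positivity, ?_⟩
  intro R h hR hh
  have hexp : 0 ≤ κ * (p - 2) / 2 + ε := by
    have : 0 ≤ κ * (p - 2) := mul_nonneg hκ (by linarith)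
    linarith
  by_cases hRs : R ≤ (K0:ℝ) ^ 4
  · refine (hB R h hR hRs hh).trans ?_
    gcongr
    have h1 : 1 ≤ R ^ (κ * (p - 2) / 2 + ε) := Real.one_le_rpow hR hexp
    nlinarith
  · push Not at hRs
    obtain ⟨n, hn1, hn2⟩ := pow_bracket hK0 hR
    have hn : 2 ≤ n := by
      by_contra hcon
      have hn' : n ≤ 1 := by omega
      have h3 : ((K0 ^ n : ℕ):ℝ) ≤ K0 := by
        have : K0 ^ n ≤ K0 ^ 1 := Nat.pow_le_pow_right (by omega) hn'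
        rw [pow_one] at this
        exact_mod_cast this
      have h4 : (0:ℝ) ≤ ((K0 ^ n : ℕ):ℝ) := by positivity
      have h5 : (K0:ℝ) ^ 2 * ((K0 ^ n : ℕ):ℝ) ^ 2 ≤ (K0:ℝ) ^ 2 * (K0:ℝ) ^ 2 := by gcongr
      have h6 : (K0:ℝ) ^ 2 * (K0:ℝ) ^ 2 = (K0:ℝ) ^ 4 := by ring
      linarith
    refine (hA n R h hn hn1 hn2 hh).trans ?_
    refine mul_le_mul' (ENNReal.ofReal_le_ofReal ?_) le_rfl
    have h7 : ((K0 ^ n : ℕ):ℝ) ^ (κ * (p - 2) + 2 * ε) ≤ R ^ (κ * (p - 2) / 2 + ε) := by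
      have h8 : ((K0 ^ n : ℕ):ℝ) ^ (κ * (p - 2) + 2 * ε) = (((K0 ^ n : ℕ):ℝ) ^ 2) ^ (κ * (p - 2) / 2 + ε) := by
        rw [← Real.rpow_natCast (((K0 ^ n : ℕ):ℝ)) 2, ← Real.rpow_mul (by positivity)]
        congr 1
        push_cast
        ring
      rw [h8]
      exact Real.rpow_le_rpow (by positivity) hn1 hexp
    have h9 : 0 ≤ ((K0 ^ n : ℕ):ℝ) ^ (κ * (p - 2) + 2 * ε) := by positivity
    have h10 : 0 ≤ R ^ (κ * (p - 2) / 2 + ε) := by positivity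
    calc CA * ((K0 ^ n : ℕ):ℝ) ^ (κ * (p - 2) + 2 * ε) ≤ CA * R ^ (κ * (p - 2) / 2 + ε) := by gcongr
      _ ≤ _ := by nlinarith

end Vale.Agent.P117.K.Asm
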