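import Vale.Agent.P117.K.KinB3

/-! # Katz-Tao bound for the densities `‖K_k * h‖² * Phs` -/

open MeasureTheory Complex Set
open scoped ENNReal NNReal Topology

set_option linter.all false

namespace Vale.Agent.P117.K.KB

/-- the hypotheses on the kernels of the pieces -/
structure KKer (N p : ℕ) (CK CP : ℝ) (K : ℤ × ℤ → E3 → ℂ) : Prop where
  cont : ∀ k, Continuous (K k)
  bd : ∀ k ∈ grd N, ∀ x, ‖K k x‖ ≤ CK * (((N:ℝ) ^ 4)⁻¹ * ((1 + gam N k x) ^ (p + 4))⁻¹)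
  loc : ∀ k ∈ grd N, ∀ x, K k x ≠ 0 → |(k.1:ℝ) / N - 1/4| ≤ 3 / 100 + 2 / N ∧ |(k.2:ℝ) / N - 1/4| ≤ 3 / 100 + 2 / N
  pl : ∀ u : E3 → ℂ, Ad1 u → ∑ k ∈ grd N, ∫⁻ x, ‖cvl (K k) u x‖ₑ ^ 2 ≤ ENNReal.ofReal CP * ∫⁻ x, ‖u x‖ₑ ^ 2

/-- data of one plank -/
theorem kdata {N p : ℕ} (hN : 1 ≤ N) {CK CP : ℝ} (hCK : 0 ≤ CK) {K : ℤ × ℤ → E3 → ℂ} (H : KKer N p CK CP K)
    {a b s1 s2 w1 w2 : ℝ} (hab : a ^ 2 + b ^ 2 = 1) (hw1 : (N:ℝ) ≤ w1) (hw2 : w1 ≤ w2) (P : E3) {D : Finset (ℤ × ℤ)}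
    (hD : ∀ k ∈ D, k ∈ grd N ∧ near N k ∧ dirP N ((N:ℝ) ^ 2) a b s1 s2 w1 w2 k) :
    KData D (gam N) K (fun x => 3/13 * rho ((N:ℝ) ^ 2) a b s1 s2 w1 w2 x) P (((N:ℝ) ^ 4)⁻¹) CK p i4
      (ENNReal.ofReal CP) (ENNReal.ofReal ((13/3) ^ 3 * (w1 * w2 * (N:ℝ) ^ 2))) := by
  have hN1 : (1:ℝ) ≤ N := by exact_mod_cast hN
  have hw1p : 0 < w1 := by linarith
  have hw2p : 0 < w2 := by linarith
  have hR : (0:ℝ) < (N:ℝ) ^ 2 := by positivity
  refine ⟨by positivity, hCK, fun k _ x => gam_nonneg N k x, fun k _ => (gam_cont N k).measurable, ?_, ?_, ?_, ?_,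
    fun k _ => H.cont k, fun k hk x => H.bd k (hD k hk).1 x, fun k _ => int_gam4 hN k, ?_, ?_⟩
  · intro k hk x
    have := rho_le_gam hN (hD k hk).2.1 hab hw1 hw2 (hD k hk).2.2 x
    linarith
  · intro x
    have := rho_nonneg (a := a) (b := b) (s1 := s1) (s2 := s2) hR.le hw1p.le hw2p.le x
    positivity
  · exact (continuous_const.mul rho_cont).measurable
  · intro x y
    have := rho_sub (a := a) (b := b) (s1 := s1) (s2 := s2) hR.le hw1p.le hw2p.le x y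
    linarith
  · intro r hr
    have e : {x : E3 | 3/13 * rho ((N:ℝ) ^ 2) a b s1 s2 w1 w2 (x - P) ≤ r} = {x | rho ((N:ℝ) ^ 2) a b s1 s2 w1 w2 (x - P) ≤ 13/3 * r} := by
      ext x
      simp only [mem_setOf_eq]
      constructor <;> intro h <;> linarith
    rw [e]
    refine (vol_rho hab hR hw1p hw2p P (by positivity)).trans (le_of_eq ?_)
    rw [← ENNReal.ofReal_mul (by positivity), ← ENNReal.ofReal_mul (by positivity)]
    congr 1
    ring
  · intro g hg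
    refine le_trans ?_ (H.pl g hg)
    exact Finset.sum_le_sum_of_subset fun k hk => (hD k hk).1

theorem dens_zero {M N p : ℕ} {CK CP : ℝ} {K : ℤ × ℤ → E3 → ℂ} {k : ℤ × ℤ} (hk : ∀ x, K k x = 0) (h : E3 → ℂ) (x : E3) :
    ∫⁻ y, ‖cvl (K k) h y‖ₑ ^ 2 * Phs M N k (x - y) = 0 := by
  have : ∀ y, cvl (K k) h y = 0 := by
    intro y
    unfold cvl
    simp [hk]
  simp [this]

/-- **Katz-Tao bound** -/
theorem KTd_main {ε : ℝ} (hε : 0 < ε) {p M : ℕ} (hp : 3 / ε ≤ p) (hM : 9 ≤ M) {CK CP : ℝ} (hCK : 0 ≤ CK) (hCP : 0 ≤ CP) :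
    ∃ C : ℝ, 1 ≤ C ∧ ∀ (N : ℕ) (K : ℤ × ℤ → E3 → ℂ) (h : E3 → ℂ), 1 ≤ N → KKer N p CK CP K → Ad1 h →
      KTd N (C * (N:ℝ) ^ ε) (fun k x => ∫⁻ y, ‖cvl (K k) h y‖ₑ ^ 2 * Phs M N k (x - y)) := by
  classical
  set i : ℝ := i4.toReal with hi
  set c : ℝ := cs.toReal with hc
  have hi0 : 0 ≤ i := ENNReal.toReal_nonneg
  have hc0 : 0 ≤ c := ENNReal.toReal_nonneg
  have ei : i4 = ENNReal.ofReal i := (ENNReal.ofReal_toReal i4_lt.ne).symm
  have ec : cs = ENNReal.ofReal c := (ENNReal.ofReal_toReal cs_lt.ne).symm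
  set C1 : ℝ := 4 ^ (M - 4) * i * c * (128 * CP + 16 * CK ^ 2 * i ^ 2 * 9 ^ p) * (13/3) ^ 3 with hC1
  set C2 : ℝ := 484 * ((CK * i) ^ 2 * i) * 8 with hC2
  have hC10 : 0 ≤ C1 := by positivity
  have hC20 : 0 ≤ C2 := by positivity
  refine ⟨1 + C1 + C2, by linarith, ?_⟩
  intro N K h hN H hh
  have hN1 : (1:ℝ) ≤ N := by exact_mod_cast hN
  have hNe : 1 ≤ (N:ℝ) ^ ε := Real.one_le_rpow hN1 hε.le
  have hR : (0:ℝ) < (N:ℝ) ^ 2 := by positivity
  unfold KTd
  intro a b s1 s2 w1 w2 P hab hw1 hw2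
  have hw1p : 0 < w1 := by linarith
  have hw2p : 0 < w2 := by linarith
  set X : ℝ := w1 * w2 * (N:ℝ) ^ 2 with hX
  have hX0 : 0 ≤ X := by positivity
  set ν : ℤ × ℤ → E3 → ℝ≥0∞ := fun k x => ∫⁻ y, ‖cvl (K k) h y‖ₑ ^ 2 * Phs M N k (x - y) with hν
  set W := Plk ((N:ℝ) ^ 2) a b s1 s2 w1 w2 P with hW
  rcases le_or_gt 22 N with hN22 | hN22
  · -- main case
    set D : Finset (ℤ × ℤ) := (grd N).filter (fun k => dirP N ((N:ℝ) ^ 2) a b s1 s2 w1 w2 k ∧ near N k) with hDd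
    have hDm : ∀ k ∈ D, k ∈ grd N ∧ near N k ∧ dirP N ((N:ℝ) ^ 2) a b s1 s2 w1 w2 k := by
      intro k hk
      rw [hDd, Finset.mem_filter] at hk
      exact ⟨hk.1, hk.2.2, hk.2.1⟩
    have hN22' : (22:ℝ) ≤ N := by exact_mod_cast hN22
    have h2N : 2 / (N:ℝ) ≤ 1/11 := by
      rw [div_le_iff₀ (by linarith)]; linarith
    have hsum : ∑ k ∈ (grd N).filter (fun k => dirP N ((N:ℝ) ^ 2) a b s1 s2 w1 w2 k), ∫⁻ x in W, ν k x =
        ∑ k ∈ D, ∫⁻ x in W, ν k x := by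
      symm
      apply Finset.sum_subset
      · intro k hk
        rw [hDd, Finset.mem_filter] at hk
        rw [Finset.mem_filter]
        exact ⟨hk.1, hk.2.1⟩
      · intro k hk hkD
        rw [Finset.mem_filter] at hk
        have hnn : ¬ near N k := by
          intro hn
          exact hkD (by rw [hDd, Finset.mem_filter]; exact ⟨hk.1, hk.2, hn⟩)
        have hz : ∀ x, K k x = 0 := by
          intro x
          by_contra hx
          obtain ⟨l1, l2⟩ := H.loc k hk.1 x hx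
          exact hnn ⟨by linarith, by linarith⟩
        have : ∀ x, ν k x = 0 := fun x => dens_zero (p := p) (CK := CK) (CP := CP) hz h x
        simp [this]
    rw [hsum]
    have KD := kdata hN hCK H hab hw1 hw2 P hDm
    have hl : (1:ℝ) ≤ (N:ℝ) ^ (ε / 3) := Real.one_le_rpow hN1 (by positivity)
    have main := KD.main (q := M - 4) (by omega) (W := W) (meas_Plk P) (fun x hx => by
      have := rho_Plk hR hw1p hw2p hx
      linarith) hh hl
    have eM : M - 4 + 4 = M := by omega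
    rw [eM] at main
    refine le_trans (le_of_eq ?_) (main.trans ?_)
    · rfl
    · rw [ei, ec]
      have hcard : ((D.card : ℕ) : ℝ≥0∞) = ENNReal.ofReal (D.card : ℝ) := by
        rw [ENNReal.ofReal_natCast]
      have hcard' : (D.card : ℝ) ≤ (N:ℝ) ^ 2 := by
        rw [← card_grd N]
        exact_mod_cast Finset.card_filter_le _ _
      rw [hcard]
      obtain ⟨d, hdd⟩ : ∃ d : ℝ, d = (D.card : ℝ) := ⟨_, rfl⟩
      have hd0 : 0 ≤ d := by rw [hdd]; exact Nat.cast_nonneg _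
      rw [← hdd] at hcard' ⊢
      have e2 : (2:ℝ≥0∞) = ENNReal.ofReal 2 := by simp
      rw [e2]
      set l : ℝ := (N:ℝ) ^ (ε / 3) with hld
      have hl0 : 0 ≤ l := by linarith
      have g1 : (0:ℝ) ≤ CK * ((1 + l / 3) ^ p)⁻¹ := by positivity
      rw [← ENNReal.ofReal_mul g1, ← ENNReal.ofReal_pow (by positivity)]
      rw [← ENNReal.ofReal_mul (p := 64 * l ^ 3) (by positivity), ← ENNReal.ofReal_mul (p := CP) hCP,
        ← ENNReal.ofReal_mul (p := 2) (by norm_num)]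
      rw [← ENNReal.ofReal_mul (p := 8) (by norm_num), ← ENNReal.ofReal_mul (p := (CK * ((1 + l / 3) ^ p)⁻¹ * i) ^ 2) (by positivity),
        ← ENNReal.ofReal_mul (p := d) hd0, ← ENNReal.ofReal_mul (p := 2) (by norm_num)]
      rw [← ENNReal.ofReal_add (by positivity) (by positivity)]
      rw [← ENNReal.ofReal_mul (p := c) hc0, ← ENNReal.ofReal_mul (p := (4:ℝ) ^ (M - 4)) (by positivity),
        ← ENNReal.ofReal_mul (p := (4:ℝ) ^ (M - 4) * i) (by positivity)]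
      apply ENNReal.ofReal_le_ofReal
      have := num_main hN hε hp hCK hCP hi0 hc0 (X := (13/3) ^ 3 * X) (by positivity) (F := (4:ℝ) ^ (M - 4)) (by positivity)
        (d := d) hd0 hcard'
      refine this.trans ?_
      calc _ = C1 * (N:ℝ) ^ ε * X := by rw [hC1]; ring
        _ ≤ (1 + C1 + C2) * (N:ℝ) ^ ε * X := by
          gcongr
          linarith
  · -- small case
    have hcard' : (((grd N).filter (fun k => dirP N ((N:ℝ) ^ 2) a b s1 s2 w1 w2 k)).card : ℝ) ≤ 484 := by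
      have h1 : (((grd N).filter (fun k => dirP N ((N:ℝ) ^ 2) a b s1 s2 w1 w2 k)).card : ℝ) ≤ (grd N).card := by
        exact_mod_cast Finset.card_filter_le _ _
      have h2 : (N:ℝ) ≤ 22 := by exact_mod_cast hN22.le
      rw [card_grd] at h1
      nlinarith
    calc ∑ k ∈ (grd N).filter (fun k => dirP N ((N:ℝ) ^ 2) a b s1 s2 w1 w2 k), ∫⁻ x in W, ν k x ≤
        ∑ k ∈ (grd N).filter (fun k => dirP N ((N:ℝ) ^ 2) a b s1 s2 w1 w2 k), ENNReal.ofReal ((CK * i) ^ 2 * i) * volume W := by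
          refine Finset.sum_le_sum fun k hk => ?_
          rw [← setLIntegral_const]
          refine lintegral_mono fun x => ?_
          have hkg : k ∈ grd N := (Finset.mem_filter.1 hk).1
          have := dens_le hN (M := M) (p := p) (by omega) hCK (H.bd k hkg) hh x
          refine this.trans (le_of_eq ?_)
          rw [ei, ← ENNReal.ofReal_mul hCK, ← ENNReal.ofReal_pow (by positivity), ← ENNReal.ofReal_mul (by positivity)]
      _ = (((grd N).filter (fun k => dirP N ((N:ℝ) ^ 2) a b s1 s2 w1 w2 k)).card : ℝ≥0∞) *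
          (ENNReal.ofReal ((CK * i) ^ 2 * i) * ENNReal.ofReal (8 * X)) := by
          rw [Finset.sum_const, nsmul_eq_mul, hW, vol_Plk hab hR hw1p hw2p P]
      _ ≤ ENNReal.ofReal 484 * (ENNReal.ofReal ((CK * i) ^ 2 * i) * ENNReal.ofReal (8 * X)) := by
          gcongr
          rw [← ENNReal.ofReal_natCast]
          exact ENNReal.ofReal_le_ofReal hcard'
      _ = ENNReal.ofReal (C2 * X) := by
          rw [← ENNReal.ofReal_mul (by positivity), ← ENNReal.ofReal_mul (by norm_num)]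
          congr 1
          rw [hC2]; ring
      _ ≤ _ := by
          apply ENNReal.ofReal_le_ofReal
          calc C2 * X ≤ (1 + C1 + C2) * 1 * X := by
                gcongr
                linarith
            _ ≤ (1 + C1 + C2) * (N:ℝ) ^ ε * X := by gcongr

end Vale.Agent.P117.K.KB
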