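import Vale.Agent.P117.K.KinA5
import Vale.Agent.P117.K.KinB4

/-! # Assembly of `StKIN3` -/

open MeasureTheory Complex Set Filter
open scoped ENNReal NNReal ContDiff FourierTransform Topology SchwartzMap

set_option linter.all false

namespace Vale.Agent.P117.K

open Vale.Agent.P106.G (mop Sm kn)
open Vale.Agent.P117 (Adm cv cv_schwartz_eq)

/-- multiplier operators are convolutions -/
theorem mop_cvl {M : E3 → ℂ} (hM : Sm M) {f : E3 → ℂ} (hf : Integrable f) : mop M f = KB.cvl (𝓕⁻ M) f := by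
  have e1 : cv ((𝓕⁻ (hM.supp.toSchwartzMap hM.smooth) : 𝓢(E3, ℂ)) : E3 → ℂ) f = mop M f := cv_schwartz_eq _ hf
  have hKe : ((𝓕⁻ (hM.supp.toSchwartzMap hM.smooth) : 𝓢(E3, ℂ)) : E3 → ℂ) = 𝓕⁻ M := by
    rw [SchwartzMap.fourierInv_coe]; rfl
  rw [← e1, hKe]
  rfl

theorem cont_inv {M : E3 → ℂ} (hM : Integrable M) : Continuous (𝓕⁻ M) := by
  have e : 𝓕⁻ M = fun x => 𝓕 M (-x) := by
    ext x; rw [Real.fourierInv_eq_fourier_neg]
  rw [e]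
  exact (Vale.Agent.P117.continuous_fourier hM).comp continuous_neg

section
variable {c1 : ℝ} {φ : ℝ → ℂ} {χ : E3 → ℂ} {o1 o2 : ℝ}

theorem inv_zero_fun (x : E3) : 𝓕⁻ (fun _ : E3 => (0:ℂ)) x = 0 := by
  rw [Real.fourierInv_eq']; simp

/-- the kernels of the pieces satisfy the hypotheses of the Katz-Tao bound -/
theorem kker (D : Dat c1 φ χ o1 o2) (B : ℝ) (p : ℕ) : ∃ CK CP : ℝ, 0 ≤ CK ∧ 0 ≤ CP ∧ ∀ (N : ℕ) (R : ℝ), 1 ≤ N → (N:ℝ) ^ 2 ≤ R →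
    R ≤ B * (N:ℝ) ^ 2 → KB.KKer N p CK CP (fun k => 𝓕⁻ (mk φ χ N R o1 o2 k)) := by
  obtain ⟨CK, hCK, h1⟩ := ker_mk D B (p + 4)
  obtain ⟨CP, hCP, h2⟩ := sum_mk_L2 D
  refine ⟨CK, CP, hCK, hCP, fun N R hN hR hR' => ?_⟩
  refine ⟨fun k => cont_inv (sm_mk D hN hR k).int, fun k _ x => h1 N R k hN hR hR' x, ?_, ?_⟩
  · intro k _ x hx
    have hne : ∃ ξ, mk φ χ N R o1 o2 k ξ ≠ 0 := by
      by_contra hcon
      push Not at hcon
      apply hx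
      have e : mk φ χ N R o1 o2 k = fun _ => 0 := funext hcon
      show 𝓕⁻ (mk φ χ N R o1 o2 k) x = 0
      rw [e]
      exact inv_zero_fun x
    obtain ⟨ξ, hξ⟩ := hne
    obtain ⟨a, b⟩ := mk_zero D.cut D.hc0.le D.hc1 hN R D.ho1 D.ho1' D.ho2 D.ho2' hξ
    have hN0 : (0:ℝ) < N := by exact_mod_cast hN
    have e : (3/2:ℝ) / N ≤ 2 / N := by gcongr; norm_num
    have hc := D.hc1
    constructor <;> linarith
  · intro u hu
    have := h2 N R (grd N) u hN hR hu.adm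
    refine le_trans (le_of_eq ?_) this
    refine Finset.sum_congr rfl fun k _ => ?_
    rw [mop_cvl (sm_mk D hN hR k) hu.int]

theorem den_cvl (D : Dat c1 φ χ o1 o2) (M : ℕ) {N : ℕ} (hN : 1 ≤ N) {R : ℝ} (hR : (N:ℝ) ^ 2 ≤ R) {h : E3 → ℂ} (hh : Ad1 h) :
    den M N o1 o2 (gO φ χ N R o1 o2 h) =
      fun k x => ∫⁻ y, ‖KB.cvl (𝓕⁻ (mk φ χ N R o1 o2 k)) h y‖ₑ ^ 2 * Phs M N k (x - y) := by
  funext k x
  unfold den
  rw [inv_pc_gO, mop_cvl (sm_mk D hN hR k) hh.int]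

/-- Katz-Tao bound for the densities -/
theorem ktd (D : Dat c1 φ χ o1 o2) (B : ℝ) {ε : ℝ} (hε : 0 < ε) {M : ℕ} (hM : 9 ≤ M) : ∃ C : ℝ, 1 ≤ C ∧
    ∀ (N : ℕ) (R : ℝ) (h : E3 → ℂ), 1 ≤ N → (N:ℝ) ^ 2 ≤ R → R ≤ B * (N:ℝ) ^ 2 → Ad1 h →
      KTd N (C * (N:ℝ) ^ ε) (den M N o1 o2 (gO φ χ N R o1 o2 h)) := by
  obtain ⟨p, hp⟩ := exists_nat_ge (3 / ε)
  obtain ⟨CK, CP, hCK, hCP, hk⟩ := kker D B p
  obtain ⟨C, hC, h1⟩ := KB.KTd_main hε hp hM hCK hCP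
  refine ⟨C, hC, fun N R h hN hR hR' hh => ?_⟩
  rw [den_cvl D M hN hR hh]
  exact h1 N _ h hN (hk N R hN hR hR') hh

end

theorem KTd.mono {N : ℕ} {A A' : ℝ} {ν : ℤ × ℤ → E3 → ℝ≥0∞} (h : KTd N A ν) (hA : A ≤ A') : KTd N A' ν := by
  unfold KTd at *
  intro a b s1 s2 w1 w2 p hab hw1 hw2
  refine (h a b s1 s2 w1 w2 p hab hw1 hw2).trans ?_
  apply ENNReal.ofReal_le_ofReal
  have hN : (0:ℝ) ≤ N := Nat.cast_nonneg _
  have : 0 ≤ w1 * w2 * (N:ℝ) ^ 2 := by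
    have h1 : 0 ≤ w1 := hN.trans hw1
    have h2 : 0 ≤ w2 := h1.trans hw2
    positivity
  gcongr

/-- **[KIN3]** -/
theorem stKIN3 : StKIN3 := by
  intro ε hε
  refine ⟨9, ?_⟩
  intro M B c1 φ χ hM hB hc0 hc1 hφ hχ
  have hD : ∀ o : Fin 2 × Fin 2, Dat c1 φ χ (o.1.val / 2) (o.2.val / 2) := by
    intro o
    have h : ∀ i : Fin 2, (0:ℝ) ≤ (i.val : ℝ) / 2 ∧ (i.val : ℝ) / 2 ≤ 1/2 := by
      intro i
      have h1 : (i.val : ℝ) ≤ 1 := by exact_mod_cast Nat.lt_succ_iff.1 i.isLt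
      constructor
      · positivity
      · linarith
    exact ⟨hc0, hc1, hφ, hχ, (h _).1, (h _).2, (h _).1, (h _).2⟩
  have h1 := fun o => den_bd (hD o) B (M := M) (by omega)
  choose C1 hC1 h1 using h1
  have h2 := fun o => ktd (hD o) B hε hM
  choose C2 hC2 h2 using h2
  obtain ⟨C3, hC3, h3⟩ := gO_L2 hφ hχ
  set C := 1 + C3 + ∑ o, C1 o + ∑ o, C2 o with hC
  have s1 : 0 ≤ ∑ o, C1 o := Finset.sum_nonneg fun o _ => hC1 o
  have s2 : 0 ≤ ∑ o, C2 o := Finset.sum_nonneg fun o _ => zero_le_one.trans (hC2 o)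
  have l1 : ∀ o, C1 o ≤ C := fun o => by
    have := Finset.single_le_sum (f := C1) (fun o _ => hC1 o) (Finset.mem_univ o)
    linarith
  have l2 : ∀ o, C2 o ≤ C := fun o => by
    have := Finset.single_le_sum (f := C2) (fun o _ => zero_le_one.trans (hC2 o)) (Finset.mem_univ o)
    linarith
  refine ⟨C, by linarith, ?_⟩
  intro N R h hN hR hR' hh
  have hN1 : 1 ≤ N := by omega
  refine ⟨fun o => gO φ χ N R (o.1.val / 2) (o.2.val / 2) h, ?_, ?_, ?_, ?_, ?_⟩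
  · intro o
    exact ams_gO (hD o) hN1 hR hh
  · intro x
    rw [SR_dec hφ hχ N R hh.int x]
    exact norm_sum_le _ _
  · intro o
    refine (h3 N R _ _ h hh).trans (mul_le_mul' (ENNReal.ofReal_le_ofReal (by linarith)) le_rfl)
  · intro o k x
    exact (h1 o N R k h hN1 hR hR' hh x).trans (ENNReal.ofReal_le_ofReal (l1 o))
  · intro o
    refine (h2 o N R h hN1 hR hR' hh).mono ?_
    have := l2 o
    gcongr

end Vale.Agent.P117.K
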