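import Vale.Agent.P117.K.Defs

/-! # P117 / K : one more interface -/

open MeasureTheory Complex Set
open scoped ENNReal NNReal ContDiff FourierTransform SchwartzMap

set_option linter.all false

namespace Vale.Agent.P117.K

/-- [SUP3] crude bounds for the localised operator -/
def StSUP3 : Prop := ∀ (c1 : ℝ) (φ : ℝ → ℂ) (χ : E3 → ℂ), 0 < c1 → c1 ≤ 1 / 100 → Prf c1 φ → Cut c1 χ →
  ∃ C a : ℝ, 1 ≤ C ∧ 0 ≤ a ∧ ∀ (R : ℝ) (h : E3 → ℂ), 1 ≤ R → Ad1 h →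
    (∀ x, ‖SR φ χ R h x‖ ≤ C * R ^ a) ∧
    (∫⁻ x, ‖SR φ χ R h x‖ₑ ^ 2 ≤ ENNReal.ofReal C * ∫⁻ y, ‖h y‖ₑ ^ 2)

end Vale.Agent.P117.K
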