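import Vale.Agent.P117.K.RstD
import Vale.Agent.P117.K.DefsM
import Vale.Agent.P117.Bdl.B2

/-! # Crude bounds for the localised operator -/

open MeasureTheory Complex Set Filter
open scoped ENNReal NNReal Topology ContDiff FourierTransform SchwartzMap

set_option linter.all false

namespace Vale.Agent.P117.Rst

open Vale.Agent.P117 (Adm cv enorm_cv_le young_lintegral E3 DB fourier_decay cv_schwartz_eq)
open Vale.Agent.P117.K (Prf Cut SR Ad1 StSUP3 xist)

theorem stSUP3 : StSUP3 := by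
  intro c1 φ χ hc1 _ hφ hχ
  obtain ⟨CM, hCM, hker⟩ := ker_bd 4 hc1 hφ hχ
  obtain ⟨C4, hC4, hw⟩ := wl_int
  obtain ⟨Cm, hCm, hD⟩ := mult_DB 0 hφ hχ
  refine ⟨1 + CM * C4 + Cm ^ 2, 3, by
    have : 0 ≤ CM * C4 := by positivity
    nlinarith [sq_nonneg Cm], by norm_num, ?_⟩
  intro R h hR hh
  have hR0 : 0 < R := by linarith
  have hcs : HasCompactSupport (K.mult φ χ R) := hcs_of_supp (r := 1 + c1) fun ξ h => mult_supp hχ h
  have hmc : Continuous (K.mult φ χ R) := (mult_smooth hφ hχ R).continuous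
  have hmi : Integrable (K.mult φ χ R) := hmc.integrable_of_hasCompactSupport hcs
  constructor
  · intro x
    rw [SR_eq_cv hφ hχ R hh.int]
    have h1 : ‖cv (𝓕⁻ (K.mult φ χ R)) h x‖ₑ ≤ ENNReal.ofReal (CM * C4 * R ^ 3) := by
      calc ‖cv (𝓕⁻ (K.mult φ χ R)) h x‖ₑ ≤ ∫⁻ y, ‖𝓕⁻ (K.mult φ χ R) (x - y)‖ₑ * ‖h y‖ₑ := enorm_cv_le _ _ _
        _ ≤ ∫⁻ y, ENNReal.ofReal CM * ENNReal.ofReal (wl R (x - y)) := by
            apply lintegral_mono
            intro y
            simp only
            have h2 : ‖h y‖ₑ ≤ 1 := by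
              rw [← ofReal_norm, ← ENNReal.ofReal_one]
              exact ENNReal.ofReal_le_ofReal (hh.bdd y)
            have h3 : ‖𝓕⁻ (K.mult φ χ R) (x - y)‖ₑ ≤ ENNReal.ofReal CM * ENNReal.ofReal (wl R (x - y)) := by
              rw [← ofReal_norm, ← ENNReal.ofReal_mul hCM]
              exact ENNReal.ofReal_le_ofReal (hker R hR (x - y))
            calc _ ≤ (ENNReal.ofReal CM * ENNReal.ofReal (wl R (x - y))) * 1 := mul_le_mul' h3 h2
              _ = _ := mul_one _
        _ = ENNReal.ofReal CM * ∫⁻ y, ENNReal.ofReal (wl R y) := by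
            rw [lintegral_const_mul' _ _ ENNReal.ofReal_ne_top]
            congr 1
            exact lintegral_sub_left_eq_self (fun y => ENNReal.ofReal (wl R y)) x
        _ ≤ ENNReal.ofReal CM * ENNReal.ofReal (C4 * R ^ 3) := by
            gcongr
            exact hw R hR0
        _ = _ := by
            rw [← ENNReal.ofReal_mul hCM]
            ring_nf
    rw [← ofReal_norm, ENNReal.ofReal_le_ofReal_iff (by positivity)] at h1
    refine h1.trans ?_
    rw [show (3:ℝ) = ((3:ℕ):ℝ) by norm_num, Real.rpow_natCast]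
    gcongr
    nlinarith [sq_nonneg Cm]
  · unfold SR
    set G : E3 → ℂ := fun ξ => K.mult φ χ R ξ * 𝓕 h ξ with hG
    have hFc : Continuous (𝓕 h) := Vale.Agent.P117.continuous_fourier hh.int
    have hGm : Measurable G := (hmc.mul hFc).measurable
    have hGi : Integrable G := by
      apply hmi.mul_bdd (c := ∫ v, ‖h v‖)
      · exact hFc.aestronglyMeasurable
      · filter_upwards with x
        exact Vale.Agent.P117.norm_fourier_le h x
    have h1 : ∫⁻ x, ‖𝓕⁻ G x‖ₑ ^ 2 ≤ ∫⁻ x, ‖G x‖ₑ ^ 2 := by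
      have h2 := Vale.Agent.P117.lintegral_sq_fourier_le (hGi.comp_neg) (hGm.comp measurable_neg)
      rw [← Real.fourierInv_eq_fourier_comp_neg] at h2
      refine h2.trans (le_of_eq ?_)
      exact lintegral_neg_eq_self (fun x => ‖G x‖ₑ ^ 2)
    have hmb : ∀ ξ, ‖K.mult φ χ R ξ‖ ≤ Cm := by
      intro ξ
      by_cases hξ : ‖ξ‖ ≤ 1 + c1
      · have := hD R hR ξ hξ 0 le_rfl
        simpa using this
      · have : K.mult φ χ R ξ = 0 := by
          by_contra hne
          exact hξ (mult_supp hχ hne)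
        rw [this, norm_zero]
        exact hCm
    calc ∫⁻ x, ‖𝓕⁻ G x‖ₑ ^ 2 ≤ ∫⁻ x, ‖G x‖ₑ ^ 2 := h1
      _ ≤ ∫⁻ x, ENNReal.ofReal (Cm ^ 2) * ‖𝓕 h x‖ₑ ^ 2 := by
          apply lintegral_mono
          intro x
          simp only [hG]
          rw [enorm_mul, mul_pow]
          gcongr
          rw [← ofReal_norm, ← ENNReal.ofReal_pow (norm_nonneg _)]
          apply ENNReal.ofReal_le_ofReal
          have := hmb x
          gcongr
      _ = ENNReal.ofReal (Cm ^ 2) * ∫⁻ x, ‖𝓕 h x‖ₑ ^ 2 := lintegral_const_mul' _ _ ENNReal.ofReal_ne_top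
      _ ≤ _ := by
          refine mul_le_mul' (ENNReal.ofReal_le_ofReal ?_) (Vale.Agent.P117.lintegral_sq_fourier_le hh.int hh.meas)
          have : 0 ≤ CM * C4 := by positivity
          linarith

end Vale.Agent.P117.Rst
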