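import Vale.Agent.P117.K.TopSch
import Vale.Agent.P117.K.Defs

/-! # [TOP3], [DUAL3], [L2] in the form of `K/Defs.lean` -/

open MeasureTheory Complex Set Filter
open scoped ENNReal NNReal ContDiff FourierTransform SchwartzMap ComplexConjugate Topology

set_option linter.all false

namespace Vale.Agent.P117.K

open Vale.Agent.P117 (Adm TB brm adm_sch fint_sch)
open Vale.Agent.P117.Top

theorem norm_xist : ‖xist‖ = 1 := by
  have h0 : xist 0 = 4/9 := rfl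
  have h1 : xist 1 = 4/9 := rfl
  have h2 : xist 2 = 7/9 := rfl
  rw [EuclideanSpace.norm_eq, Fin.sum_univ_three, h0, h1, h2]
  norm_num

theorem bochnerRiesz_TB (δ : ℝ) (f : E3 → ℂ) : bochnerRiesz δ f = TB δ f := by
  ext x
  unfold bochnerRiesz TB
  rw [Real.fourierInv_eq']
  congr 1
  ext ξ
  rw [smul_eq_mul, mul_comm]
  congr 1
  congr 1
  rw [real_inner_comm]
  push_cast
  ring

theorem mult_int {c1 : ℝ} {φ : ℝ → ℂ} {χ : E3 → ℂ} (hφ : Prf c1 φ) (hχ : Cut c1 χ) (R : ℝ) : Integrable (mult φ χ R) := by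
  have h1 := hφ.smooth.continuous
  have h2 := hχ.smooth.continuous
  have h3 : Continuous (mult φ χ R) := by unfold mult; fun_prop
  apply h3.integrable_of_hasCompactSupport
  apply HasCompactSupport.of_support_subset_isCompact (isCompact_closedBall xist c1)
  intro ξ hξ
  rw [mem_closedBall_iff_norm]
  apply hχ.supp
  intro h0
  apply hξ
  unfold mult
  rw [h0, mul_zero]

theorem stTop_of_BRp {p a : ℝ} (hp : 1 ≤ p) (h : StBRp p a) : StTop p a := by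
  intro ε hε
  obtain ⟨c1, hc1, h1⟩ := h (ε / 2) (by linarith)
  refine ⟨2, xist, c1, c1, le_refl _, norm_xist, hc1, hc1, ?_⟩
  intro φ χ hφ hφs hχ hχs
  obtain ⟨C, hC, h2⟩ := h1 φ χ ⟨hφ, hφs⟩ ⟨hχ, hχs⟩
  refine ⟨C, hC, fun n f hf => ?_⟩
  have hR : (1:ℝ) ≤ ((((2:ℕ):ℝ)) ^ n) ^ 2 := by
    have : (1:ℝ) ≤ (((2:ℕ):ℝ)) ^ n := one_le_pow₀ (by norm_num)
    nlinarith
  have hP : 1 ≤ ENNReal.ofReal p := by
    rw [← ENNReal.ofReal_one]; exact ENNReal.ofReal_le_ofReal hp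
  have h4 := h2 _ f hR ⟨hf.meas, hf.int, hf.bdd⟩
  have e : ((((2:ℕ):ℝ) ^ n) ^ 2) ^ (a + ε / 2) = (((2:ℕ):ℝ) ^ n) ^ (2 * a + ε) := by
    rw [← Real.rpow_natCast (((2:ℕ):ℝ) ^ n) 2, ← Real.rpow_mul (by positivity)]
    congr 1
    push_cast; ring
  rw [e] at h4
  exact h4

theorem one_le_ofReal {p : ℝ} (hp : 1 ≤ p) : 1 ≤ ENNReal.ofReal p := by
  rw [← ENNReal.ofReal_one]; exact ENNReal.ofReal_le_ofReal hp

/-- all exponents between the dual exponent of `p0` and `p0` -/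
theorem BRbdd_of_BRp {p0 a0 : ℝ} (hp0 : 2 < p0) (ha0 : 0 ≤ a0) (h : StBRp p0 a0) {P : ℝ≥0∞} (hP : 1 ≤ P)
    (hPp : |(1 / P).toReal - 1 / 2| ≤ 1 / 2 - 1 / p0) {δ : ℝ} (hδ0 : 0 < δ)
    (hδ : a0 * (|(1 / P).toReal - 1 / 2| / (1 / 2 - 1 / p0)) < δ) : BRbdd δ P := by
  obtain ⟨C, hC, h1⟩ := top_all hp0 ha0 (stTop_of_BRp (by linarith) h) hP hPp hδ0 hδ
  refine ⟨C.toNNReal, fun f => ?_⟩
  rw [bochnerRiesz_TB]
  exact h1 f (adm_sch f) (fint_sch f)

/-- **[TOP3]** -/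
theorem stTOP3 : StTOP3 := by
  intro p a hp ha h δ hδ
  have hd : 0 < 1 / 2 - 1 / p := by
    have : 1 / p < 1 / 2 := one_div_lt_one_div_of_lt (by norm_num) hp
    linarith
  have e : |(1 / ENNReal.ofReal p).toReal - 1 / 2| = 1 / 2 - 1 / p := by
    rw [one_div_toReal (by linarith), abs_of_nonpos (by linarith)]
    ring
  apply BRbdd_of_BRp hp ha h (one_le_ofReal (by linarith)) e.le (lt_of_le_of_lt ha hδ)
  rw [e, div_self hd.ne', mul_one]
  exact hδ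

theorem brm_int {δ : ℝ} (hδ : 0 ≤ δ) : Integrable (fun ξ : E3 => brm δ ‖ξ‖) := by
  have hm : Measurable (fun ξ : E3 => brm δ ‖ξ‖) := by
    unfold brm
    apply Measurable.ite
    · exact measurableSet_lt (by fun_prop) measurable_const
    · fun_prop
    · fun_prop
  have hi : Integrable ((Metric.closedBall (0:E3) 1).indicator (fun _ : E3 => (1:ℝ))) :=
    (integrable_indicator_iff Metric.isClosed_closedBall.measurableSet).2 (integrableOn_const measure_closedBall_lt_top.ne)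
  refine hi.mono' hm.aestronglyMeasurable ?_
  filter_upwards with ξ
  by_cases h : ξ ∈ Metric.closedBall (0:E3) 1
  · rw [indicator_of_mem h]
    exact Vale.Agent.P117.brm_norm_le hδ _ (norm_nonneg _)
  · rw [indicator_of_notMem h]
    rw [mem_closedBall_zero_iff, not_le] at h
    unfold brm
    rw [if_neg (by linarith), norm_zero]

theorem Bd_of_BRbdd {δ : ℝ} (hδ : 0 ≤ δ) {P : ℝ≥0∞} (hP : 1 ≤ P) (h : BRbdd δ P) :
    ∃ A : ℝ, 0 ≤ A ∧ Bd (fun ξ : E3 => brm δ ‖ξ‖) P (ENNReal.ofReal A) := by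
  obtain ⟨C, hC⟩ := h
  refine ⟨C, C.2, ?_⟩
  apply Bd_of_schwartz (brm_int hδ) hP
  intro f
  have := hC f
  rw [bochnerRiesz_TB] at this
  rw [ENNReal.ofReal_coe_nnreal]
  exact this

theorem BRbdd_of_Bd {δ : ℝ} {P : ℝ≥0∞} {A : ℝ} (h : Bd (fun ξ : E3 => brm δ ‖ξ‖) P (ENNReal.ofReal A)) : BRbdd δ P := by
  refine ⟨A.toNNReal, fun f => ?_⟩
  rw [bochnerRiesz_TB]
  exact h f (adm_sch f)

/-- **[DUAL3]** -/
theorem stDUAL3 : StDUAL3 := by
  intro p q δ hp hq hpq hδ h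
  have hc : (ENNReal.ofReal p)⁻¹ + (ENNReal.ofReal q)⁻¹ = 1 := by
    rw [← ENNReal.ofReal_inv_of_pos (by linarith), ← ENNReal.ofReal_inv_of_pos (by linarith),
      ← ENNReal.ofReal_add (by positivity) (by positivity), ← ENNReal.ofReal_one]
    congr 1
    rw [← one_div, ← one_div]; exact hpq
  obtain ⟨A, hA, hB⟩ := Bd_of_BRbdd hδ.le (one_le_ofReal hp.le) h
  exact BRbdd_of_Bd (Bd.dual hc ENNReal.ofReal_ne_top (brm_int hδ.le) hA hB)

/-- **[L2]** -/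
theorem stL2 : StL2 := by
  intro δ hδ
  exact BRbdd_of_Bd (Bd.two (brm_int hδ) (B := 1) fun ξ => Vale.Agent.P117.brm_norm_le hδ _ (norm_nonneg _))

end Vale.Agent.P117.K
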