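import Vale.Agent.P117.K.DefsKT
import Vale.Agent.P127.U.Defs

/-! # P117 / K : bridge from the entropic theorems of P127 (helper117) : excess of a Katz-Tao family of lines -/

open Filter Topology
open Vale.Agent.P127 Vale.Agent.P127.Stk

set_option linter.all false

namespace Vale.Agent.P117.K

section gen

variable {Ω : Type} [Fintype Ω] {S T : Type*}

/-- counting bound with a count depending on the condition -/
theorem hc_le_exlog (P : Law Ω) (X : Ω → S) (Y : Ω → T) (N : T → ℝ)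
    (h : ∀ ω, 0 < P.w ω → ∃ F : Finset S, (F.card:ℝ) ≤ N (Y ω) ∧ ∀ ω', 0 < P.w ω' → Y ω' = Y ω → X ω' ∈ F) :
    Stk.hc P X Y ≤ P.ex fun ω => Real.log (N (Y ω)) := by
  classical
  have h' : ∀ y : T, ∃ F : Finset S, ((∃ ω, 0 < P.w ω ∧ Y ω = y) → (F.card:ℝ) ≤ N y ∧ ∀ ω', 0 < P.w ω' → Y ω' = y → X ω' ∈ F) := by
    intro y
    by_cases hy : ∃ ω, 0 < P.w ω ∧ Y ω = y
    · obtain ⟨ω, hω, rfl⟩ := hy
      obtain ⟨F, hF⟩ := h ω hω
      exact ⟨F, fun _ => hF⟩
    · exact ⟨∅, fun hh => absurd hh hy⟩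
  choose F hF using h'
  have hpos : ∀ ω, 0 < P.w ω → 0 < N (Y ω) := by
    intro ω hω
    obtain ⟨h1, h2⟩ := hF (Y ω) ⟨ω, hω, rfl⟩
    have : 0 < (F (Y ω)).card := Finset.card_pos.2 ⟨_, h2 ω hω rfl⟩
    have : (0:ℝ) < (F (Y ω)).card := by exact_mod_cast this
    linarith
  have hg := P.gibbs_cond X Y (fun x y => if x ∈ F y ∧ (∃ ω, 0 < P.w ω ∧ Y ω = y) then 1 / N y else 0)
    (fun x y => by
      split_ifs with hh
      · obtain ⟨_, ω, hω, rfl⟩ := hh
        exact (one_div_pos.2 (hpos ω hω)).le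
      · exact le_rfl) ?_ (fun ω hω => by
      obtain ⟨h1, h2⟩ := hF (Y ω) ⟨ω, hω, rfl⟩
      rw [if_pos ⟨h2 ω hω rfl, ω, hω, rfl⟩]
      exact one_div_pos.2 (hpos ω hω))
  · refine hg.trans (le_of_eq ?_)
    refine P.ex_congr fun ω hω => ?_
    obtain ⟨h1, h2⟩ := hF (Y ω) ⟨ω, hω, rfl⟩
    rw [if_pos ⟨h2 ω hω rfl, ω, hω, rfl⟩, one_div, Real.log_inv, neg_neg]
  · intro y G
    by_cases hy : ∃ ω, 0 < P.w ω ∧ Y ω = y
    · obtain ⟨h1, h2⟩ := hF y hy
      have hNy : 0 < N y := by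
        obtain ⟨ω, hω, rfl⟩ := hy
        exact hpos ω hω
      have e : ∀ x, (if x ∈ F y ∧ (∃ ω, 0 < P.w ω ∧ Y ω = y) then 1 / N y else 0) = if x ∈ F y then 1 / N y else 0 := by
        intro x
        by_cases hx : x ∈ F y
        · rw [if_pos ⟨hx, hy⟩, if_pos hx]
        · rw [if_neg (fun hh => hx hh.1), if_neg hx]
      simp only [e]
      rw [← Finset.sum_filter, Finset.sum_const, nsmul_eq_mul, mul_one_div]
      refine div_le_one_of_le₀ ?_ hNy.le
      have h3 : (G.filter (fun x => x ∈ F y)).card ≤ (F y).card :=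
        Finset.card_le_card fun x hx => (Finset.mem_filter.1 hx).2
      have h4 : ((G.filter (fun x => x ∈ F y)).card:ℝ) ≤ (F y).card := by exact_mod_cast h3
      linarith
    · refine le_trans (le_of_eq (Finset.sum_eq_zero fun x _ => ?_)) zero_le_one
      rw [if_neg (fun hh => hy hh.2)]

end gen

/-- the real line of an integer line -/
noncomputable def rl (L : ℕ) (x y : Fin 2 → ℤ) : U.Ln := (fun i => (x i : ℝ) / 2 ^ L, fun i => (y i : ℝ) / 2 ^ L)

theorem fl_rl (L : ℕ) (x : Fin 2 → ℤ) : fl L (fun i => (x i : ℝ) / 2 ^ L) = x := by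
  ext i
  unfold fl
  have : (2:ℝ) ^ L * ((x i : ℝ) / 2 ^ L) = (x i : ℝ) := by field_simp
  rw [this, Int.floor_intCast]

theorem tb_rl (L : ℕ) (x y : Fin 2 → ℤ) : U.tb L (rl L x y) = (x, y) := by
  unfold U.tb rl
  simp only
  rw [fl_rl, fl_rl]

theorem pq_rl (L : ℕ) (x y : Fin 2 → ℤ) (t : ℕ) :
    U.pq L ((t:ℝ) / 2 ^ L, U.pos (rl L x y) ((t:ℝ) / 2 ^ L)) = ((t:ℤ), pos L (x, y) t) := by
  unfold U.pq
  ext
  · unfold fl1
    simp only
    have : (2:ℝ) ^ L * ((t : ℝ) / 2 ^ L) = ((t:ℤ) : ℝ) := by push_cast; field_simp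
    rw [this, Int.floor_intCast]
  · rename_i i
    unfold fl U.pos rl pos
    simp only
    have e : (2:ℝ) ^ L * ((x i : ℝ) / 2 ^ L + (t:ℝ) / 2 ^ L * ((y i : ℝ) / 2 ^ L)) = (x i : ℝ) + ((t * y i : ℤ) : ℝ) / ((2 ^ L : ℕ) : ℝ) := by
      push_cast
      field_simp
    rw [e, add_comm, Int.floor_add_intCast, add_comm]
    congr 1
    rw [Int.floor_div_natCast, Int.floor_intCast]
    push_cast
    rfl

theorem fl1_t (L t : ℕ) : fl1 L ((t:ℝ) / 2 ^ L) = (t:ℤ) := by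
  unfold fl1
  have : (2:ℝ) ^ L * ((t : ℝ) / 2 ^ L) = ((t:ℤ) : ℝ) := by push_cast; field_simp
  rw [this, Int.floor_intCast]

/-- the label of the tube of a real line determines and is determined by the integer line -/
theorem lab_tube (L : ℕ) (x y x' y' : Fin 2 → ℤ) : U.lab 0 L L (rl L x y) = U.lab 0 L L (rl L x' y') ↔ (x = x' ∧ y = y') := by
  have key : ∀ u v : Fin 2 → ℤ, U.fkj L L (U.co (U.qa (L - L) 0) (fun i => (u i : ℝ) / 2 ^ L)) = U.fkj L L (U.co (U.qa (L - L) 0) (fun i => (v i : ℝ) / 2 ^ L)) ↔ u = v := by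
    intro u v
    have h0 : U.qa (L - L) 0 = 0 := by unfold U.qa fl1; simp
    have e : ∀ w : Fin 2 → ℤ, U.fkj L L (U.co (U.qa (L - L) 0) (fun i => (w i : ℝ) / 2 ^ L)) = (w 0, w 1) := by
      intro w
      rw [h0]
      unfold U.fkj U.co fl1
      simp only [Real.cos_zero, Real.sin_zero, one_mul, zero_mul, neg_zero, add_zero, zero_add, Matrix.cons_val_zero, Matrix.cons_val_one]
      have e1 : ∀ i, (2:ℝ) ^ L * ((w i : ℝ) / 2 ^ L) = (w i : ℝ) := fun i => by field_simp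
      rw [e1, e1, Int.floor_intCast, Int.floor_intCast]
    rw [e, e]
    constructor
    · intro h
      ext i
      fin_cases i
      · exact congrArg Prod.fst h
      · exact congrArg Prod.snd h
    · rintro rfl; rfl
  unfold U.lab rl
  simp only [Prod.mk.injEq, true_and]
  rw [key, key]

end Vale.Agent.P117.K
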