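import Vale.Agent.P117.K.BrU

/-! # P117 / K : bridge : the excess of a Katz-Tao family of lines is at most `log K` -/

open Filter Topology
open Vale.Agent.P127 Vale.Agent.P127.Stk

set_option linter.all false

namespace Vale.Agent.P117.K

/-- lines with the same box label are in a common plank -/
theorem plank_of_lab {L k j : ℕ} (hkj : k ≤ j) (hjL : j ≤ L) (a : ℤ) (c d : ℤ × ℤ) : ∃ (α β : ℝ) (x0 y0 : Fin 2 → ℝ), α ^ 2 + β ^ 2 = 1 ∧
    ∀ (θ : ℝ) (x y : Fin 2 → ℤ), U.lab θ k j (rl L x y) = (k, j, a, c, d) →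
      inP α β ((2:ℝ) ^ (L - j)) ((2:ℝ) ^ (L - k)) x0 y0 (x, y) := by
  set θq : ℝ := (a:ℝ) / 2 ^ (j - k) with hθq
  set C := Real.cos θq with hC
  set S := Real.sin θq with hS
  have hCS : C ^ 2 + S ^ 2 = 1 := by rw [hC, hS]; exact Real.cos_sq_add_sin_sq θq
  -- centres
  let cen : ℤ × ℤ → Fin 2 → ℝ := fun e => ![C * ((e.1:ℝ) * 2 ^ (L - k)) - S * ((e.2:ℝ) * 2 ^ (L - j)), S * ((e.1:ℝ) * 2 ^ (L - k)) + C * ((e.2:ℝ) * 2 ^ (L - j))]
  refine ⟨-S, C, cen c, cen d, by nlinarith, ?_⟩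
  intro θ x y h
  have h1 : fl1 (j - k) θ = a := congrArg (fun z : U.Lab => z.2.2.1) h
  have h2 : U.fkj k j (U.co (U.qa (j - k) θ) (rl L x y).1) = c := congrArg (fun z : U.Lab => z.2.2.2.1) h
  have h3 : U.fkj k j (U.co (U.qa (j - k) θ) (rl L x y).2) = d := congrArg (fun z : U.Lab => z.2.2.2.2) h
  have h4 : U.qa (j - k) θ = θq := by unfold U.qa; rw [h1]
  rw [h4] at h2 h3
  have key : ∀ (u : Fin 2 → ℤ) (e : ℤ × ℤ), U.fkj k j (U.co θq (fun i => (u i : ℝ) / 2 ^ L)) = e →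
      |(-S) * ((u 0:ℝ) - cen e 0) + C * ((u 1:ℝ) - cen e 1)| ≤ (2:ℝ) ^ (L - j) ∧
      |-C * ((u 0:ℝ) - cen e 0) + (-S) * ((u 1:ℝ) - cen e 1)| ≤ (2:ℝ) ^ (L - k) := by
    intro u e he
    have e1 : ⌊(2:ℝ) ^ k * (C * ((u 0:ℝ) / 2 ^ L) + S * ((u 1:ℝ) / 2 ^ L))⌋ = e.1 := by
      have := congrArg Prod.fst he
      simpa [U.fkj, U.co, fl1] using this
    have e2 : ⌊(2:ℝ) ^ j * (-S * ((u 0:ℝ) / 2 ^ L) + C * ((u 1:ℝ) / 2 ^ L))⌋ = e.2 := by
      have := congrArg Prod.snd he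
      simpa [U.fkj, U.co, fl1] using this
    rw [Int.floor_eq_iff] at e1 e2
    have p1 : (2:ℝ) ^ L = 2 ^ (L - k) * 2 ^ k := by rw [← pow_add]; congr 1; omega
    have p2 : (2:ℝ) ^ L = 2 ^ (L - j) * 2 ^ j := by rw [← pow_add]; congr 1; omega
    have q1 : (2:ℝ) ^ (L - k) * ((2:ℝ) ^ k * (C * ((u 0:ℝ) / 2 ^ L) + S * ((u 1:ℝ) / 2 ^ L))) = C * u 0 + S * u 1 := by
      rw [← mul_assoc, ← p1]
      field_simp
    have q2 : (2:ℝ) ^ (L - j) * ((2:ℝ) ^ j * (-S * ((u 0:ℝ) / 2 ^ L) + C * ((u 1:ℝ) / 2 ^ L))) = -S * u 0 + C * u 1 := by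
      rw [← mul_assoc, ← p2]
      field_simp
    have hk0 : (0:ℝ) < 2 ^ (L - k) := by positivity
    have hj0 : (0:ℝ) < 2 ^ (L - j) := by positivity
    have r1 : (e.1:ℝ) * 2 ^ (L - k) ≤ C * u 0 + S * u 1 := by
      rw [← q1]
      have := mul_le_mul_of_nonneg_left e1.1 hk0.le
      linarith
    have r1' : C * u 0 + S * u 1 ≤ (e.1:ℝ) * 2 ^ (L - k) + 2 ^ (L - k) := by
      rw [← q1]
      have := mul_le_mul_of_nonneg_left e1.2.le hk0.le
      linarith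
    have r2 : (e.2:ℝ) * 2 ^ (L - j) ≤ -S * u 0 + C * u 1 := by
      rw [← q2]
      have := mul_le_mul_of_nonneg_left e2.1 hj0.le
      linarith
    have r2' : -S * u 0 + C * u 1 ≤ (e.2:ℝ) * 2 ^ (L - j) + 2 ^ (L - j) := by
      rw [← q2]
      have := mul_le_mul_of_nonneg_left e2.2.le hj0.le
      linarith
    have s1 : (-S) * ((u 0:ℝ) - cen e 0) + C * ((u 1:ℝ) - cen e 1) = (-S * u 0 + C * u 1) - (e.2:ℝ) * 2 ^ (L - j) := by
      simp only [cen, Matrix.cons_val_zero, Matrix.cons_val_one]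
      linear_combination (-(e.2:ℝ) * 2 ^ (L - j)) * hCS
    have s2 : -C * ((u 0:ℝ) - cen e 0) + (-S) * ((u 1:ℝ) - cen e 1) = -((C * u 0 + S * u 1) - (e.1:ℝ) * 2 ^ (L - k)) := by
      simp only [cen, Matrix.cons_val_zero, Matrix.cons_val_one]
      linear_combination ((e.1:ℝ) * 2 ^ (L - k)) * hCS
    rw [s1, s2, abs_neg]
    constructor
    · rw [abs_le]; constructor <;> linarith
    · rw [abs_le]; constructor <;> linarith
  obtain ⟨a1, a2⟩ := key x c h2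
  obtain ⟨b1, b2⟩ := key y d h3
  exact ⟨a1, a2, b1, b2⟩

/-- the box of the tube -/
noncomputable def tBx {Ω : Type} (L : ℕ) (x y : Ω → Fin 2 → ℤ) : U.Bx Ω := U.tbx L (fun ω => rl L (x ω) (y ω))

theorem exV_le {Ω Ω' : Type} [Fintype Ω] [Fintype Ω'] (P : Law Ω) (P' : Law Ω') (π : Ω' → Ω) (hπ : ∀ ω, P'.pr π ω = P.w ω)
    {L : ℕ} {x y : Ω → Fin 2 → ℤ} {K : ℝ} (hK : 1 ≤ K) (hKT : KTf K (suppL P x y)) (W : U.Bx Ω')
    (hW : ∀ ω, 0 < P'.w ω → U.Sub 1 ((tBx L x y).comp π) W ω) :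
    U.exV P' ((tBx L x y).comp π) W (fun _ => ()) ≤ Real.log K := by
  classical
  have hlog : 0 < Real.log 2 := Real.log_pos (by norm_num)
  -- support
  have hsupp : ∀ ω, 0 < P'.w ω → (x (π ω), y (π ω)) ∈ suppL P x y := by
    intro ω hω
    unfold suppL
    refine Finset.mem_image.2 ⟨π ω, Finset.mem_filter.2 ⟨Finset.mem_univ _, ?_⟩, rfl⟩
    rw [← hπ]
    exact P'.pr_pos π hω
  have hmain := hc_le_exlog P' ((tBx L x y).comp π).lab (fun ω => (W.lab ω, ()))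
    (fun w => K * ((2:ℝ) ^ ((L:ℝ) - w.1.2.1) * (2:ℝ) ^ ((L:ℝ) - w.1.1))) ?_
  · unfold U.exV
    have hex : (P'.ex fun ω => Real.log (K * ((2:ℝ) ^ ((L:ℝ) - ((W.lab ω).2.1:ℝ)) * (2:ℝ) ^ ((L:ℝ) - ((W.lab ω).1:ℝ))))) =
        Real.log K + Real.log 2 * P'.ex fun ω => ((tBx L x y).comp π).sz ω - W.sz ω := by
      rw [← P'.ex_const_mul]
      rw [← P'.ex_const (Real.log K), ← P'.ex_add]
      refine P'.ex_congr fun ω _ => ?_
      rw [Real.log_mul (by positivity) (by positivity), Real.log_mul (by positivity) (by positivity), Real.log_rpow (by norm_num),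
        Real.log_rpow (by norm_num)]
      unfold U.Bx.sz U.Bx.comp tBx U.tbx U.Bx.lab U.lab
      simp only
      ring
    have : Stk.hc P' ((tBx L x y).comp π).lab (fun ω => (W.lab ω, ())) ≤ Real.log K + Real.log 2 * P'.ex fun ω => ((tBx L x y).comp π).sz ω - W.sz ω := by
      rw [← hex]; exact hmain
    linarith
  · intro ω hω
    obtain ⟨w1, w2, w3, w4, w5, w6⟩ := hW ω hω
    have hkL : W.k ω ≤ L := w4
    have hjL : W.j ω ≤ L := w5
    obtain ⟨α, β, x0, y0, hαβ, hpl⟩ := plank_of_lab w3 hjL (W.lab ω).2.2.1 (W.lab ω).2.2.2.1 (W.lab ω).2.2.2.2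
    have hKT' := hKT α β ((2:ℝ) ^ (L - W.j ω)) ((2:ℝ) ^ (L - W.k ω)) x0 y0 hαβ (one_le_pow₀ (by norm_num))
      (pow_le_pow_right₀ (by norm_num) (by omega))
    refine ⟨((suppL P x y).filter (fun l => inP α β ((2:ℝ) ^ (L - W.j ω)) ((2:ℝ) ^ (L - W.k ω)) x0 y0 l)).image
      (fun l => U.lab 0 L L (rl L l.1 l.2)), ?_, ?_⟩
    · have h5 : ((((suppL P x y).filter (fun l => inP α β ((2:ℝ) ^ (L - W.j ω)) ((2:ℝ) ^ (L - W.k ω)) x0 y0 l)).image
          (fun l => U.lab 0 L L (rl L l.1 l.2))).card:ℝ) ≤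
          (((suppL P x y).filter (fun l => inP α β ((2:ℝ) ^ (L - W.j ω)) ((2:ℝ) ^ (L - W.k ω)) x0 y0 l)).card:ℝ) := by
        exact_mod_cast Finset.card_image_le
      refine h5.trans (hKT'.trans (le_of_eq ?_))
      have e1 : ((W.lab ω).2.1:ℝ) = (W.j ω : ℝ) := rfl
      have e2 : ((W.lab ω).1:ℝ) = (W.k ω : ℝ) := rfl
      simp only [e1, e2]
      rw [← Nat.cast_sub hjL, ← Nat.cast_sub hkL, Real.rpow_natCast, Real.rpow_natCast]
    · intro ω' hω' he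
      have he' : W.lab ω' = W.lab ω := congrArg Prod.fst he
      obtain ⟨v1, v2, v3, v4, v5, v6⟩ := hW ω' hω'
      refine Finset.mem_image.2 ⟨(x (π ω'), y (π ω')), Finset.mem_filter.2 ⟨hsupp ω' hω', ?_⟩, rfl⟩
      have e3 : W.k ω' = W.k ω := congrArg (fun z : U.Lab => z.1) he'
      have e4 : W.j ω' = W.j ω := congrArg (fun z : U.Lab => z.2.1) he'
      refine hpl (W.θ ω') (x (π ω')) (y (π ω')) ?_
      have e5 : W.lab ω' = U.lab (W.θ ω') (W.k ω') (W.j ω') (W.l ω') := rfl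
      rw [e3, e4] at e5
      have e6 : W.l ω' = rl L (x (π ω')) (y (π ω')) := v1
      rw [e6] at e5
      rw [← e5, he']
      rfl

theorem excF_le {Ω : Type} [Fintype Ω] (P : Law Ω) {L : ℕ} {x y : Ω → Fin 2 → ℤ} {K : ℝ} (hK : 1 ≤ K) (hKT : KTf K (suppL P x y)) :
    U.excF P (tBx L x y) (fun _ => ()) ≤ Real.log K := by
  unfold U.excF
  refine Real.sSup_le ?_ (Real.log_nonneg hK)
  rintro v ⟨Ω', _, P', π, W, h1, h2, rfl⟩
  exact exV_le P P' π h1 hK hKT W h2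

theorem excF_nonneg {Ω : Type} [Fintype Ω] (P : Law Ω) {L : ℕ} {x y : Ω → Fin 2 → ℤ} {K : ℝ} (hK : 1 ≤ K) (hKT : KTf K (suppL P x y)) :
    0 ≤ U.excF P (tBx L x y) (fun _ => ()) := by
  unfold U.excF
  refine le_csSup ⟨Real.log K, ?_⟩ ?_
  · rintro v ⟨Ω', _, P', π, W, h1, h2, rfl⟩
    exact exV_le P P' π h1 hK hKT W h2
  · refine ⟨Ω, inferInstance, P, id, tBx L x y, fun ω => pr_id P ω, fun ω _ => ?_, ?_⟩
    · refine ⟨rfl, ?_, le_rfl, le_rfl, le_rfl, ?_⟩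
      · show |(0:ℝ)| ≤ 4
        simp
      · show |Real.sin (0 - 0)| * _ ≤ _
        simp
    · unfold U.exV
      have h1 : Stk.hc P ((tBx L x y).comp id).lab (fun ω => ((tBx L x y).lab ω, ())) = 0 := by
        refine hc_zero P ?_
        intro ω ω' _ _ e
        exact congrArg Prod.fst e
      have h2 : (P.ex fun ω => ((tBx L x y).comp id).sz ω - (tBx L x y).sz ω) = 0 := by
        have : ∀ ω, ((tBx L x y).comp id).sz ω - (tBx L x y).sz ω = 0 := fun ω => by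
          show (tBx L x y).sz ω - (tBx L x y).sz ω = 0
          ring
        simp only [this]
        exact P.ex_const 0
      rw [h1, h2]
      ring

end Vale.Agent.P117.K
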