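import Vale.Agent.P117.K.BrW

/-! # P117 / K : bridge : `StKTU` from `JU 0`, `StKT 0 N` from `JS N 0` -/

open Filter Topology
open Vale.Agent.P127 Vale.Agent.P127.Stk Vale.Agent.P127.U

set_option linter.all false

namespace Vale.Agent.P117.K

theorem H_line_le {Ω : Type} [Fintype Ω] (P : Law Ω) {L : ℕ} {x y : Ω → Fin 2 → ℤ}
    (hx : ∀ ω j, 0 ≤ x ω j ∧ x ω j < 2 ^ L) (hy : ∀ ω j, 0 ≤ y ω j ∧ y ω j < 2 ^ L) :
    P.H (fun ω => (x ω, y ω)) ≤ 4 * (L * Real.log 2) := by
  classical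
  let F : Finset (Fin 2 → ℤ) := Fintype.piFinset fun _ : Fin 2 => Finset.Ico (0:ℤ) (2 ^ L)
  have hFx : ∀ ω, x ω ∈ F := fun ω => Fintype.mem_piFinset.2 fun j => Finset.mem_Ico.2 (hx ω j)
  have hFy : ∀ ω, y ω ∈ F := fun ω => Fintype.mem_piFinset.2 fun j => Finset.mem_Ico.2 (hy ω j)
  have h1 := P.H_le_log_card (fun ω => ((⟨x ω, hFx ω⟩, ⟨y ω, hFy ω⟩) : F × F))
  have h2 : P.H (fun ω => ((⟨x ω, hFx ω⟩, ⟨y ω, hFy ω⟩) : F × F)) = P.H (fun ω => (x ω, y ω)) := by
    refine P.H_congr fun ω ω' => ?_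
    simp [Subtype.mk.injEq]
  rw [h2] at h1
  refine h1.trans (le_of_eq ?_)
  have h3 : (F.card:ℝ) = ((2:ℝ) ^ L) ^ 2 := by
    have : F.card = (2 ^ L) ^ 2 := by
      simp only [F]
      rw [Fintype.card_piFinset, Finset.prod_const, Finset.card_univ, Fintype.card_fin, Int.card_Ico, sub_zero]
      have : ((2 : ℤ) ^ L) = ((2 ^ L : ℕ) : ℤ) := by push_cast; rfl
      rw [this, Int.toNat_natCast]
    rw [this]; push_cast; rfl
  rw [Fintype.card_prod, Fintype.card_coe]
  push_cast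
  rw [h3, ← pow_mul, ← pow_add, Real.log_pow]
  push_cast
  ring

theorem hc_time_le {Ω : Type} [Fintype Ω] (P : Law Ω) {L : ℕ} {S : Type*} (Y : Ω → S) {t : Ω → ℕ}
    (ht : ∀ ω, t ω < 2 ^ L) : Stk.hc P t Y ≤ L * Real.log 2 := by
  refine (Stk.hc_le_H P t Y).trans ?_
  have h1 := P.H_le_log_card (fun ω => (⟨t ω, ht ω⟩ : Fin (2 ^ L)))
  have h2 : P.H (fun ω => (⟨t ω, ht ω⟩ : Fin (2 ^ L))) = P.H t := by
    refine P.H_congr fun ω ω' => ?_
    simp
  rw [h2, Fintype.card_fin] at h1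
  push_cast at h1
  rwa [Real.log_pow] at h1

/-- common part -/
theorem bridge_aux {N : ℝ} (hN : 0 ≤ N) {ε : ℝ} (hε : 0 < ε) {Ω : ℕ → Type} [hfin : ∀ i, Fintype (Ω i)] (P : ∀ i, Law (Ω i)) (L : ℕ → ℕ)
    (hLi : ∀ i, i ≤ L i) (x y : ∀ i, Ω i → Fin 2 → ℤ) (t : ∀ i, Ω i → ℕ) (K : ℕ → ℝ) (hK : ∀ i, 1 ≤ K i)
    (hx : ∀ i ω j, 0 ≤ x i ω j ∧ x i ω j < 2 ^ L i) (hy : ∀ i ω j, 0 ≤ y i ω j ∧ y i ω j < 2 ^ L i)
    (ht : ∀ i ω, t i ω < 2 ^ L i) (hKT : ∀ i, KTf (K i) (suppL (P i) (x i) (y i)))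
    (hJ : JS N 0 ∨ (JU 0 ∧ ∀ i, L i * Real.log 2 - Stk.hc (P i) (t i) (fun ω => (x i ω, y i ω)) ≤ (1 / (i + 1 : ℝ)) * L i))
    (hbad : ∀ i, N * (L i * Real.log 2 - Stk.hc (P i) (t i) (fun ω => (x i ω, y i ω))) + Real.log (K i) + ε * L i <
      Stk.hc (P i) (fun ω => (x i ω, y i ω)) (fun ω => (pos (L i) (x i ω, y i ω) (t i ω), t i ω))) : False := by
  have hlog : 0 < Real.log 2 := Real.log_pos (by norm_num)
  have hLtop : Tendsto L (uf : Filter ℕ) atTop := (tendsto_atTop_mono hLi tendsto_id).mono_left uf_le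
  set Hl : ℕ → ℝ := fun i => Stk.hc (P i) (fun ω => (x i ω, y i ω)) (fun ω => (pos (L i) (x i ω, y i ω) (t i ω), t i ω)) with hHl
  set Ht : ℕ → ℝ := fun i => Stk.hc (P i) (t i) (fun ω => (x i ω, y i ω)) with hHt
  have hHl4 : ∀ i, Hl i ≤ 4 * (L i * Real.log 2) := fun i => (Stk.hc_le_H _ _ _).trans (H_line_le (P i) (hx i) (hy i))
  have hHl0 : ∀ i, 0 ≤ Hl i := fun i => Stk.hc_nonneg _ _ _
  have hHt1 : ∀ i, Ht i ≤ L i * Real.log 2 := fun i => hc_time_le (P i) _ (ht i)
  have hHt0 : ∀ i, 0 ≤ Ht i := fun i => Stk.hc_nonneg _ _ _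
  have hKL : ∀ i, Real.log (K i) ≤ 4 * (L i * Real.log 2) := by
    intro i
    have h1 := hbad i
    have h2 : 0 ≤ N * (L i * Real.log 2 - Ht i) := mul_nonneg hN (by linarith [hHt1 i])
    have h3 : 0 ≤ ε * L i := by positivity
    linarith [hHl4 i]
  obtain ⟨S, l, q, n, hBd, hLn, hIn, hnu, e1, e2, e3⟩ := sys_data P L hLtop x y t K hK hx hy ht hKT hKL
  have hLpos : ∀ᶠ i in (uf : Filter ℕ), (0:ℝ) < (L i : ℝ) * Real.log 2 := by
    filter_upwards [hLtop.eventually_gt_atTop 0] with i hi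
    have : (0:ℝ) < L i := by exact_mod_cast hi
    positivity
  have uHl : UB fun i => Hl i / (L i * Real.log 2) := UB.of_le (C := 4)
    (by filter_upwards [hLpos] with i hi; exact div_nonneg (hHl0 i) hi.le)
    (by filter_upwards [hLpos] with i hi; exact (div_le_iff₀ hi).2 (hHl4 i))
  have uHt : UB fun i => Ht i / (L i * Real.log 2) := UB.of_le (C := 1)
    (by filter_upwards [hLpos] with i hi; exact div_nonneg (hHt0 i) hi.le)
    (by filter_upwards [hLpos] with i hi; exact (div_le_iff₀ hi).2 (by linarith [hHt1 i]))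
  have uK : UB fun i => Real.log (K i) / (L i * Real.log 2) := UB.of_le (C := 4)
    (by filter_upwards [hLpos] with i hi; exact div_nonneg (Real.log_nonneg (hK i)) hi.le)
    (by filter_upwards [hLpos] with i hi; exact (div_le_iff₀ hi).2 (hKL i))
  -- lower bound for the limit
  have key : N * (1 - ulim (fun i => Ht i / (L i * Real.log 2))) + ulim (fun i => Real.log (K i) / (L i * Real.log 2)) + ε / Real.log 2 ≤
      ulim (fun i => Hl i / (L i * Real.log 2)) := by
    have u1 : UB fun i => N * (1 - Ht i / (L i * Real.log 2)) := ((UB.const 1).sub uHt).const_mul N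
    have e : ulim (fun i => N * (1 - Ht i / (L i * Real.log 2)) + Real.log (K i) / (L i * Real.log 2) + ε / Real.log 2) =
        N * (1 - ulim (fun i => Ht i / (L i * Real.log 2))) + ulim (fun i => Real.log (K i) / (L i * Real.log 2)) + ε / Real.log 2 := by
      rw [ulim_add (u1.add uK) (UB.const _), ulim_add u1 uK, ulim_const, ulim_const_mul _ ((UB.const 1).sub uHt),
        ulim_sub (UB.const 1) uHt, ulim_const]
    rw [← e]
    refine ulim_le ((u1.add uK).add (UB.const _)) uHl ?_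
    filter_upwards [hLpos] with i hi
    rw [le_div_iff₀ hi]
    have h1 := (hbad i).le
    have e5 : Ht i / (L i * Real.log 2) * (L i * Real.log 2) = Ht i := div_mul_cancel₀ _ hi.ne'
    have e6 : Real.log (K i) / (L i * Real.log 2) * (L i * Real.log 2) = Real.log (K i) := div_mul_cancel₀ _ hi.ne'
    have e7 : ε / Real.log 2 * (L i * Real.log 2) = ε * L i := by field_simp
    calc (N * (1 - Ht i / (L i * Real.log 2)) + Real.log (K i) / (L i * Real.log 2) + ε / Real.log 2) * (L i * Real.log 2)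
        = N * (L i * Real.log 2 - Ht i / (L i * Real.log 2) * (L i * Real.log 2)) + Real.log (K i) / (L i * Real.log 2) * (L i * Real.log 2) +
          ε / Real.log 2 * (L i * Real.log 2) := by ring
      _ ≤ _ := by rw [e5, e6, e7]; exact h1
  have hε' : 0 < ε / Real.log 2 := by positivity
  rcases hJ with hJ | ⟨hJ, hfull⟩
  · have h1 := hJ S Unit (Sys.one (S := S)) l q n hBd hLn hIn
    rw [e1, e2, hnu] at h1
    linarith
  · have hone : ulim (fun i => Ht i / (L i * Real.log 2)) = 1 := by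
      refine ulim_eq ?_
      have hlow : Tendsto (fun i : ℕ => 1 - (1 / ((i:ℝ) + 1)) / Real.log 2) (uf : Filter ℕ) (𝓝 1) := by
        have h2 : Tendsto (fun i : ℕ => (1 / ((i:ℝ) + 1)) / Real.log 2) atTop (𝓝 0) := by
          have := (tendsto_one_div_add_atTop_nhds_zero_nat (𝕜 := ℝ)).div_const (Real.log 2)
          rwa [zero_div] at this
        have h3 := (tendsto_const_nhds (x := (1:ℝ))).sub (h2.mono_left uf_le)
        rwa [sub_zero] at h3
      refine tendsto_of_tendsto_of_tendsto_of_le_of_le' hlow tendsto_const_nhds ?_ ?_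
      · filter_upwards [hLpos] with i hi
        rw [le_div_iff₀ hi]
        have h4 := hfull i
        have e7 : (1 / ((i:ℝ) + 1)) / Real.log 2 * (L i * Real.log 2) = (1 / ((i:ℝ) + 1)) * L i := by field_simp
        have e8 : (1 - (1 / ((i:ℝ) + 1)) / Real.log 2) * (L i * Real.log 2) = L i * Real.log 2 - (1 / ((i:ℝ) + 1)) / Real.log 2 * (L i * Real.log 2) := by ring
        rw [e8, e7]
        linarith
      · filter_upwards [hLpos] with i hi
        rw [div_le_one hi]
        exact hHt1 i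
    have h1 := hJ S Unit (Sys.one (S := S)) l q n hBd hLn hIn (by rw [e2, hnu]; exact hone)
    rw [e1] at h1
    rw [hone] at key
    have h5 : 0 * S.nu n = 0 := zero_mul _
    rw [h5] at h1
    linarith

/-- the shaded theorem -/
theorem stKT_of_JS {N : ℝ} (hN : 0 ≤ N) (h : JS N 0) : StKT 0 N := by
  classical
  intro ε hε
  by_contra hcon
  push Not at hcon
  choose L hL Ω hfin P x y t K hK hx hy ht hKT hlt using hcon
  refine bridge_aux hN hε P L hL x y t K hK hx hy ht hKT (Or.inl h) fun i => ?_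
  have := hlt i
  simp only [mul_zero, zero_mul, zero_add] at this
  exact this

/-- the unshaded theorem -/
theorem stKTU_of_JU (h : JU 0) : StKTU := by
  classical
  intro ε hε
  by_contra hcon
  push Not at hcon
  have hcon' := fun i : ℕ => hcon (1 / ((i:ℝ) + 1)) i (by positivity)
  choose L hL Ω hfin P x y t K hK hx hy ht hKT hfull hlt using hcon'
  refine bridge_aux le_rfl hε P L hL x y t K hK hx hy ht hKT (Or.inr ⟨h, hfull⟩) fun i => ?_
  have := hlt i
  rw [zero_mul, zero_add]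
  exact this

end Vale.Agent.P117.K
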