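import Mathlib

/-! # CH3: the abstract chain (level sets of the square function) -/

open MeasureTheory Set
open scoped ENNReal NNReal

set_option linter.all false

namespace Vale.Agent.P117.K

variable {α : Type*} [MeasurableSpace α] {μ : Measure α}

/-- log-convexity between 2 and 3 -/
theorem ch_interp {g : α → ℝ≥0∞} (hg : AEMeasurable g μ) {p : ℝ} (hp2 : 2 ≤ p) (hp3 : p ≤ 3) :
    ∫⁻ x, g x ^ p ∂μ ≤ (∫⁻ x, g x ^ (2:ℝ) ∂μ) ^ (3 - p) * (∫⁻ x, g x ^ (3:ℝ) ∂μ) ^ (p - 2) := by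
  have h := ENNReal.lintegral_mul_norm_pow_le (μ := μ) (f := fun x => g x ^ (2:ℝ)) (g := fun x => g x ^ (3:ℝ))
    (hg.pow_const _) (hg.pow_const _) (p := 3 - p) (q := p - 2) (by linarith) (by linarith) (by ring)
  refine le_trans (le_of_eq ?_) h
  refine lintegral_congr fun x => ?_
  rw [← ENNReal.rpow_mul, ← ENNReal.rpow_mul, ← ENNReal.rpow_add_of_nonneg _ _ (by nlinarith) (by nlinarith)]
  congr 1
  ring

/-- the cubic bound on a level set -/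
theorem ch_cubic {g S : α → ℝ≥0∞} {X : Set α} (hX : MeasurableSet X) {σ : ℝ≥0∞} (hσ : σ ≠ ∞)
    (hX1 : ∀ x ∈ X, S x ≠ 0) (hX2 : ∀ x ∈ X, S x ≤ σ) {A : ℝ≥0∞}
    (href : ∫⁻ x, g x ^ (3:ℝ) / S x ^ (1/2:ℝ) ∂μ ≤ A) :
    ∫⁻ x in X, g x ^ (3:ℝ) ∂μ ≤ σ ^ (1/2:ℝ) * A := by
  calc ∫⁻ x in X, g x ^ (3:ℝ) ∂μ ≤ ∫⁻ x in X, σ ^ (1/2:ℝ) * (g x ^ (3:ℝ) / S x ^ (1/2:ℝ)) ∂μ := by
        refine setLIntegral_mono' hX fun x hx => ?_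
        have h1 : S x ^ (1/2:ℝ) ≠ 0 := by
          rw [Ne, ENNReal.rpow_eq_zero_iff_of_pos (by norm_num)]
          exact hX1 x hx
        have h2 : S x ^ (1/2:ℝ) ≠ ∞ := ENNReal.rpow_ne_top_of_nonneg (by norm_num)
          (ne_top_of_le_ne_top hσ (hX2 x hx))
        calc g x ^ (3:ℝ) = S x ^ (1/2:ℝ) * (g x ^ (3:ℝ) / S x ^ (1/2:ℝ)) := by
              rw [ENNReal.mul_div_cancel h1 h2]
          _ ≤ _ := by
              gcongr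
              exact hX2 x hx
    _ = σ ^ (1/2:ℝ) * ∫⁻ x in X, (g x ^ (3:ℝ) / S x ^ (1/2:ℝ)) ∂μ := by
        rw [lintegral_const_mul' _ _ (ENNReal.rpow_ne_top_of_nonneg (by norm_num) hσ)]
    _ ≤ _ := by
        gcongr
        exact (setLIntegral_le_lintegral _ _).trans href

/-- the algebra of the exponents: `T ≤ Σ`, `σ T^n ≤ G Σ^n` give
`T^(3-p) (σ^(1/2) Σ)^(p-2) ≤ G^((p-2)/2) Σ`. -/
theorem ch_alg {T Sg σ G : ℝ≥0∞} {p n : ℝ} (hn : 0 ≤ n) (hp2 : 2 ≤ p) (hpn : (p - 2) * (n + 2) ≤ 2)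
    (hT : T ≤ Sg) (hG : σ * T ^ n ≤ G * Sg ^ n) :
    T ^ (3 - p) * (σ ^ (1/2:ℝ) * Sg) ^ (p - 2) ≤ G ^ ((p - 2)/2) * Sg := by
  have e0 : (0:ℝ) ≤ (p - 2)/2 := by linarith
  have e1 : 0 ≤ 3 - p - n * ((p-2)/2) := by nlinarith
  have e2 : 0 ≤ n * ((p-2)/2) := mul_nonneg hn e0
  have h1 : T ^ (3 - p) = T ^ (n * ((p-2)/2)) * T ^ (3 - p - n * ((p-2)/2)) := by
    rw [← ENNReal.rpow_add_of_nonneg _ _ e2 e1]
    congr 1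
    ring
  have h2 : (σ ^ (1/2:ℝ) * Sg) ^ (p - 2) = σ ^ ((p-2)/2) * Sg ^ (p - 2) := by
    rw [ENNReal.mul_rpow_of_nonneg _ _ (by linarith), ← ENNReal.rpow_mul]
    congr 2
    ring
  calc T ^ (3 - p) * (σ ^ (1/2:ℝ) * Sg) ^ (p - 2)
      = (σ * T ^ n) ^ ((p-2)/2) * (T ^ (3 - p - n * ((p-2)/2)) * Sg ^ (p - 2)) := by
        rw [h1, h2, ENNReal.mul_rpow_of_nonneg _ _ e0, ← ENNReal.rpow_mul]
        ring
    _ ≤ (G * Sg ^ n) ^ ((p-2)/2) * (Sg ^ (3 - p - n * ((p-2)/2)) * Sg ^ (p - 2)) := by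
        gcongr
    _ = G ^ ((p-2)/2) * (Sg ^ (n * ((p-2)/2)) * (Sg ^ (3 - p - n * ((p-2)/2)) * Sg ^ (p - 2))) := by
        rw [ENNReal.mul_rpow_of_nonneg _ _ e0, ← ENNReal.rpow_mul]
        ring
    _ = G ^ ((p - 2)/2) * Sg := by
        rw [← ENNReal.rpow_add_of_nonneg _ _ e1 (by linarith), ← ENNReal.rpow_add_of_nonneg _ _ e2 (by linarith)]
        congr 1
        rw [show n * ((p-2)/2) + (3 - p - n * ((p-2)/2) + (p - 2)) = 1 by ring, ENNReal.rpow_one]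

/-- one level -/
theorem ch_level {g S : α → ℝ≥0∞} (hg : AEMeasurable g μ) {X X' : Set α} (hX : MeasurableSet X)
    {σ τ : ℝ≥0∞} (hσ : σ ≠ ∞)
    (hX1 : ∀ x ∈ X, S x ≠ 0) (hX2 : ∀ x ∈ X, S x ≤ τ * σ) {A1 A2 G : ℝ≥0∞} (hτ : τ ≠ ∞)
    {Sg : ℝ≥0∞} (hSg : ∫⁻ x, S x ∂μ ≤ Sg)
    (href : ∫⁻ x, g x ^ (3:ℝ) / S x ^ (1/2:ℝ) ∂μ ≤ A1 * Sg)
    (hloc : ∫⁻ x in X, g x ^ (2:ℝ) ∂μ ≤ A2 * ∫⁻ x in X', S x ∂μ)
    {p n : ℝ} (hn : 0 ≤ n) (hp2 : 2 ≤ p) (hpn : (p - 2) * (n + 2) ≤ 2)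
    (hgeo : ∫⁻ x in X', S x ∂μ ≠ 0 → σ * (∫⁻ x in X', S x ∂μ) ^ n ≤ G * Sg ^ n) :
    ∫⁻ x in X, g x ^ p ∂μ ≤ (A2 ^ (3 - p) * A1 ^ (p - 2) * (τ * G) ^ ((p-2)/2)) * Sg := by
  by_cases hT0 : ∫⁻ x in X', S x ∂μ = 0
  · rw [hT0, mul_zero] at hloc
    have h0 : ∀ᵐ x ∂μ.restrict X, g x ^ (2:ℝ) = 0 :=
      (lintegral_eq_zero_iff' (hg.restrict.pow_const _)).mp (le_antisymm hloc bot_le)
    have h1 : ∫⁻ x in X, g x ^ p ∂μ = 0 := by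
      rw [← lintegral_zero (μ := μ.restrict X)]
      refine lintegral_congr_ae (h0.mono fun x hx => ?_)
      have hx0 : g x = 0 := (ENNReal.rpow_eq_zero_iff_of_pos (by norm_num)).mp hx
      show g x ^ p = 0
      rw [hx0, ENNReal.zero_rpow_of_pos (by linarith)]
    rw [h1]
    exact bot_le
  specialize hgeo hT0
  have hp3 : p ≤ 3 := by nlinarith
  have h3 : ∫⁻ x in X, g x ^ (3:ℝ) ∂μ ≤ (τ * σ) ^ (1/2:ℝ) * (A1 * Sg) :=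
    ch_cubic hX (ENNReal.mul_ne_top hτ hσ) hX1 hX2 href
  set T := ∫⁻ x in X', S x ∂μ with hT
  have hTS : T ≤ Sg := (setLIntegral_le_lintegral _ _).trans hSg
  have hgeo' : (τ * σ) * T ^ n ≤ (τ * G) * Sg ^ n := by
    calc (τ * σ) * T ^ n = τ * (σ * T ^ n) := by ring
      _ ≤ τ * (G * Sg ^ n) := by gcongr
      _ = _ := by ring
  have hal := ch_alg hn hp2 hpn hTS hgeo'
  calc ∫⁻ x in X, g x ^ p ∂μ ≤ (∫⁻ x in X, g x ^ (2:ℝ) ∂μ) ^ (3 - p) * (∫⁻ x in X, g x ^ (3:ℝ) ∂μ) ^ (p - 2) :=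
        ch_interp hg.restrict hp2 hp3
    _ ≤ (A2 * T) ^ (3 - p) * ((τ * σ) ^ (1/2:ℝ) * (A1 * Sg)) ^ (p - 2) := by
        have q1 : 0 ≤ 3 - p := by linarith
        have q2 : 0 ≤ p - 2 := by linarith
        gcongr
    _ = A2 ^ (3 - p) * A1 ^ (p - 2) * (T ^ (3 - p) * ((τ * σ) ^ (1/2:ℝ) * Sg) ^ (p - 2)) := by
        have q1 : 0 ≤ 3 - p := by linarith
        have q2 : 0 ≤ p - 2 := by linarith
        rw [ENNReal.mul_rpow_of_nonneg _ _ q1,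
          show (τ * σ) ^ (1/2:ℝ) * (A1 * Sg) = A1 * ((τ * σ) ^ (1/2:ℝ) * Sg) by ring,
          ENNReal.mul_rpow_of_nonneg A1 _ q2]
        ring
    _ ≤ A2 ^ (3 - p) * A1 ^ (p - 2) * ((τ * G) ^ ((p-2)/2) * Sg) := by gcongr
    _ = _ := by ring

/-- the low level -/
theorem ch_low {g S : α → ℝ≥0∞} {X : Set α} (hX : MeasurableSet X) {A4 b : ℝ≥0∞}
    (hbern : ∀ x ∈ X, g x ^ (2:ℝ) ≤ A4 * S x) (hXb : ∀ x ∈ X, S x ≤ b) (hb : A4 * b ≤ 1)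
    {p : ℝ} (hp2 : 2 ≤ p) :
    ∫⁻ x in X, g x ^ p ∂μ ≤ ∫⁻ x in X, g x ^ (2:ℝ) ∂μ := by
  refine setLIntegral_mono' hX fun x hx => ?_
  have h1 : g x ^ (2:ℝ) ≤ 1 := (hbern x hx).trans (le_trans (by gcongr; exact hXb x hx) hb)
  have h2 : g x ^ p = (g x ^ (2:ℝ)) ^ ((p - 2)/2) * g x ^ (2:ℝ) := by
    rw [← ENNReal.rpow_mul, ← ENNReal.rpow_add_of_nonneg _ _ (by nlinarith) (by norm_num)]
    congr 1
    ring
  rw [h2]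
  calc (g x ^ (2:ℝ)) ^ ((p - 2)/2) * g x ^ (2:ℝ) ≤ 1 * g x ^ (2:ℝ) := by
        gcongr
        exact ENNReal.rpow_le_one h1 (by linarith)
    _ = _ := one_mul _

end Vale.Agent.P117.K
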