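import Vale.Agent.P117.K.Ch1

/-! # CH3: local orthogonality on thickened level sets, dyadic levels, the assembled chain -/

open MeasureTheory Set
open scoped ENNReal NNReal

set_option linter.all false

namespace Vale.Agent.P117.K

/-- averaging over balls of radius `r` -/
theorem ch_loc {E : Type*} [NormedAddCommGroup E] [NormedSpace ℝ E] [FiniteDimensional ℝ E]
    [MeasurableSpace E] [BorelSpace E] {μ : Measure E} [μ.IsAddHaarMeasure]
    {h S : E → ℝ≥0∞} (hh : Measurable h) {r : ℝ} (hr : 0 < r) {A : ℝ≥0∞} (hA : A ≠ ∞)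
    (hK5 : ∀ x, ∫⁻ y in Metric.ball x r, h y ∂μ ≤ A * μ (Metric.ball x r) * S x)
    {X X' : Set E} (hX : MeasurableSet X) (hX' : MeasurableSet X')
    (hsub : ∀ x ∈ X, ∀ y, dist y x < r → y ∈ X') :
    ∫⁻ x in X, h x ∂μ ≤ A * ∫⁻ x in X', S x ∂μ := by
  set V := μ (Metric.ball (0:E) r) with hV
  have hV0 : V ≠ 0 := (Metric.measure_ball_pos μ _ hr).ne'
  have hVt : V ≠ ∞ := measure_ball_lt_top.ne
  have hVx : ∀ x, μ (Metric.ball x r) = V := fun x => Measure.addHaar_ball_center μ x r
  haveI : SigmaFinite μ := inferInstance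
  have hmeas : Measurable (fun z : E × E => (X.indicator h z.1) * ((Metric.ball z.1 r).indicator (fun _ => (1:ℝ≥0∞)) z.2)) := by
    apply Measurable.mul
    · exact (hh.indicator hX).comp measurable_fst
    · have : (fun z : E × E => (Metric.ball z.1 r).indicator (fun _ => (1:ℝ≥0∞)) z.2)
          = ({z : E × E | dist z.2 z.1 < r}).indicator (fun _ => (1:ℝ≥0∞)) := by
        funext z
        by_cases hz : dist z.2 z.1 < r
        · rw [indicator_of_mem (by exact hz), indicator_of_mem (by exact hz)]
        · rw [indicator_of_notMem (by exact hz), indicator_of_notMem (by exact hz)]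
      rw [this]
      apply measurable_const.indicator
      exact measurableSet_lt (measurable_snd.dist measurable_fst) measurable_const
  have key : V * ∫⁻ x in X, h x ∂μ ≤ V * (A * ∫⁻ x in X', S x ∂μ) := by
    calc V * ∫⁻ x in X, h x ∂μ = ∫⁻ y, (X.indicator h y) * V ∂μ := by
          rw [lintegral_mul_const' _ _ hVt, lintegral_indicator hX, mul_comm]
      _ = ∫⁻ y, ∫⁻ x, (X.indicator h y) * ((Metric.ball y r).indicator (fun _ => (1:ℝ≥0∞)) x) ∂μ ∂μ := by
          refine lintegral_congr fun y => ?_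
          rw [lintegral_const_mul _ (measurable_const.indicator measurableSet_ball),
            lintegral_indicator measurableSet_ball, setLIntegral_const, one_mul, hVx]
      _ = ∫⁻ x, ∫⁻ y, (X.indicator h y) * ((Metric.ball y r).indicator (fun _ => (1:ℝ≥0∞)) x) ∂μ ∂μ :=
          lintegral_lintegral_swap hmeas.aemeasurable
      _ ≤ ∫⁻ x, X'.indicator (fun x => A * V * S x) x ∂μ := by
          refine lintegral_mono fun x => ?_
          by_cases hx : x ∈ X'
          · rw [indicator_of_mem hx]
            refine le_trans ?_ ((hK5 x).trans (by rw [hVx]))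
            rw [← lintegral_indicator measurableSet_ball]
            refine lintegral_mono fun y => ?_
            by_cases hy : dist x y < r
            · rw [indicator_of_mem (show x ∈ Metric.ball y r from hy),
                indicator_of_mem (show y ∈ Metric.ball x r by rw [Metric.mem_ball, dist_comm]; exact hy), mul_one]
              exact indicator_le_self _ _ _
            · rw [indicator_of_notMem (show x ∉ Metric.ball y r from hy), mul_zero]
              exact bot_le
          · rw [indicator_of_notMem hx]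
            refine le_of_eq ?_
            rw [← lintegral_zero (μ := μ)]
            refine lintegral_congr fun y => ?_
            by_cases hy : y ∈ X
            · have : ¬ dist x y < r := fun hd => hx (hsub y hy x hd)
              rw [indicator_of_notMem (show x ∉ Metric.ball y r from this), mul_zero]
            · rw [indicator_of_notMem hy, zero_mul]
      _ = V * (A * ∫⁻ x in X', S x ∂μ) := by
          rw [lintegral_indicator hX', lintegral_const_mul' _ _ (ENNReal.mul_ne_top hA hVt)]
          ring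
  exact (ENNReal.mul_le_mul_iff_right hV0 hVt).mp key

/-- dyadic levels -/
theorem ch_cover {α : Type*} {S : α → ℝ≥0∞} {b : ℝ≥0∞} {J : ℕ} (htop : ∀ x, S x ≤ 2 ^ J * b) :
    ∀ x, S x ≤ b ∨ ∃ j < J, 2 ^ j * b < S x ∧ S x ≤ 2 ^ (j + 1) * b := by
  induction J with
  | zero => intro x; left; simpa using htop x
  | succ J ih =>
    intro x
    by_cases h : S x ≤ b
    · exact Or.inl h
    · right
      have hex : ∃ j, S x ≤ 2 ^ j * b := ⟨J + 1, htop x⟩
      classical
      set j := Nat.find hex with hj
      have h1 : S x ≤ 2 ^ j * b := Nat.find_spec hex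
      have h0 : j ≠ 0 := by
        intro h0
        rw [h0] at h1
        exact h (by simpa using h1)
      have h2 : ¬ S x ≤ 2 ^ (j - 1) * b := Nat.find_min hex (by omega)
      have h3 : j ≤ J + 1 := Nat.find_min' hex (htop x)
      refine ⟨j - 1, by omega, not_le.mp h2, ?_⟩
      rw [show j - 1 + 1 = j by omega]
      exact h1

theorem ch_biUnion {α : Type*} [MeasurableSpace α] {μ : Measure α} {u : α → ℝ≥0∞} (s : ℕ → Set α) (J : ℕ) :
    ∫⁻ x in (⋃ j ∈ Finset.range J, s j), u x ∂μ ≤ ∑ j ∈ Finset.range J, ∫⁻ x in s j, u x ∂μ := by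
  induction J with
  | zero => simp
  | succ J ih =>
    rw [Finset.sum_range_succ]
    have : (⋃ j ∈ Finset.range (J+1), s j) = (⋃ j ∈ Finset.range J, s j) ∪ s J := by
      ext x
      simp only [mem_iUnion, Finset.mem_range, mem_union, exists_prop]
      constructor
      · rintro ⟨j, hj, hx⟩
        rcases Nat.lt_succ_iff_lt_or_eq.mp hj with h | h
        · exact Or.inl ⟨j, h, hx⟩
        · right; rw [← h]; exact hx
      · rintro (⟨j, hj, hx⟩ | hx)
        · exact ⟨j, by omega, hx⟩
        · exact ⟨J, by omega, hx⟩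
    rw [this]
    refine (lintegral_union_le _ _ _).trans ?_
    gcongr

theorem ch_sum {α : Type*} [MeasurableSpace α] {μ : Measure α} {S u : α → ℝ≥0∞} {b : ℝ≥0∞} {J : ℕ} (htop : ∀ x, S x ≤ 2 ^ J * b) :
    ∫⁻ x, u x ∂μ ≤ ∫⁻ x in {x | S x ≤ b}, u x ∂μ +
      ∑ j ∈ Finset.range J, ∫⁻ x in {x | 2 ^ j * b < S x ∧ S x ≤ 2 ^ (j + 1) * b}, u x ∂μ := by
  have hc := ch_cover htop
  have h1 : (univ : Set α) ⊆ {x | S x ≤ b} ∪ ⋃ j ∈ Finset.range J, {x | 2 ^ j * b < S x ∧ S x ≤ 2 ^ (j + 1) * b} := by
    intro x _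
    rcases hc x with h | ⟨j, hj, h⟩
    · exact Or.inl h
    · right
      simp only [mem_iUnion, Finset.mem_range]
      exact ⟨j, hj, h⟩
  calc ∫⁻ x, u x ∂μ = ∫⁻ x in univ, u x ∂μ := by rw [Measure.restrict_univ]
    _ ≤ ∫⁻ x in ({x | S x ≤ b} ∪ ⋃ j ∈ Finset.range J, {x | 2 ^ j * b < S x ∧ S x ≤ 2 ^ (j + 1) * b}), u x ∂μ :=
        lintegral_mono_set h1
    _ ≤ ∫⁻ x in {x | S x ≤ b}, u x ∂μ + ∫⁻ x in (⋃ j ∈ Finset.range J, {x | 2 ^ j * b < S x ∧ S x ≤ 2 ^ (j + 1) * b}), u x ∂μ :=
        lintegral_union_le _ _ _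
    _ ≤ _ := by
        gcongr
        exact ch_biUnion _ _

end Vale.Agent.P117.K
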