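import Vale.Agent.P117.K.Ch2

/-! # CH3: the assembled chain at one scale -/

open MeasureTheory Set
open scoped ENNReal NNReal

set_option linter.all false

namespace Vale.Agent.P117.K

/-- One scale.  `g = |F|`, `S` the square function, `r = N`.  -/
theorem ch_main {E : Type*} [NormedAddCommGroup E] [NormedSpace ℝ E] [FiniteDimensional ℝ E]
    [MeasurableSpace E] [BorelSpace E] {μ : Measure E} [μ.IsAddHaarMeasure]
    {g S : E → ℝ≥0∞} (hg : Measurable g) (hS : Measurable S) {r : ℝ} (hr : 0 < r)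
    {c A A1 A4 G b : ℝ≥0∞} {J : ℕ} (hc1 : 1 ≤ c) (hct : c ≠ ∞) (hA : A ≠ ∞) (hb0 : b ≠ 0) (hbt : b ≠ ∞)
    (hslow : ∀ x y, dist x y < r → S x ≤ c * S y)
    (hK5 : ∀ x, ∫⁻ y in Metric.ball x r, g y ^ (2:ℝ) ∂μ ≤ A * μ (Metric.ball x r) * S x)
    {Sg : ℝ≥0∞} (hSg : ∫⁻ x, S x ∂μ ≤ Sg)
    (href : ∫⁻ x, g x ^ (3:ℝ) / S x ^ (1/2:ℝ) ∂μ ≤ A1 * Sg)
    (hbern : ∀ x, g x ^ (2:ℝ) ≤ A4 * S x) (hb : A4 * b ≤ 1)
    (htop : ∀ x, S x ≤ 2 ^ J * b)
    {p n : ℝ} (hn : 0 ≤ n) (hp2 : 2 ≤ p) (hpn : (p - 2) * (n + 2) ≤ 2)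
    (hgeo : ∀ j < J, ∫⁻ x in {x | 2 ^ j * b / c ≤ S x ∧ S x ≤ 2 * c ^ 2 * (2 ^ j * b / c)}, S x ∂μ ≠ 0 → (2 ^ j * b / c) * (∫⁻ x in {x | 2 ^ j * b / c ≤ S x ∧ S x ≤ 2 * c ^ 2 * (2 ^ j * b / c)}, S x ∂μ) ^ n
      ≤ G * Sg ^ n) :
    ∫⁻ x, g x ^ p ∂μ ≤ (A + J * (A ^ (3 - p) * A1 ^ (p - 2) * (2 * c * G) ^ ((p-2)/2))) * Sg := by
  have hc0 : c ≠ 0 := (lt_of_lt_of_le one_pos hc1).ne'
  have hg2 : Measurable (fun x => g x ^ (2:ℝ)) := hg.pow_const _
  have hsum := ch_sum (μ := μ) (u := fun x => g x ^ p) htop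
  refine hsum.trans ?_
  rw [add_mul]
  refine add_le_add ?_ ?_
  · refine (ch_low (measurableSet_le hS measurable_const) (A4 := A4) (fun x _ => hbern x) (fun x hx => hx) hb hp2).trans ?_
    have := ch_loc hg2 hr hA hK5 (X := {x | S x ≤ b}) (X' := univ) (measurableSet_le hS measurable_const) MeasurableSet.univ
      (fun _ _ _ _ => mem_univ _)
    rw [Measure.restrict_univ] at this
    exact this.trans (by gcongr)
  · have hlev : ∀ j ∈ Finset.range J, ∫⁻ x in {x | 2 ^ j * b < S x ∧ S x ≤ 2 ^ (j + 1) * b}, g x ^ p ∂μ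
        ≤ (A ^ (3 - p) * A1 ^ (p - 2) * (2 * c * G) ^ ((p-2)/2)) * Sg := by
      intro j hj
      set σ := 2 ^ j * b / c with hσ
      have h2j : (2:ℝ≥0∞) ^ j ≠ ∞ := ENNReal.pow_ne_top (by norm_num)
      have hσt : σ ≠ ∞ := ENNReal.div_ne_top (ENNReal.mul_ne_top h2j hbt) hc0
      have hcσ : c * σ = 2 ^ j * b := ENNReal.mul_div_cancel hc0 hct
      have mX : MeasurableSet {x | 2 ^ j * b < S x ∧ S x ≤ 2 ^ (j + 1) * b} :=
        (measurableSet_lt measurable_const hS).inter (measurableSet_le hS measurable_const)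
      have mX' : MeasurableSet {x | σ ≤ S x ∧ S x ≤ 2 * c ^ 2 * σ} :=
        (measurableSet_le measurable_const hS).inter (measurableSet_le hS measurable_const)
      refine ch_level (g := g) (S := S) (X' := {x | σ ≤ S x ∧ S x ≤ 2 * c ^ 2 * σ}) hg.aemeasurable mX (σ := σ) (τ := 2 * c) hσt
        ?_ ?_ (ENNReal.mul_ne_top (by norm_num) hct) hSg href ?_ hn hp2 hpn (hgeo j (Finset.mem_range.mp hj))
      · rintro x ⟨hx, _⟩ h0
        rw [h0] at hx
        exact (not_lt_bot hx)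
      · rintro x ⟨_, hx⟩
        refine hx.trans (le_of_eq ?_)
        rw [mul_assoc, hcσ]
        ring
      · refine ch_loc hg2 hr hA hK5 mX mX' ?_
        rintro x ⟨hx1, hx2⟩ y hy
        constructor
        · rw [hσ]
          refine ENNReal.div_le_of_le_mul ?_
          calc 2 ^ j * b ≤ S x := hx1.le
            _ ≤ c * S y := hslow x y (by rw [dist_comm]; exact hy)
            _ = S y * c := mul_comm _ _
        · calc S y ≤ c * S x := hslow y x hy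
            _ ≤ c * (2 ^ (j + 1) * b) := by gcongr
            _ = 2 * c ^ 2 * σ := by
                rw [show 2 * c ^ 2 * σ = 2 * c * (c * σ) by ring, hcσ]
                ring
    calc ∑ j ∈ Finset.range J, ∫⁻ x in {x | 2 ^ j * b < S x ∧ S x ≤ 2 ^ (j + 1) * b}, g x ^ p ∂μ
        ≤ ∑ j ∈ Finset.range J, (A ^ (3 - p) * A1 ^ (p - 2) * (2 * c * G) ^ ((p-2)/2)) * Sg :=
          Finset.sum_le_sum hlev
      _ = _ := by
          rw [Finset.sum_const, Finset.card_range, nsmul_eq_mul, ← mul_assoc]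

end Vale.Agent.P117.K
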