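import Vale.Agent.P117.K.Ch3

/-! # CH3: bookkeeping of constants -/

open MeasureTheory Set
open scoped ENNReal NNReal

set_option linter.all false

namespace Vale.Agent.P117.K

theorem ch_levels {C a ε : ℝ} (hC : 1 ≤ C) (ha : 0 ≤ a) (hε : 0 < ε) :
    ∃ C' : ℝ, 0 ≤ C' ∧ ∀ N : ℝ, 1 ≤ N → ∃ J : ℕ, C * N ^ a ≤ 2 ^ J ∧ (J:ℝ) ≤ C' * N ^ ε := by
  have hl2 : 0 < Real.log 2 := Real.log_pos (by norm_num)
  refine ⟨(Real.log C + a / ε) / Real.log 2 + 1, ?_, fun N hN => ?_⟩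
  · have : 0 ≤ Real.log C := Real.log_nonneg hC
    positivity
  · have hN0 : 0 < N := by linarith
    have hCN : 1 ≤ C * N ^ a := by
      have : 1 ≤ N ^ a := Real.one_le_rpow hN ha
      nlinarith
    refine ⟨⌈Real.logb 2 (C * N ^ a)⌉₊, ?_, ?_⟩
    · have h1 : Real.logb 2 (C * N ^ a) ≤ (⌈Real.logb 2 (C * N ^ a)⌉₊ : ℝ) := Nat.le_ceil _
      have h2 := (Real.logb_le_iff_le_rpow (by norm_num) (by linarith)).mp h1
      rwa [Real.rpow_natCast] at h2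
    · have h0 : 0 ≤ Real.logb 2 (C * N ^ a) := Real.logb_nonneg (by norm_num) hCN
      have h1 : (⌈Real.logb 2 (C * N ^ a)⌉₊ : ℝ) < Real.logb 2 (C * N ^ a) + 1 := Nat.ceil_lt_add_one h0
      have h2 : Real.log N ≤ N ^ ε / ε := Real.log_le_rpow_div hN0.le hε
      have h3 : 1 ≤ N ^ ε := Real.one_le_rpow hN hε.le
      have h4 : Real.logb 2 (C * N ^ a) ≤ (Real.log C + a / ε) / Real.log 2 * N ^ ε := by
        rw [Real.logb, Real.log_mul (by linarith) (by positivity), Real.log_rpow hN0, div_mul_eq_mul_div]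
        apply div_le_div_of_nonneg_right _ hl2.le
        have : 0 ≤ Real.log C := Real.log_nonneg hC
        calc Real.log C + a * Real.log N ≤ Real.log C * N ^ ε + a * (N ^ ε / ε) := by
              have := mul_le_mul_of_nonneg_left h2 ha
              nlinarith
          _ = _ := by ring
      nlinarith

theorem ch_const {p κ ε A c C1 C2 CJ : ℝ} (hp2 : 2 ≤ p) (hp3 : p ≤ 3) (hκ : 0 ≤ κ) (hε : 0 < ε)
    (hA : 0 ≤ A) (hc : 0 ≤ c) (h1 : 0 ≤ C1) (h2 : 0 ≤ C2) (hJ : 0 ≤ CJ) :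
    ∃ C' : ℝ, 0 ≤ C' ∧ ∀ N : ℝ, 1 ≤ N → ∀ J : ℕ, (J:ℝ) ≤ CJ * N ^ (ε/4) →
      (ENNReal.ofReal A + J * (ENNReal.ofReal A ^ (3 - p) * ENNReal.ofReal (C1 * N ^ (ε/4)) ^ (p - 2)
        * (2 * ENNReal.ofReal c * ENNReal.ofReal (C2 * N ^ (2 * κ + ε/4))) ^ ((p - 2)/2)))
        ≤ ENNReal.ofReal (C' * N ^ (κ * (p - 2) + ε)) := by
  refine ⟨A + CJ * (A ^ (3 - p) * C1 ^ (p - 2) * (2 * c * C2) ^ ((p-2)/2)), by positivity, fun N hN J hJN => ?_⟩
  have hN0 : 0 < N := by linarith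
  have q1 : 0 ≤ 3 - p := by linarith
  have q2 : 0 ≤ p - 2 := by linarith
  have q3 : 0 ≤ (p - 2)/2 := by linarith
  have e2 : (2:ℝ≥0∞) = ENNReal.ofReal 2 := by simp
  rw [e2, ← ENNReal.ofReal_natCast, ENNReal.ofReal_rpow_of_nonneg hA q1,
    ENNReal.ofReal_rpow_of_nonneg (by positivity) q2, ← ENNReal.ofReal_mul (p := 2) (by norm_num),
    ← ENNReal.ofReal_mul (p := 2 * c) (by positivity),
    ENNReal.ofReal_rpow_of_nonneg (by positivity) q3, ← ENNReal.ofReal_mul (p := A ^ (3 - p)) (by positivity),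
    ← ENNReal.ofReal_mul (by positivity),
    ← ENNReal.ofReal_mul (by positivity), ← ENNReal.ofReal_add hA (by positivity)]
  apply ENNReal.ofReal_le_ofReal
  have hE : 1 ≤ N ^ (κ * (p - 2) + ε) := Real.one_le_rpow hN (by positivity)
  have k1 : (C1 * N ^ (ε/4)) ^ (p - 2) = C1 ^ (p - 2) * N ^ (ε/4 * (p - 2)) := by
    rw [Real.mul_rpow h1 (by positivity), ← Real.rpow_mul hN0.le]
  have k2 : (2 * c * (C2 * N ^ (2 * κ + ε/4))) ^ ((p - 2)/2) = (2 * c * C2) ^ ((p-2)/2) * N ^ ((2 * κ + ε/4) * ((p-2)/2)) := by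
    rw [← mul_assoc, Real.mul_rpow (by positivity) (by positivity), ← Real.rpow_mul hN0.le]
  rw [k1, k2]
  have k3 : N ^ (ε/4) * N ^ (ε/4 * (p - 2)) * N ^ ((2 * κ + ε/4) * ((p-2)/2)) ≤ N ^ (κ * (p - 2) + ε) := by
    rw [← Real.rpow_add hN0, ← Real.rpow_add hN0]
    apply Real.rpow_le_rpow_of_exponent_le hN
    nlinarith
  calc A + J * (A ^ (3 - p) * (C1 ^ (p - 2) * N ^ (ε/4 * (p - 2))) * ((2 * c * C2) ^ ((p-2)/2) * N ^ ((2 * κ + ε/4) * ((p-2)/2))))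
      ≤ A * N ^ (κ * (p - 2) + ε) + (CJ * N ^ (ε/4)) * (A ^ (3 - p) * (C1 ^ (p - 2) * N ^ (ε/4 * (p - 2))) * ((2 * c * C2) ^ ((p-2)/2) * N ^ ((2 * κ + ε/4) * ((p-2)/2)))) := by
        apply add_le_add
        · nlinarith
        · apply mul_le_mul_of_nonneg_right hJN (by positivity)
    _ = A * N ^ (κ * (p - 2) + ε) + CJ * (A ^ (3 - p) * C1 ^ (p - 2) * (2 * c * C2) ^ ((p-2)/2)) * (N ^ (ε/4) * N ^ (ε/4 * (p - 2)) * N ^ ((2 * κ + ε/4) * ((p-2)/2))) := by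
        ring
    _ ≤ A * N ^ (κ * (p - 2) + ε) + CJ * (A ^ (3 - p) * C1 ^ (p - 2) * (2 * c * C2) ^ ((p-2)/2)) * N ^ (κ * (p - 2) + ε) := by
        apply add_le_add le_rfl
        apply mul_le_mul_of_nonneg_left k3 (by positivity)
    _ = _ := by ring

/-- from the `λ`-form of GEO3 to the multiplicative form -/
theorem ch_geo_conv {σ T Sg G : ℝ≥0∞} {n : ℝ} (hn : 0 < n) (hTS : T ≤ Sg) (hSt : Sg ≠ ∞)
    (h : ∀ lam : ℝ, 0 < lam → lam ≤ 1 → ENNReal.ofReal lam * Sg ≤ T → T ≠ 0 → σ * ENNReal.ofReal (lam ^ n) ≤ G) :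
    σ * T ^ n ≤ G * Sg ^ n := by
  by_cases hT : T = 0
  · rw [hT, ENNReal.zero_rpow_of_pos hn, mul_zero]; exact bot_le
  have hTt : T ≠ ∞ := ne_top_of_le_ne_top hSt hTS
  have hS0 : Sg ≠ 0 := fun h0 => hT (le_antisymm (h0 ▸ hTS) bot_le)
  set lam := (T / Sg).toReal with hlam
  have hq : T / Sg ≠ ∞ := ENNReal.div_ne_top hTt hS0
  have hq0 : T / Sg ≠ 0 := (ENNReal.div_pos hT hSt).ne'
  have hl0 : 0 < lam := ENNReal.toReal_pos hq0 hq
  have hl1 : lam ≤ 1 := by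
    have : T / Sg ≤ 1 := ENNReal.div_le_of_le_mul (by rwa [one_mul])
    have h2 := ENNReal.toReal_mono ENNReal.one_ne_top this
    rw [ENNReal.toReal_one] at h2
    exact h2
  have hof : ENNReal.ofReal lam = T / Sg := ENNReal.ofReal_toReal hq
  have h1 := h lam hl0 hl1 (by rw [hof, ENNReal.div_mul_cancel hS0 hSt]) hT
  rw [← ENNReal.ofReal_rpow_of_pos hl0, hof] at h1
  calc σ * T ^ n = σ * ((T / Sg) * Sg) ^ n := by rw [ENNReal.div_mul_cancel hS0 hSt]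
    _ = (σ * (T / Sg) ^ n) * Sg ^ n := by
        rw [ENNReal.mul_rpow_of_nonneg _ _ hn.le, mul_assoc]
    _ ≤ G * Sg ^ n := by gcongr

end Vale.Agent.P117.K
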