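import Vale.Agent.P117.K.Ch4
import Vale.Agent.P117.K.Defs

/-! # CH3: proof of `StCH3` -/

open MeasureTheory Set
open scoped ENNReal NNReal

set_option linter.all false

namespace Vale.Agent.P117.K

theorem ch_vol {N : ℝ} (hN : 0 ≤ N) (x : E3) : ENNReal.ofReal (N ^ 3) ≤ volume (Metric.ball x N) := by
  rw [EuclideanSpace.volume_ball_fin_three, ← ENNReal.ofReal_pow hN, ← ENNReal.ofReal_mul (by positivity)]
  apply ENNReal.ofReal_le_ofReal
  have : 1 ≤ Real.pi * 4 / 3 := by
    have := Real.pi_gt_three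
    linarith
  have h3 : 0 ≤ N ^ 3 := by positivity
  nlinarith

theorem stCH3 : StCH3 := by
  intro κ Np p ε' hκ hNp hp2 hpN hε'
  have hpn : (p - 2) * (Np + 2) ≤ 2 := by
    have h1 : p - 2 ≤ 2 / (Np + 2) := by linarith
    rwa [le_div_iff₀ (by linarith)] at h1
  have hp3 : p ≤ 3 := by nlinarith
  refine ⟨ε' / 4, by linarith, fun C K hC hK => ?_⟩
  have hC0 : 0 < C := by linarith
  obtain ⟨CJ, hCJ0, hCJ⟩ := ch_levels (C := C ^ 2) (a := 40) (ε := ε' / 4) (by nlinarith) (by norm_num) (by linarith)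
  obtain ⟨C', hC'0, hC'⟩ := ch_const (p := p) (κ := κ) (ε := ε') (A := C) (c := C) (C1 := 1) (C2 := K * (C ^ 3) ^ Np) (CJ := CJ)
    hp2.le hp3 hκ hε' hC0.le hC0.le one_pos.le (by positivity) hCJ0
  refine ⟨C' * C, by positivity, ?_⟩
  intro N f S E hN hf hS hE href hloc hber htop hslow hf2 hSE hgeo
  have hNr : (2:ℝ) ≤ N := by exact_mod_cast hN
  have hN0 : (0:ℝ) < N := by linarith
  have hN1 : (1:ℝ) ≤ N := by linarith
  obtain ⟨J, hJ1, hJ2⟩ := hCJ N hN1
  set m := C * (N:ℝ) ^ 20 with hm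
  have hm0 : 0 < m := by positivity
  have hc0 : ENNReal.ofReal C ≠ 0 := (ENNReal.ofReal_pos.mpr hC0).ne'
  have hmain := ch_main (μ := (volume : Measure E3)) (g := f) (S := S) hf hS (r := (N:ℝ)) hN0
    (c := ENNReal.ofReal C) (A := ENNReal.ofReal C) (A1 := ENNReal.ofReal (1 * (N:ℝ) ^ (ε'/4)))
    (A4 := ENNReal.ofReal m) (G := ENNReal.ofReal (K * (C ^ 3) ^ Np * (N:ℝ) ^ (2 * κ + ε' / 4)))
    (b := ENNReal.ofReal m⁻¹) (J := J)
    (by rw [← ENNReal.ofReal_one]; exact ENNReal.ofReal_le_ofReal (by linarith)) ENNReal.ofReal_ne_top ENNReal.ofReal_ne_top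
    (ENNReal.ofReal_pos.mpr (by positivity)).ne' ENNReal.ofReal_ne_top
    (fun x y hxy => hslow x y hxy.le) ?_ (Sg := ENNReal.ofReal (C * E)) hSE ?_ ?_ ?_ ?_ hNp hp2.le hpn ?_
  · refine hmain.trans ?_
    refine (mul_le_mul_left (hC' N hN1 J hJ2) _).trans (le_of_eq ?_)
    rw [← ENNReal.ofReal_mul (by positivity)]
    congr 1
    ring
  · intro x
    have e2 : (fun y => f y ^ (2:ℝ)) = fun y => f y ^ 2 := by
      funext y; exact ENNReal.rpow_ofNat _ 2
    rw [e2]
    calc ∫⁻ y in Metric.ball x N, f y ^ 2 ≤ ∫⁻ y in Metric.closedBall x N, f y ^ 2 :=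
          lintegral_mono_set Metric.ball_subset_closedBall
      _ ≤ ENNReal.ofReal (C * (N:ℝ) ^ 3) * S x := hloc x
      _ ≤ _ := by
          rw [ENNReal.ofReal_mul hC0.le]
          gcongr
          exact ch_vol hN0.le x
  · have e3 : (fun z => f z ^ (3:ℝ) / S z ^ (1/2 : ℝ)) = fun z => f z ^ 3 / S z ^ (1/2 : ℝ) := by
      funext y; rw [show f y ^ (3:ℝ) = f y ^ 3 from ENNReal.rpow_ofNat _ 3]
    rw [e3]
    refine href.trans (le_of_eq ?_)
    rw [← ENNReal.ofReal_mul (by positivity)]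
    congr 1
    ring
  · intro x
    rw [show f x ^ (2:ℝ) = f x ^ 2 from ENNReal.rpow_ofNat _ 2]
    exact hber x
  · rw [← ENNReal.ofReal_mul (by positivity), mul_inv_cancel₀ hm0.ne', ENNReal.ofReal_one]
  · intro x
    refine (htop x).trans ?_
    have e2 : (2:ℝ≥0∞) = ENNReal.ofReal 2 := by simp
    rw [e2, ← ENNReal.ofReal_pow (by norm_num), ← ENNReal.ofReal_mul (by positivity)]
    apply ENNReal.ofReal_le_ofReal
    have h1 : m * m ≤ 2 ^ J := by
      refine le_trans (le_of_eq ?_) hJ1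
      rw [hm, show (40:ℝ) = ((40:ℕ):ℝ) by norm_num, Real.rpow_natCast]
      ring
    calc m = (m * m) * m⁻¹ := by field_simp
      _ ≤ 2 ^ J * m⁻¹ := by gcongr
  · intro j hj hT0
    set σ : ℝ := 2 ^ j * m⁻¹ / C with hσ
    have hσ0 : 0 < σ := by positivity
    have eσ : (2:ℝ≥0∞) ^ j * ENNReal.ofReal m⁻¹ / ENNReal.ofReal C = ENNReal.ofReal σ := by
      have e2 : (2:ℝ≥0∞) = ENNReal.ofReal 2 := by simp
      rw [e2, ← ENNReal.ofReal_pow (by norm_num), ← ENNReal.ofReal_mul (by positivity), ← ENNReal.ofReal_div_of_pos hC0]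
    rw [eσ] at hT0 ⊢
    set X' : Set E3 := {x | ENNReal.ofReal σ ≤ S x ∧ S x ≤ 2 * ENNReal.ofReal C ^ 2 * ENNReal.ofReal σ} with hX'
    have mX' : MeasurableSet X' := (measurableSet_le measurable_const hS).inter (measurableSet_le hS measurable_const)
    have ewin : 2 * ENNReal.ofReal C ^ 2 * ENNReal.ofReal σ ≤ ENNReal.ofReal (C ^ 3 * σ) := by
      have e2 : (2:ℝ≥0∞) = ENNReal.ofReal 2 := by simp
      rw [e2, ← ENNReal.ofReal_pow hC0.le, ← ENNReal.ofReal_mul (by norm_num), ← ENNReal.ofReal_mul (by positivity)]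
      apply ENNReal.ofReal_le_ofReal
      have : 2 * C ^ 2 ≤ C ^ 3 := by nlinarith [sq_nonneg C]
      exact mul_le_mul_of_nonneg_right this hσ0.le
    -- lower bound of the mass
    have hlow : ENNReal.ofReal σ * volume X' ≤ ∫⁻ x in X', S x := by
      rw [← setLIntegral_const]
      exact setLIntegral_mono' mX' fun x hx => hx.1
    have hup : ∫⁻ x in X', S x ≤ ENNReal.ofReal (C ^ 3 * σ) * volume X' := by
      rw [← setLIntegral_const]
      exact setLIntegral_mono' mX' fun x hx => hx.2.trans ewin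
    have htot : ∫⁻ x in X', S x ≤ ENNReal.ofReal (C * E) := (setLIntegral_le_lintegral _ _).trans hSE
    have hV : volume X' ≠ ∞ := by
      intro hV
      rw [hV, ENNReal.mul_top (ENNReal.ofReal_pos.mpr hσ0).ne'] at hlow
      exact absurd (hlow.trans htot) (by simp)
    have hV0 : volume X' ≠ 0 := by
      intro hV
      rw [hV, mul_zero] at hup
      exact hT0 (le_antisymm hup bot_le)
    set V := (volume X').toReal with hVr
    have eV : volume X' = ENNReal.ofReal V := (ENNReal.ofReal_toReal hV).symm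
    have hVpos : 0 < V := ENNReal.toReal_pos hV0 hV
    set e := σ * V / (C * E) with he
    have he0 : 0 < e := by positivity
    have he1 : e ≤ 1 := by
      rw [he, div_le_one (by positivity)]
      have := hlow.trans htot
      rw [eV, ← ENNReal.ofReal_mul hσ0.le] at this
      exact (ENNReal.ofReal_le_ofReal_iff (by positivity)).mp this
    have hg := hgeo X' σ e mX' hσ0 he0 he1 (fun z hz => ⟨hz.1, hz.2.trans ewin⟩) (by
      rw [eV, ← ENNReal.ofReal_mul hσ0.le]
      apply ENNReal.ofReal_le_ofReal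
      rw [he, div_mul_eq_mul_div, div_le_iff₀ (by positivity)]
      have : 0 ≤ σ * V * E := by positivity
      nlinarith)
    have hT : ∫⁻ x in X', S x ≤ ENNReal.ofReal (C ^ 3 * e) * ENNReal.ofReal (C * E) := by
      refine hup.trans (le_of_eq ?_)
      rw [eV, ← ENNReal.ofReal_mul (by positivity), ← ENNReal.ofReal_mul (by positivity)]
      congr 1
      rw [he]
      field_simp
    calc ENNReal.ofReal σ * (∫⁻ x in X', S x) ^ Np
        ≤ ENNReal.ofReal σ * (ENNReal.ofReal (C ^ 3 * e) * ENNReal.ofReal (C * E)) ^ Np := by gcongr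
      _ = ENNReal.ofReal (σ * e ^ Np * (C ^ 3) ^ Np) * ENNReal.ofReal (C * E) ^ Np := by
          rw [ENNReal.mul_rpow_of_nonneg _ _ hNp, ENNReal.ofReal_rpow_of_nonneg (by positivity) hNp,
            ← mul_assoc, ← ENNReal.ofReal_mul hσ0.le, Real.mul_rpow (by positivity) he0.le]
          congr 2
          ring
      _ ≤ _ := by
          refine mul_le_mul' (ENNReal.ofReal_le_ofReal ?_) le_rfl
          calc σ * e ^ Np * (C ^ 3) ^ Np ≤ (K * (N:ℝ) ^ (2 * κ + ε'/4)) * (C ^ 3) ^ Np := by gcongr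
            _ = _ := by ring

end Vale.Agent.P117.K
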