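import Vale.Agent.P117.K.Defs
import Vale.Agent.P127.Stk.LibEnt

/-! # P117 / K : the entropic form of the Kakeya estimate for Katz-Tao families -/

open Finset
open Vale.Agent.P127 Vale.Agent.P127.Stk

set_option linter.all false

namespace Vale.Agent.P117.K

/-- the lines charged by the law -/
noncomputable def suppL {Ω : Type} [Fintype Ω] (P : Law Ω) (x y : Ω → Fin 2 → ℤ) : Finset ((Fin 2 → ℤ) × (Fin 2 → ℤ)) := by
  classical exact (univ.filter fun ω => 0 < P.w ω).image fun ω => (x ω, y ω)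

/-- entropic form of `StKTc` : random line `(x, y)` of a Katz-Tao family, random time `t` -/
def StKT (κ Np : ℝ) : Prop := ∀ ε : ℝ, 0 < ε → ∃ L₀ : ℕ, ∀ L : ℕ, L₀ ≤ L → ∀ (Ω : Type) [Fintype Ω] (P : Law Ω)
    (x y : Ω → Fin 2 → ℤ) (t : Ω → ℕ) (K : ℝ), 1 ≤ K →
    (∀ ω i, 0 ≤ x ω i ∧ x ω i < 2 ^ L) → (∀ ω i, 0 ≤ y ω i ∧ y ω i < 2 ^ L) →
    (∀ ω, t ω < 2 ^ L) → KTf K (suppL P x y) →
    hc P (fun ω => (x ω, y ω)) (fun ω => (pos L (x ω, y ω) (t ω), t ω)) ≤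
      2 * κ * (L * Real.log 2) + Np * (L * Real.log 2 - hc P t (fun ω => (x ω, y ω))) + Real.log K + ε * L

/-- the case of almost full shadings -/
def StKTU : Prop := ∀ ε : ℝ, 0 < ε → ∃ (η : ℝ) (L₀ : ℕ), 0 < η ∧ ∀ L : ℕ, L₀ ≤ L → ∀ (Ω : Type) [Fintype Ω] (P : Law Ω)
    (x y : Ω → Fin 2 → ℤ) (t : Ω → ℕ) (K : ℝ), 1 ≤ K →
    (∀ ω i, 0 ≤ x ω i ∧ x ω i < 2 ^ L) → (∀ ω i, 0 ≤ y ω i ∧ y ω i < 2 ^ L) →
    (∀ ω, t ω < 2 ^ L) → KTf K (suppL P x y) →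
    L * Real.log 2 - hc P t (fun ω => (x ω, y ω)) ≤ η * L →
    hc P (fun ω => (x ω, y ω)) (fun ω => (pos L (x ω, y ω) (t ω), t ω)) ≤ Real.log K + ε * L

/-- [KTC] -/
def StKTC : Prop := ∀ κ Np : ℝ, 0 ≤ κ → 0 ≤ Np → StKT κ Np → StKTc κ Np

/-- [KTUN] almost full shadings suffice for arbitrary small loss at a finite price -/
def StKTUN : Prop := StKTU → ∀ κ : ℝ, 0 < κ → ∃ Np : ℝ, 0 ≤ Np ∧ StKT κ Np

end Vale.Agent.P117.K
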