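import Vale.Agent.P117.K.GeoE

/-!
# P117 / K : block GEO3, assembly
-/

namespace Vale.Agent.P117.K.Geo

open Finset MeasureTheory
open scoped ENNReal

lemma wgt_le {ν : ℤ × ℤ → E3 → ℝ≥0∞} {L N : ℕ} {C : ℝ} (hN : 1 ≤ N) (hL : N ≤ 2 ^ L)
    (hb : ∀ k x, ν k x ≤ ENNReal.ofReal C) (j : ℤ) (c : Fin 2 → ℤ) (l : LI) :
    wgt ν L N j c l ≤ ENNReal.ofReal (9 * C) := by
  unfold wgt
  calc ∑ k ∈ Gk N with yk L N k = l.2, ν k (bpt L N j (fun i => 2 ^ L * c i + l.1 i))
      ≤ ∑ k ∈ Gk N with yk L N k = l.2, ENNReal.ofReal C := sum_le_sum fun k _ => hb k _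
    _ = #{k ∈ Gk N | yk L N k = l.2} * ENNReal.ofReal C := by rw [sum_const, nsmul_eq_mul]
    _ ≤ 9 * ENNReal.ofReal C := by
        gcongr
        exact_mod_cast yk_fibre hN hL l.2
    _ = ENNReal.ofReal (9 * C) := by
        rw [ENNReal.ofReal_mul (by norm_num)]
        simp

theorem stGEO3 (h2 : StG2) (h3 : StG3A) {κ Np : ℝ} (hκ : 0 ≤ κ) (hNp : 0 ≤ Np) (hKT : StKT κ Np) :
    StGEO3 κ Np := by
  classical
  intro ε hε
  obtain ⟨C1, hC1, h1⟩ := stG1 hNp hκ hKT (ε / 2) (by positivity)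
  refine ⟨ε / 2, by positivity, ?_⟩
  intro M C hC
  obtain ⟨C2, hC2, h2⟩ := h2 M
  have hC0 : 0 < C := by linarith
  set c16 : ℝ := 16 ^ M with hc16
  have hc160 : 1 ≤ c16 := one_le_pow₀ (by norm_num)
  have hc16p : 0 < c16 := by linarith
  set K : ℝ := 10000 * C + 72 * C * c16 + 72 * C * c16 * (C1 * (C2 * C) * 2 ^ (2 * κ + ε / 2) *
    (2 * C * c16 ^ 2) ^ Np) with hK
  refine ⟨K, by positivity, ?_⟩
  intro N ν hN4 hm hb hν hloc hktd X σ e E hXm hσ he he1 hE hX hS hvol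
  have hN : 1 ≤ N := by omega
  have hN0 : (0:ℝ) < N := by exact_mod_cast hN
  have hN1 : (1:ℝ) ≤ N := by exact_mod_cast hN
  have hNpow : 1 ≤ (N:ℝ) ^ (2 * κ + ε) := Real.one_le_rpow hN1 (by positivity)
  have heN : e ^ Np ≤ 1 := Real.rpow_le_one he.le he1 hNp
  have heN0 : 0 < e ^ Np := Real.rpow_pos_of_pos he _
  have hXne : X.Nonempty := by
    by_contra h
    rw [Set.not_nonempty_iff_eq_empty] at h
    rw [h, measure_empty, mul_zero, nonpos_iff_eq_zero, ENNReal.ofReal_eq_zero] at hvol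
    have : 0 < e * E := by positivity
    linarith
  have hKa : 10000 * C ≤ K := by
    rw [hK]
    have h4 : 0 ≤ 72 * C * c16 := by positivity
    have h5 : 0 ≤ 72 * C * c16 * (C1 * (C2 * C) * 2 ^ (2 * κ + ε / 2) * (2 * C * c16 ^ 2) ^ Np) := by
      positivity
    linarith
  have hKb : 72 * C * c16 ≤ K := by
    rw [hK]
    have h5 : 0 ≤ 72 * C * c16 * (C1 * (C2 * C) * 2 ^ (2 * κ + ε / 2) * (2 * C * c16 ^ 2) ^ Np) := by
      positivity
    linarith
  have hKc : 72 * C * c16 * (C1 * (C2 * C) * 2 ^ (2 * κ + ε / 2) * (2 * C * c16 ^ 2) ^ Np) ≤ K := by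
    rw [hK]
    have h5 : 0 ≤ 72 * C * c16 := by positivity
    linarith
  -- small `N`
  rcases lt_or_ge N 100 with hN100 | hN100
  · obtain ⟨x, hx⟩ := hXne
    have h4 := (hX x hx).1
    have h5 : ∑ k ∈ grd N, ν k x ≤ ENNReal.ofReal (10000 * C) := by
      calc ∑ k ∈ grd N, ν k x ≤ ∑ k ∈ grd N, ENNReal.ofReal C := sum_le_sum fun k _ => hb k x
        _ = (#(grd N) : ℝ≥0∞) * ENNReal.ofReal C := by rw [sum_const, nsmul_eq_mul]
        _ ≤ 10000 * ENNReal.ofReal C := by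
            gcongr
            have h6 : #(grd N) ≤ 10000 := by
              unfold grd
              rw [card_product, Int.card_Ico, sub_zero, Int.toNat_natCast]
              nlinarith
            exact_mod_cast h6
        _ = ENNReal.ofReal (10000 * C) := by
            rw [ENNReal.ofReal_mul (by norm_num)]
            simp
    have h6 : σ ≤ 10000 * C := (ENNReal.ofReal_le_ofReal_iff (by positivity)).1 (h4.trans h5)
    calc σ * e ^ Np ≤ σ * 1 := by gcongr
      _ ≤ K * 1 := by linarith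
      _ ≤ K * (N:ℝ) ^ (2 * κ + ε) := by gcongr
  -- the caps
  have hGk : ∀ x, ∑ k ∈ grd N, ν k x = ∑ k ∈ Gk N, ν k x := by
    intro x
    symm
    refine sum_subset (fun k hk => (mem_Gk.1 hk).1) fun k hk hk' => ?_
    by_contra h
    refine hk' (mem_Gk.2 ⟨hk, ?_⟩)
    have h4 := hloc k x h
    have h5 : (2:ℝ) / N ≤ 1 / 50 := by
      rw [div_le_iff₀ hN0]
      have : (100:ℝ) ≤ N := by exact_mod_cast hN100
      linarith
    constructor <;> linarith [h4.1, h4.2]
  simp only [hGk] at hX hS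
  have hfin : ∀ k x, ν k x ≠ ∞ := fun k x => ne_top_of_le_ne_top ENNReal.ofReal_ne_top (hb k x)
  -- the scale
  obtain ⟨L, hL1, hL2⟩ : ∃ L : ℕ, N ≤ 2 ^ L ∧ 2 ^ L ≤ 2 * N := by
    refine ⟨Nat.clog 2 N, Nat.le_pow_clog (by norm_num) N, ?_⟩
    have h4 := Nat.pow_pred_clog_lt_self (b := 2) (by norm_num) (x := N) (by omega)
    have h5 : 0 < Nat.clog 2 N := Nat.clog_pos (by norm_num) (by omega)
    obtain ⟨m, hm⟩ : ∃ m, Nat.clog 2 N = m + 1 := ⟨Nat.clog 2 N - 1, by omega⟩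
    rw [hm] at h4 ⊢
    rw [Nat.pred_succ] at h4
    rw [pow_succ]
    omega
  -- the choice of a block
  have hXint : ENNReal.ofReal (e * E) ≤ ∫⁻ z in X, ∑ k ∈ Gk N, ν k z := by
    refine hvol.trans ?_
    rw [← setLIntegral_const]
    exact setLIntegral_mono' hXm fun z hz => (hX z hz).1
  obtain ⟨j, c, hjc1, hjc2⟩ := block (L := L) (N := N) (M := M) (ν := ν) h3 hN hL2 hν hfin hXm hσ
    (fun z hz => (hX z hz).1) (lam := e / C) (by positivity) (by
      calc ENNReal.ofReal (e / C) * ∫⁻ z, ∑ k ∈ Gk N, ν k z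
          ≤ ENNReal.ofReal (e / C) * ENNReal.ofReal (C * E) := by gcongr
        _ = ENNReal.ofReal (e * E) := by
            rw [← ENNReal.ofReal_mul (by positivity)]
            congr 1
            field_simp
        _ ≤ _ := hXint)
    (by
      intro h
      rw [h, nonpos_iff_eq_zero, ENNReal.ofReal_eq_zero] at hXint
      have : 0 < e * E := by positivity
      linarith)
    (ne_top_of_le_ne_top ENNReal.ofReal_ne_top hS)
  rw [← hc16] at hjc1 hjc2
  set θ : ℝ := σ / (8 * c16) with hθ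
  have hθ0 : 0 < θ := by positivity
  set C0 : ℝ := 9 * C with hC0d
  have hC0p : 0 < C0 := by positivity
  have hC01 : 1 ≤ C0 := by rw [hC0d]; linarith
  rcases lt_or_ge (θ / C0) 1 with hθ1 | hθ1
  · have h4 : σ < 72 * C * c16 := by
      rw [div_lt_one hC0p, hθ, div_lt_iff₀ (by positivity)] at hθ1
      rw [hC0d] at hθ1
      linarith
    calc σ * e ^ Np ≤ σ * 1 := by gcongr
      _ ≤ K * 1 := by linarith
      _ ≤ K * (N:ℝ) ^ (2 * κ + ε) := by gcongr
  -- the discrete configuration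
  have hwfin : ∀ l, wgt ν L N j c l ≠ ∞ := fun l =>
    ne_top_of_le_ne_top ENNReal.ofReal_ne_top (wgt_le hN hL1 hb j c l)
  set w : LI → ℝ := fun l => (wgt ν L N j c l).toReal / C0 with hw
  have hwsum : ∀ T' : Finset LI, ∑ l ∈ T', w l = (∑ l ∈ T', wgt ν L N j c l).toReal / C0 := by
    intro T'
    rw [hw, ENNReal.toReal_sum (fun l _ => hwfin l), sum_div]
  have hSd : ∀ z : (Fin 2 → ℤ) × ℕ, Sd L (TL L) w z = (SB ν L N j c z.1 z.2).toReal / C0 := by
    intro z
    unfold Sd SB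
    exact hwsum _
  have hSBfin : ∀ z : (Fin 2 → ℤ) × ℕ, SB ν L N j c z.1 z.2 ≠ ∞ := by
    intro z
    unfold SB
    rw [ENNReal.sum_ne_top]
    exact fun l _ => hwfin l
  have hNe : (1:ℝ) ≤ (N:ℝ) ^ (ε / 2) := Real.one_le_rpow hN1 (by positivity)
  have hmain := h1 L w (TL L) (XB ν L N X θ j c) (C2 * (C * (N:ℝ) ^ (ε / 2))) (θ / C0)
    (e / C / (2 * c16 ^ 2)) (fun l hl => mem_TL.1 hl)
    (fun l _ => by
      constructor
      · rw [hw]
        positivity
      · rw [hw]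
        simp only
        rw [div_le_one hC0p]
        exact ENNReal.toReal_le_of_le_ofReal hC0p.le (wgt_le hN hL1 hb j c l))
    (by
      calc (1:ℝ) = 1 * (1 * 1) := by ring
        _ ≤ C2 * (C * (N:ℝ) ^ (ε / 2)) := by gcongr)
    (by
      intro a b w1 w2 x0 y0 hab hw1 hw2 T' hT' hpl
      have h4 := h2 N L (C * (N:ℝ) ^ (ε / 2)) ν hN hL1 hL2 (by positivity) hm hν hktd j c a b w1 w2 x0 y0
        hab hw1 hw2 T' hpl
      rw [hwsum, div_le_iff₀ hC0p]
      have h6 : (0:ℝ) ≤ C2 * (C * (N:ℝ) ^ (ε / 2)) * (w1 * w2) := by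
        have : 0 ≤ w2 := by linarith
        positivity
      have h5 := ENNReal.toReal_le_of_le_ofReal h6 h4
      nlinarith)
    hθ1 (by positivity)
    (by
      intro z hz
      unfold XB at hz
      have h4 := (mem_filter.1 hz).1
      unfold BX at h4
      exact mem_range.1 (mem_product.1 h4).2)
    (by
      intro z hz
      unfold XB at hz
      have h4 := (mem_filter.1 hz).2.1
      rw [hSd]
      refine div_le_div_of_nonneg_right ?_ hC0p.le
      exact (ENNReal.ofReal_le_iff_le_toReal (hSBfin z)).1 h4)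
    (by
      simp only [hSd]
      have hR : ∑ z ∈ XB ν L N X θ j c, (SB ν L N j c z.1 z.2).toReal / C0 =
          (∑ z ∈ XB ν L N X θ j c, SB ν L N j c z.1 z.2).toReal / C0 := by
        rw [ENNReal.toReal_sum (fun z _ => hSBfin z), sum_div]
      rw [hR, hwsum, ← mul_div_assoc]
      refine div_le_div_of_nonneg_right ?_ hC0p.le
      have h4 : (∑ z ∈ XB ν L N X θ j c, SB ν L N j c z.1 z.2) ≠ ∞ := by
        rw [ENNReal.sum_ne_top]
        exact fun z _ => hSBfin z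
      have h5 := ENNReal.toReal_mono h4 hjc1
      rw [ENNReal.toReal_mul, ENNReal.toReal_mul, ENNReal.toReal_pow,
        ENNReal.toReal_ofReal (by positivity)] at h5
      unfold WB at h5
      simp only [ENNReal.toReal_ofNat] at h5
      linarith)
    (by
      have h4 : WB ν L N j c ≠ 0 := by
        intro h
        refine hjc2 ?_
        refine sum_eq_zero fun z _ => ?_
        unfold WB at h
        unfold SB
        rw [sum_eq_zero_iff] at h
        exact sum_eq_zero fun l hl => h l (mem_filter.1 hl).1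
      rw [hwsum]
      refine div_pos (ENNReal.toReal_pos h4 ?_) hC0p
      rw [ENNReal.sum_ne_top]
      exact fun l _ => hwfin l)
  -- conclusion
  have h2L : (2:ℝ) ^ ((2 * κ + ε / 2) * L) ≤ 2 ^ (2 * κ + ε / 2) * (N:ℝ) ^ (2 * κ + ε / 2) := by
    rw [← Real.mul_rpow (by norm_num) hN0.le, mul_comm (2 * κ + ε / 2) (L:ℝ),
      Real.rpow_mul (by norm_num), Real.rpow_natCast]
    refine Real.rpow_le_rpow (by positivity) ?_ (by positivity)
    exact_mod_cast hL2
  have hlam : (e / C / (2 * c16 ^ 2)) ^ (-Np) * e ^ Np = (2 * C * c16 ^ 2) ^ Np := by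
    rw [div_div, Real.rpow_neg (by positivity), Real.div_rpow he.le (by positivity), inv_div,
      div_mul_cancel₀ _ heN0.ne']
    congr 1
    ring
  have hNN : (N:ℝ) ^ (ε / 2) * (N:ℝ) ^ (2 * κ + ε / 2) = (N:ℝ) ^ (2 * κ + ε) := by
    rw [← Real.rpow_add hN0]
    ring_nf
  have hσθ : σ = 72 * C * c16 * (θ / C0) := by
    rw [hθ, hC0d]
    field_simp
    ring
  calc σ * e ^ Np = 72 * C * c16 * (θ / C0) * e ^ Np := by rw [← hσθ]
    _ ≤ 72 * C * c16 * (C1 * (C2 * (C * (N:ℝ) ^ (ε / 2))) * (2:ℝ) ^ ((2 * κ + ε / 2) * L) *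
          (e / C / (2 * c16 ^ 2)) ^ (-Np)) * e ^ Np := by gcongr
    _ ≤ 72 * C * c16 * (C1 * (C2 * (C * (N:ℝ) ^ (ε / 2))) *
          (2 ^ (2 * κ + ε / 2) * (N:ℝ) ^ (2 * κ + ε / 2)) *
          (e / C / (2 * c16 ^ 2)) ^ (-Np)) * e ^ Np := by gcongr
    _ = 72 * C * c16 * (C1 * (C2 * C) * 2 ^ (2 * κ + ε / 2) *
          ((e / C / (2 * c16 ^ 2)) ^ (-Np) * e ^ Np)) *
          ((N:ℝ) ^ (ε / 2) * (N:ℝ) ^ (2 * κ + ε / 2)) := by ring
    _ = 72 * C * c16 * (C1 * (C2 * C) * 2 ^ (2 * κ + ε / 2) * (2 * C * c16 ^ 2) ^ Np) *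
          (N:ℝ) ^ (2 * κ + ε) := by rw [hlam, hNN]
    _ ≤ K * (N:ℝ) ^ (2 * κ + ε) := by gcongr

end Vale.Agent.P117.K.Geo
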