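import Vale.Agent.P117.K.GeoB

/-!
# P117 / K : block GEO3, statement [G2]: the weights of the lines are Katz-Tao

For the cap `k` and the base point `b` the tube `Shb` consists of the points
`b + (d + τ s_k, τ)`, `d ∈ [0,N)²`, `τ ∈ [0, N 2^L)`.  The gauge `gam N k` is bounded on it, so the
density at `b` is at most a constant times its average over the tube; the tubes of different lateral
cells are disjoint, and those of a plank of lines lie in a plank `Plk`.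
-/

namespace Vale.Agent.P117.K.Geo.G2X

open Finset MeasureTheory Set
open scoped ENNReal

/-- sheared box -/
def Shb (s0 s1 r h : ℝ) (b : E3) : Set E3 :=
  {z | z 0 - b 0 - (z 2 - b 2) * s0 ∈ Ico 0 r ∧ z 1 - b 1 - (z 2 - b 2) * s1 ∈ Ico 0 r ∧
    z 2 - b 2 ∈ Ico 0 h}

theorem meas_Shb (s0 s1 r h : ℝ) (b : E3) : MeasurableSet (Shb s0 s1 r h b) := by
  unfold Shb
  have h0 : Measurable (fun z : E3 => z 0) := by fun_prop
  have h1 : Measurable (fun z : E3 => z 1) := by fun_prop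
  have h2 : Measurable (fun z : E3 => z 2) := by fun_prop
  have e0 : MeasurableSet ((fun z : E3 => z 0 - b 0 - (z 2 - b 2) * s0) ⁻¹' Ico 0 r) :=
    ((h0.sub_const _).sub ((h2.sub_const _).mul_const _)) measurableSet_Ico
  have e1 : MeasurableSet ((fun z : E3 => z 1 - b 1 - (z 2 - b 2) * s1) ⁻¹' Ico 0 r) :=
    ((h1.sub_const _).sub ((h2.sub_const _).mul_const _)) measurableSet_Ico
  have e2 : MeasurableSet ((fun z : E3 => z 2 - b 2) ⁻¹' Ico 0 h) :=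
    (h2.sub_const _) measurableSet_Ico
  exact e0.inter (e1.inter e2)

theorem vol_Shb (s0 s1 r h : ℝ) (hr : 0 ≤ r) (b : E3) :
    volume (Shb s0 s1 r h b) = ENNReal.ofReal (r * r * h) := by
  set T0 : Set E3 := {z | z 0 - z 2 * s0 ∈ Ico 0 r ∧ z 1 - z 2 * s1 ∈ Ico 0 r ∧ z 2 ∈ Ico 0 h} with hT0
  have e1 : Shb s0 s1 r h b = (fun z => z - b) ⁻¹' T0 := by
    ext z; simp [Shb, hT0]
  set f : (Fin 3 → ℝ) →ₗ[ℝ] (Fin 3 → ℝ) :=
    Matrix.toLin' !![1, 0, -s0; 0, 1, -s1; 0, 0, 1] with hf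
  have hdet : LinearMap.det f = 1 := by
    rw [hf, LinearMap.det_toLin', Matrix.det_fin_three]; simp
  set T1 : Set (Fin 3 → ℝ) := f ⁻¹' (Set.pi univ fun i => Ico ((0 : Fin 3 → ℝ) i) (![r, r, h] i)) with hT1
  have e2 : T0 = (WithLp.ofLp) ⁻¹' T1 := by
    ext z
    simp only [hT0, hT1, hf, Set.mem_ofPred_eq, Set.mem_preimage, Set.mem_pi, Set.mem_univ, true_imp_iff,
      Fin.forall_fin_succ, Matrix.toLin'_apply, Matrix.mulVec, dotProduct, Fin.sum_univ_three]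
    simp
    constructor
    · rintro ⟨⟨h1, h2⟩, ⟨h3, h4⟩, h5, h6⟩
      exact ⟨⟨by linarith, by linarith⟩, ⟨by linarith, by linarith⟩, h5, h6⟩
    · rintro ⟨⟨h1, h2⟩, ⟨h3, h4⟩, h5, h6⟩
      exact ⟨⟨by linarith, by linarith⟩, ⟨by linarith, by linarith⟩, h5, h6⟩
  have hm1 : MeasurableSet (Set.pi univ fun i => Ico ((0 : Fin 3 → ℝ) i) (![r, r, h] i)) :=
    MeasurableSet.univ_pi fun i => measurableSet_Ico
  have hfm : Measurable f := f.continuous_of_finiteDimensional.measurable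
  have hm2 : MeasurableSet T1 := hfm hm1
  rw [e1, show (fun z : E3 => z - b) = (fun z => z + (-b)) from by ext1 z; rw [sub_eq_add_neg],
    measure_preimage_add_right, e2,
    (PiLp.volume_preserving_ofLp (Fin 3)).measure_preimage hm2.nullMeasurableSet, hT1,
    Measure.addHaar_preimage_linearMap volume (by rw [hdet]; exact one_ne_zero), hdet,
    Real.volume_pi_Ico]
  simp [Fin.prod_univ_three]
  rw [← ENNReal.ofReal_mul hr, ← ENNReal.ofReal_mul (mul_nonneg hr hr)]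

theorem norm_flat {d0 d1 r : ℝ} (h0 : |d0| ≤ r) (h1 : |d1| ≤ r) :
    ‖(!₂[d0, d1, 0] : E3)‖ ≤ 2 * r := by
  refine (norm_le3 _).trans ?_
  simp
  linarith

/-- the vector `(s_k, 1)` is a multiple of `om` -/
theorem sk_vec {N : ℕ} {k : ℤ × ℤ} (hk : k ∈ Gk N) :
    (!₂[sk N k 0, sk N k 1, 1] : E3) = ((1 + vv N k) / (1 - vv N k)) • om N k := by
  have h := vv_nonneg (N := N) (k := k)
  have h8 := vv_le hk
  have h1 : (1 + vv N k) ≠ 0 := by positivity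
  have h2 : (1 - vv N k) ≠ 0 := by linarith
  ext i
  fin_cases i
  · show sk N k 0 = (1 + vv N k) / (1 - vv N k) * om N k 0
    rw [om_zero, sk_zero]; field_simp
  · show sk N k 1 = (1 + vv N k) / (1 - vv N k) * om N k 1
    rw [om_one, sk_one]; field_simp
  · show 1 = (1 + vv N k) / (1 - vv N k) * om N k 2
    rw [om_two]; field_simp

theorem gam_le_of_shb {N L : ℕ} (hN : 1 ≤ N) (hL : 2 ^ L ≤ 2 * N) {k : ℤ × ℤ} (hk : k ∈ Gk N)
    {b z : E3} (hz : z ∈ Shb (sk N k 0) (sk N k 1) N (N * 2 ^ L) b) : gam N k (b - z) ≤ 9 := by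
  have h := vv_nonneg (N := N) (k := k)
  have h8 := vv_le hk
  have hN1 : (1:ℝ) ≤ N := by exact_mod_cast hN
  have hN0 : (0:ℝ) < N := by linarith
  have hL' : (2:ℝ) ^ L ≤ 2 * N := by exact_mod_cast hL
  obtain ⟨⟨a1, a2⟩, ⟨a3, a4⟩, a5, a6⟩ := hz
  set τ := z 2 - b 2 with hτ
  set c := (1 + vv N k) / (1 - vv N k) with hc
  have hc0 : 0 ≤ c := by rw [hc]; apply div_nonneg <;> linarith
  have hc1 : c ≤ 3 / 2 := by rw [hc, div_le_iff₀ (by linarith)]; linarith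
  set δ : E3 := !₂[z 0 - b 0 - τ * sk N k 0, z 1 - b 1 - τ * sk N k 1, 0] with hδ
  have hδn : ‖δ‖ ≤ 2 * N := by
    apply norm_flat
    · rw [abs_of_nonneg a1]; exact a2.le
    · rw [abs_of_nonneg a3]; exact a4.le
  have hw := norm_om' (N := N) (k := k)
  have hdec : b - z = (-(τ * c)) • om N k - δ := by
    have e : (-(τ * c)) • om N k = (-τ) • (!₂[sk N k 0, sk N k 1, 1] : E3) := by
      rw [sk_vec hk, smul_smul]; congr 1; ring
    rw [e, hδ]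
    ext i
    fin_cases i
    · simp; ring
    · simp; ring
    · simp [hτ]
  have hin : |inner ℝ (om N k) δ| ≤ 2 * N := by
    have := abs_real_inner_le_norm (om N k) δ
    rw [hw, one_mul] at this
    exact this.trans hδn
  have hww : inner ℝ (om N k) (om N k) = (1:ℝ) := by
    rw [real_inner_self_eq_norm_sq, hw]; norm_num
  have hx : inner ℝ (om N k) (b - z) = -(τ * c) - inner ℝ (om N k) δ := by
    rw [hdec, inner_sub_right, real_inner_smul_right, hww, mul_one]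
  have hτc : τ * c ≤ 3 * (N:ℝ) ^ 2 := by
    calc τ * c ≤ (N * 2 ^ L) * (3 / 2) := mul_le_mul a6.le hc1 hc0 (by positivity)
      _ ≤ (N * (2 * N)) * (3 / 2) := by gcongr
      _ = _ := by ring
  have hNN : (N:ℝ) ≤ (N:ℝ) ^ 2 := by nlinarith
  have h1 : |inner ℝ (om N k) (b - z)| ≤ 5 * (N:ℝ) ^ 2 := by
    rw [hx]
    have t1 := abs_le.1 hin
    have t2 : 0 ≤ τ * c := mul_nonneg a5 hc0
    rw [abs_le]; constructor <;> nlinarith [t1.1, t1.2]
  have h2 : ‖b - z - (inner ℝ (om N k) (b - z)) • om N k‖ ≤ 4 * N := by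
    have e : b - z - (inner ℝ (om N k) (b - z)) • om N k = (inner ℝ (om N k) δ : ℝ) • om N k - δ := by
      rw [hx, hdec, sub_smul]; abel
    rw [e]
    calc _ ≤ ‖(inner ℝ (om N k) δ : ℝ) • om N k‖ + ‖δ‖ := norm_sub_le _ _
      _ = |inner ℝ (om N k) δ| + ‖δ‖ := by rw [norm_smul, hw, mul_one, Real.norm_eq_abs]
      _ ≤ 2 * N + 2 * N := add_le_add hin hδn
      _ = _ := by ring
  unfold gam
  have h3 : ‖b - z - (inner ℝ (om N k) (b - z)) • om N k‖ / N ≤ 4 := by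
    rw [div_le_iff₀ hN0]; exact h2
  have h4 : |inner ℝ (om N k) (b - z)| / (N:ℝ) ^ 2 ≤ 5 := by
    rw [div_le_iff₀ (by positivity)]; exact h1
  linarith

theorem point_le {N L : ℕ} {M : ℕ} {ν : ℤ × ℤ → E3 → ℝ≥0∞} (hm : ∀ k, Measurable (ν k))
    (hP : ∀ k x y, ν k x ≤ ENNReal.ofReal ((1 + gam N k (x - y)) ^ M) * ν k y)
    (hN : 1 ≤ N) (hL1 : N ≤ 2 ^ L) (hL : 2 ^ L ≤ 2 * N) {k : ℤ × ℤ} (hk : k ∈ Gk N)
    (b : E3) :
    ν k b * ENNReal.ofReal ((N:ℝ) ^ 4) ≤ ENNReal.ofReal (10 ^ M) *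
      ∫⁻ z in Shb (sk N k 0) (sk N k 1) N (N * 2 ^ L) b, ν k z := by
  have hN1 : (1:ℝ) ≤ N := by exact_mod_cast hN
  have hL1' : (N:ℝ) ≤ (2:ℝ) ^ L := by exact_mod_cast hL1
  have hv : ENNReal.ofReal ((N:ℝ) ^ 4) ≤ volume (Shb (sk N k 0) (sk N k 1) N (N * 2 ^ L) b) := by
    rw [vol_Shb _ _ _ _ (by positivity)]
    apply ENNReal.ofReal_le_ofReal
    calc (N:ℝ) ^ 4 = N * N * (N * N) := by ring
      _ ≤ N * N * (N * 2 ^ L) := by gcongr
  calc ν k b * ENNReal.ofReal ((N:ℝ) ^ 4)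
      ≤ ν k b * volume (Shb (sk N k 0) (sk N k 1) N (N * 2 ^ L) b) := by gcongr
    _ = ∫⁻ z in Shb (sk N k 0) (sk N k 1) N (N * 2 ^ L) b, ν k b := by
        rw [setLIntegral_const]
    _ ≤ ∫⁻ z in Shb (sk N k 0) (sk N k 1) N (N * 2 ^ L) b, ENNReal.ofReal (10 ^ M) * ν k z := by
        apply setLIntegral_mono' (meas_Shb _ _ _ _ _)
        intro z hz
        refine (hP k b z).trans ?_
        have hg := gam_le_of_shb hN hL hk hz
        have hg0 : 0 ≤ gam N k (b - z) := by unfold gam; positivity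
        gcongr
        linarith
    _ = _ := lintegral_const_mul _ (hm k)

/-- the tube of the line `l` and the cap `k` in the slab `j` -/
noncomputable def TbG (L N : ℕ) (j : ℤ) (c : Fin 2 → ℤ) (k : ℤ × ℤ) (l : LI) : Set E3 :=
  Shb (sk N k 0) (sk N k 1) N (N * 2 ^ L) (bpt L N j (fun i => 2 ^ L * c i + l.1 i))

theorem TbG_disj {L N : ℕ} (hN : 1 ≤ N) (j : ℤ) (c : Fin 2 → ℤ) (k : ℤ × ℤ) {l l' : LI}
    (h2 : l.2 = l'.2) (hne : l ≠ l') : Disjoint (TbG L N j c k l) (TbG L N j c k l') := by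
  have hN1 : (1:ℝ) ≤ N := by exact_mod_cast hN
  rw [Set.disjoint_left]
  intro z hz hz'
  apply hne
  have key : ∀ (x y : ℤ) (u c0 : ℝ), u - N * ((2:ℝ) ^ L * c0 + x) ∈ Set.Ico (0:ℝ) N →
      u - N * ((2:ℝ) ^ L * c0 + y) ∈ Set.Ico (0:ℝ) N → x = y := by
    intro x y u c0 h3 h4
    obtain ⟨h5, h6⟩ := h3
    obtain ⟨h7, h8⟩ := h4
    by_contra hxy
    rcases lt_or_gt_of_ne hxy with h | h
    · have h9 : (x:ℝ) + 1 ≤ y := by exact_mod_cast h
      nlinarith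
    · have h9 : (y:ℝ) + 1 ≤ x := by exact_mod_cast h
      nlinarith
  obtain ⟨a0, a1, -⟩ := hz
  obtain ⟨b0, b1, -⟩ := hz'
  simp [bpt] at a0 a1 b0 b1
  have f0 : l.1 0 = l'.1 0 := by
    apply key _ _ (z 0 - (z 2 - N * (2 ^ L * j)) * sk N k 0) (c 0)
    · constructor
      · linarith [a0.1]
      · linarith [a0.2]
    · constructor
      · linarith [b0.1]
      · linarith [b0.2]
  have f1 : l.1 1 = l'.1 1 := by
    apply key _ _ (z 1 - (z 2 - N * (2 ^ L * j)) * sk N k 1) (c 1)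
    · constructor
      · linarith [a1.1]
      · linarith [a1.2]
    · constructor
      · linarith [b1.1]
      · linarith [b1.2]
  apply Prod.ext _ h2
  funext i
  fin_cases i
  · exact f0
  · exact f1

theorem abs_comb {a b x y B : ℝ} (ha : |a| ≤ 1) (hb : |b| ≤ 1) (hx : |x| ≤ B) (hy : |y| ≤ B) :
    |a * x + b * y| ≤ 2 * B := by
  have hB : 0 ≤ B := (abs_nonneg _).trans hx
  calc _ ≤ |a * x| + |b * y| := abs_add_le _ _
    _ = |a| * |x| + |b| * |y| := by rw [abs_mul, abs_mul]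
    _ ≤ 1 * B + 1 * B := by gcongr
    _ = _ := by ring

/-- combination of position, error and slope in one component -/
theorem comp_bd {a b : ℝ} (ha : |a| ≤ 1) (hb : |b| ≤ 1) {P B X : ℝ} (hP : 1 ≤ P) (hB : 1 ≤ B)
    (hX : 1 ≤ X) {dx0 dx1 dy0 dy1 th0 th1 q0 q1 e0 e1 τ : ℝ}
    (hdx : |a * dx0 + b * dx1| ≤ B) (hdy : |a * dy0 + b * dy1| ≤ B)
    (ht0 : |th0| ≤ 1) (ht1 : |th1| ≤ 1) (he0 : |e0| ≤ X) (he1 : |e1| ≤ X)
    (hq0 : q0 = (dy0 + th0) / P) (hq1 : q1 = (dy1 + th1) / P) (hτ0 : 0 ≤ τ)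
    (hτ : τ ≤ X * P) :
    |a * q0 + b * q1| ≤ 3 * B / P ∧
    |a * (e0 + X * dx0 + τ * q0) + b * (e1 + X * dx1 + τ * q1)| ≤ 6 * (X * B) := by
  have h1 : |a * q0 + b * q1| ≤ 3 * B / P := by
    have e : a * q0 + b * q1 = ((a * dy0 + b * dy1) + (a * th0 + b * th1)) / P := by
      rw [hq0, hq1]; ring
    rw [e, abs_div, abs_of_pos (by linarith : 0 < P)]
    have := abs_comb ha hb ht0 ht1
    apply div_le_div_of_nonneg_right _ (by linarith : (0:ℝ) ≤ P)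
    have := abs_add_le (a * dy0 + b * dy1) (a * th0 + b * th1)
    nlinarith
  refine ⟨h1, ?_⟩
  have e : a * (e0 + X * dx0 + τ * q0) + b * (e1 + X * dx1 + τ * q1) =
      (a * e0 + b * e1) + X * (a * dx0 + b * dx1) + τ * (a * q0 + b * q1) := by ring
  rw [e]
  have h2 := abs_comb ha hb he0 he1
  have h3 : |X * (a * dx0 + b * dx1)| ≤ X * B := by
    rw [abs_mul, abs_of_pos (by linarith : 0 < X)]; gcongr
  have h4 : |τ * (a * q0 + b * q1)| ≤ (X * P) * (3 * B / P) := by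
    rw [abs_mul, abs_of_nonneg hτ0]; gcongr
  have h5 : (X * P) * (3 * B / P) = 3 * (X * B) := by field_simp
  rw [h5] at h4
  have h6 := abs_add_le ((a * e0 + b * e1) + X * (a * dx0 + b * dx1)) (τ * (a * q0 + b * q1))
  have h7 := abs_add_le (a * e0 + b * e1) (X * (a * dx0 + b * dx1))
  nlinarith

/-- the planks of the planks of lines -/
theorem plank_geo {N L : ℕ} (hN : 1 ≤ N) (hL1 : N ≤ 2 ^ L) (hL : 2 ^ L ≤ 2 * N) (j : ℤ)
    (c : Fin 2 → ℤ) {a b : ℝ} (hn : a ^ 2 + b ^ 2 = 1) {w1 w2 : ℝ} (hb : 1 ≤ w1)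
    (hba : w1 ≤ w2) {x0 y0 : Fin 2 → ℝ} {l : LI} (hl : inP a b w1 w2 x0 y0 l)
    {k : ℤ × ℤ} (hk : k ∈ Gk N) (hkl : yk L N k = l.2) :
    dirP N ((N:ℝ) ^ 2) a b (y0 0 / 2 ^ L) (y0 1 / 2 ^ L) (6 * (N * w1)) (6 * (N * w2)) k ∧
    TbG L N j c k l ⊆ Plk ((N:ℝ) ^ 2) a b (y0 0 / 2 ^ L) (y0 1 / 2 ^ L) (6 * (N * w1)) (6 * (N * w2))
      !₂[N * (2 ^ L * c 0 + x0 0) + (N:ℝ) ^ 2 * (y0 0 / 2 ^ L),
        N * (2 ^ L * c 1 + x0 1) + (N:ℝ) ^ 2 * (y0 1 / 2 ^ L), N * (2 ^ L * j) + (N:ℝ) ^ 2] := by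
  obtain ⟨hx1, hx2, hy1, hy2⟩ := hl
  have hN1 : (1:ℝ) ≤ N := by exact_mod_cast hN
  have hN0 : (0:ℝ) < N := by linarith
  have hL1' : (N:ℝ) ≤ (2:ℝ) ^ L := by exact_mod_cast hL1
  have hL' : (2:ℝ) ^ L ≤ 2 * N := by exact_mod_cast hL
  have hP1 : (1:ℝ) ≤ 2 ^ L := hN1.trans hL1'
  have hP0 : (0:ℝ) < 2 ^ L := by linarith
  -- the error terms of the slopes
  have hth : ∀ i, ∃ θ : ℝ, |θ| ≤ 1 ∧ sk N k i - y0 i / 2 ^ L = ((l.2 i - y0 i) + θ) / 2 ^ L := by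
    intro i
    refine ⟨Int.fract ((2:ℝ) ^ L * sk N k i), ?_, ?_⟩
    · rw [abs_of_nonneg (Int.fract_nonneg _)]; exact (Int.fract_lt_one _).le
    · have h1 : (l.2 i : ℝ) = ⌊(2:ℝ) ^ L * sk N k i⌋ := by
        rw [← hkl]; rfl
      rw [h1]
      have h2 := Int.floor_add_fract ((2:ℝ) ^ L * sk N k i)
      rw [eq_div_iff hP0.ne', sub_mul, div_mul_cancel₀ _ hP0.ne']
      linarith
  obtain ⟨θ0, ht0, hq0⟩ := hth 0
  obtain ⟨θ1, ht1, hq1⟩ := hth 1
  have n0 : |a| ≤ 1 := by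
    rw [← sq_le_one_iff_abs_le_one]; nlinarith [sq_nonneg b]
  have n1 : |b| ≤ 1 := by
    rw [← sq_le_one_iff_abs_le_one]; nlinarith [sq_nonneg a]
  have n1' : |-b| ≤ 1 := by rwa [abs_neg]
  have ha1 : 1 ≤ w2 := hb.trans hba
  constructor
  · -- directions
    have b1 := (comp_bd n0 n1 hP1 hb hN1 hx1 hy1 ht0 ht1 (e0 := 0) (e1 := 0) (by simp)
      (by simp) hq0 hq1 le_rfl (by positivity)).1
    have b2 := (comp_bd n1' n0 hP1 ha1 hN1 hx2 hy2 ht0 ht1 (e0 := 0) (e1 := 0) (by simp)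
      (by simp) hq0 hq1 le_rfl (by positivity)).1
    have red : ∀ B : ℝ, 0 ≤ B → 3 * B / 2 ^ L ≤ 6 * (N * B) / (N:ℝ) ^ 2 := by
      intro B hB
      have e : 6 * (N * B) / (N:ℝ) ^ 2 = 6 * B / N := by field_simp
      rw [e]
      calc 3 * B / 2 ^ L ≤ 3 * B / N := by gcongr
        _ ≤ _ := by gcongr; norm_num
    exact ⟨b1.trans (red _ (by linarith)), b2.trans (red _ (by linarith))⟩
  · -- positions
    intro z hz
    obtain ⟨⟨a1, a2⟩, ⟨a3, a4⟩, a5, a6⟩ := hz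
    set τ := z 2 - (bpt L N j (fun i => 2 ^ L * c i + l.1 i)) 2 with hτ
    have b0 : (bpt L N j (fun i => 2 ^ L * c i + l.1 i)) 0 = N * ((2:ℝ) ^ L * c 0 + l.1 0) := by
      simp [bpt]
    have b1 : (bpt L N j (fun i => 2 ^ L * c i + l.1 i)) 1 = N * ((2:ℝ) ^ L * c 1 + l.1 1) := by
      simp [bpt]
    have b2 : (bpt L N j (fun i => 2 ^ L * c i + l.1 i)) 2 = N * ((2:ℝ) ^ L * j) := by
      simp [bpt]
    set E0 := z 0 - (bpt L N j (fun i => 2 ^ L * c i + l.1 i)) 0 - τ * sk N k 0 with hE0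
    set E1 := z 1 - (bpt L N j (fun i => 2 ^ L * c i + l.1 i)) 1 - τ * sk N k 1 with hE1
    have he0 : |E0| ≤ N := by rw [abs_of_nonneg a1]; exact a2.le
    have he1 : |E1| ≤ N := by rw [abs_of_nonneg a3]; exact a4.le
    have b1' := (comp_bd n0 n1 hP1 hb hN1 hx1 hy1 ht0 ht1 he0 he1 hq0 hq1 a5 a6.le).2
    have b2' := (comp_bd n1' n0 hP1 ha1 hN1 hx2 hy2 ht0 ht1 he0 he1 hq0 hq1 a5 a6.le).2
    have r0 : E0 + N * (l.1 0 - x0 0) + τ * (sk N k 0 - y0 0 / 2 ^ L) =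
        z 0 - (N * (2 ^ L * c 0 + x0 0) + (N:ℝ) ^ 2 * (y0 0 / 2 ^ L)) -
          y0 0 / 2 ^ L * (z 2 - (N * (2 ^ L * j) + (N:ℝ) ^ 2)) := by
      rw [hE0, b0, hτ, b2]; ring
    have r1 : E1 + N * (l.1 1 - x0 1) + τ * (sk N k 1 - y0 1 / 2 ^ L) =
        z 1 - (N * (2 ^ L * c 1 + x0 1) + (N:ℝ) ^ 2 * (y0 1 / 2 ^ L)) -
          y0 1 / 2 ^ L * (z 2 - (N * (2 ^ L * j) + (N:ℝ) ^ 2)) := by
      rw [hE1, b1, hτ, b2]; ring
    rw [r0, r1] at b1' b2'
    refine ⟨?_, ?_, ?_⟩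
    · simpa using b1'
    · simpa using b2'
    · have h3 : (N:ℝ) * 2 ^ L ≤ 2 * (N:ℝ) ^ 2 := by
        calc (N:ℝ) * 2 ^ L ≤ N * (2 * N) := by gcongr
          _ = _ := by ring
      have h4 : z 2 - (N * (2 ^ L * j) + (N:ℝ) ^ 2) = τ - (N:ℝ) ^ 2 := by
        rw [hτ, b2]; ring
      simp only [Matrix.cons_val]
      rw [h4, abs_le]
      constructor <;> linarith [a6.le]

end Vale.Agent.P117.K.Geo.G2X

namespace Vale.Agent.P117.K.Geo

open Finset MeasureTheory Set G2X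
open scoped ENNReal

theorem stG2 : StG2 := by
  classical
  intro M
  refine ⟨36 * 10 ^ M, ?_, ?_⟩
  · have : (1:ℝ) ≤ 10 ^ M := one_le_pow₀ (by norm_num)
    linarith
  intro N L A ν hN hL1 hL hA hm hPe hKT j c a b w1 w2 x0 y0 hn hw1 hw12 T' hT
  have hN1 : (1:ℝ) ≤ N := by exact_mod_cast hN
  have hN0 : (0:ℝ) < N := by linarith
  have geo : ∀ l ∈ T', ∀ k ∈ Gk N, yk L N k = l.2 → _ := fun l hl k hk hkl =>
    plank_geo hN hL1 hL j c hn hw1 hw12 (hT l hl) hk hkl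
  set p : E3 := !₂[N * (2 ^ L * c 0 + x0 0) + (N:ℝ) ^ 2 * (y0 0 / 2 ^ L),
        N * (2 ^ L * c 1 + x0 1) + (N:ℝ) ^ 2 * (y0 1 / 2 ^ L), N * (2 ^ L * j) + (N:ℝ) ^ 2] with hp
  set B : Set E3 := Plk ((N:ℝ) ^ 2) a b (y0 0 / 2 ^ L) (y0 1 / 2 ^ L) (6 * (N * w1)) (6 * (N * w2)) p with hB
  have q1 : (N:ℝ) ≤ 6 * (N * w1) := by nlinarith
  have q2 : 6 * (N * w1) ≤ 6 * (N * w2) := by gcongr
  have hKT' := hKT a b (y0 0 / 2 ^ L) (y0 1 / 2 ^ L) (6 * (N * w1)) (6 * (N * w2)) p hn q1 q2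
  set D : Finset (ℤ × ℤ) := {k ∈ Gk N | ∃ l ∈ T', yk L N k = l.2} with hDdef
  have hk4 : ∑ k ∈ D, ∫⁻ x in B, ν k x ≤
      ENNReal.ofReal (A * (6 * (N * w1) * (6 * (N * w2)) * (N:ℝ) ^ 2)) := by
    refine le_trans ?_ hKT'
    apply Finset.sum_le_sum_of_subset
    intro k hk
    rw [hDdef, Finset.mem_filter] at hk
    obtain ⟨hk1, l, hl, hkl⟩ := hk
    rw [Finset.mem_filter]
    exact ⟨(mem_Gk.1 hk1).1, (geo l hl k hk1 hkl).1⟩
  have hswap : (∑ l ∈ T', wgt ν L N j c l) * ENNReal.ofReal ((N:ℝ) ^ 4) ≤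
      ENNReal.ofReal (10 ^ M) * ∑ k ∈ D, ∫⁻ x in B, ν k x := by
    calc (∑ l ∈ T', wgt ν L N j c l) * ENNReal.ofReal ((N:ℝ) ^ 4)
        = ∑ l ∈ T', ∑ k ∈ Gk N with yk L N k = l.2,
            ν k (bpt L N j (fun i => 2 ^ L * c i + l.1 i)) * ENNReal.ofReal ((N:ℝ) ^ 4) := by
          rw [Finset.sum_mul]
          apply Finset.sum_congr rfl
          intro l hl
          rw [wgt, Finset.sum_mul]
      _ ≤ ∑ l ∈ T', ∑ k ∈ Gk N with yk L N k = l.2,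
            ENNReal.ofReal (10 ^ M) * ∫⁻ z in TbG L N j c k l, ν k z := by
          apply Finset.sum_le_sum
          intro l hl
          apply Finset.sum_le_sum
          intro k hk
          exact point_le hm hPe hN hL1 hL (Finset.mem_filter.1 hk).1 _
      _ = ∑ k ∈ D, ∑ l ∈ T' with yk L N k = l.2,
            ENNReal.ofReal (10 ^ M) * ∫⁻ z in TbG L N j c k l, ν k z := by
          apply Finset.sum_comm'
          intro l k
          simp only [hDdef, Finset.mem_filter]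
          constructor
          · rintro ⟨h1, h2, h3⟩
            exact ⟨⟨h1, h3⟩, h2, l, h1, h3⟩
          · rintro ⟨⟨h1, h3⟩, h2, -⟩
            exact ⟨h1, h2, h3⟩
      _ = ENNReal.ofReal (10 ^ M) * ∑ k ∈ D, ∑ l ∈ T' with yk L N k = l.2,
            ∫⁻ z in TbG L N j c k l, ν k z := by
          rw [Finset.mul_sum]
          apply Finset.sum_congr rfl
          intro k hk
          rw [Finset.mul_sum]
      _ ≤ ENNReal.ofReal (10 ^ M) * ∑ k ∈ D, ∫⁻ x in B, ν k x := by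
          gcongr with k hk
          rw [← lintegral_biUnion_finset]
          · apply lintegral_mono_set
            intro z hz
            simp only [Set.mem_iUnion, Finset.mem_filter] at hz
            obtain ⟨l, ⟨hl, hkl⟩, hz⟩ := hz
            exact (geo l hl k (Finset.mem_filter.1 hk).1 hkl).2 hz
          · intro l hl l' hl' hne
            simp only [Finset.coe_filter, Set.mem_ofPred_eq] at hl hl'
            exact TbG_disj hN j c k (hl.2.symm.trans hl'.2) hne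
          · intro l hl
            exact meas_Shb _ _ _ _ _
  have hfin : (∑ l ∈ T', wgt ν L N j c l) * ENNReal.ofReal ((N:ℝ) ^ 4) ≤
      ENNReal.ofReal (36 * 10 ^ M * A * (w1 * w2)) * ENNReal.ofReal ((N:ℝ) ^ 4) := by
    refine hswap.trans ((mul_le_mul_right hk4 _).trans (le_of_eq ?_))
    rw [← ENNReal.ofReal_mul (by positivity), ← ENNReal.ofReal_mul' (by positivity)]
    congr 1
    ring
  rwa [ENNReal.mul_le_mul_iff_left (by positivity) ENNReal.ofReal_ne_top] at hfin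

end Vale.Agent.P117.K.Geo
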