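import Vale.Agent.P117.K.GeoB

/-!
# P117 / K : block GEO3, decomposition of the discrete sums into lateral blocks
-/

namespace Vale.Agent.P117.K.Geo

open Finset MeasureTheory
open Vale.Agent.P127.M3 (pos)
open scoped ENNReal

/-- integer coordinate at the time `0` of the line of direction `yk` through the cell `(P, t)` -/
noncomputable def aQ (L N : ℕ) (P : Fin 2 → ℤ) (t : ℕ) (k : ℤ × ℤ) : Fin 2 → ℤ :=
  fun i => P i - t * yk L N k i / 2 ^ L

lemma ediv_eq_iff' {a q M : ℤ} (hM : 0 < M) : (0 ≤ a - M * q ∧ a - M * q < M) ↔ a / M = q := by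
  have h1 := Int.emod_nonneg a hM.ne'
  have h2 := Int.emod_lt_of_pos a hM
  have h3 := Int.mul_ediv_add_emod a M
  constructor
  · rintro ⟨h4, h5⟩
    have h6 : M * (a / M - q) < M * 1 := by rw [mul_sub]; linarith
    have h7 : M * (-1) < M * (a / M - q) := by rw [mul_sub]; linarith
    have h8 := lt_of_mul_lt_mul_left h6 hM.le
    have h9 := lt_of_mul_lt_mul_left h7 hM.le
    omega
  · rintro rfl
    constructor <;> linarith

lemma SB_eq (ν : ℤ × ℤ → E3 → ℝ≥0∞) (L N : ℕ) (j : ℤ) (P c : Fin 2 → ℤ) (t : ℕ) :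
    SB ν L N j c (fun i => P i - 2 ^ L * c i) t =
      ∑ k ∈ Gk N with (fun i => aQ L N P t k i / 2 ^ L) = c, ν k (bpt L N j (aQ L N P t k)) := by
  have hp : (0:ℤ) < 2 ^ L := by positivity
  unfold SB wgt
  rw [sum_sigma']
  refine sum_nbij' (fun p => p.2) (fun k => ⟨(fun i => aQ L N P t k i - 2 ^ L * c i, yk L N k), k⟩) ?_ ?_ ?_ ?_ ?_
  · rintro ⟨l, k⟩ h
    rw [mem_sigma, mem_filter, mem_filter, mem_TL] at h
    obtain ⟨⟨h1, h2⟩, h3, h4⟩ := h
    rw [mem_filter]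
    refine ⟨h3, ?_⟩
    funext i
    rw [← ediv_eq_iff' hp]
    have h5 : l.1 i + t * l.2 i / 2 ^ L = P i - 2 ^ L * c i := congrFun h2 i
    have h6 : aQ L N P t k i - 2 ^ L * c i = l.1 i := by
      unfold aQ
      rw [h4]
      linarith
    rw [h6]
    exact (h1 i).1
  · intro k h
    rw [mem_filter] at h
    rw [mem_sigma, mem_filter, mem_filter, mem_TL]
    refine ⟨⟨fun i => ⟨(ediv_eq_iff' hp).2 (congrFun h.2 i), yk_range L h.1 i⟩, ?_⟩, h.1, rfl⟩
    funext i
    show aQ L N P t k i - 2 ^ L * c i + t * yk L N k i / 2 ^ L = P i - 2 ^ L * c i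
    unfold aQ
    ring
  · rintro ⟨l, k⟩ h
    rw [mem_sigma, mem_filter, mem_filter, mem_TL] at h
    obtain ⟨⟨h1, h2⟩, h3, h4⟩ := h
    have e : ((fun i => aQ L N P t k i - 2 ^ L * c i, yk L N k) : LI) = l := by
      refine Prod.ext ?_ h4
      funext i
      have h5 : l.1 i + t * l.2 i / 2 ^ L = P i - 2 ^ L * c i := congrFun h2 i
      show aQ L N P t k i - 2 ^ L * c i = l.1 i
      unfold aQ
      rw [h4]
      linarith
    show (⟨(fun i => aQ L N P t k i - 2 ^ L * c i, yk L N k), k⟩ : (_ : LI) × (ℤ × ℤ)) = ⟨l, k⟩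
    rw [e]
  · intro k h
    rfl
  · rintro ⟨l, k⟩ h
    rw [mem_sigma, mem_filter, mem_filter, mem_TL] at h
    obtain ⟨⟨h1, h2⟩, h3, h4⟩ := h
    show ν k (bpt L N j (fun i => 2 ^ L * c i + l.1 i)) = ν k (bpt L N j (aQ L N P t k))
    have e : (fun i => 2 ^ L * c i + l.1 i) = aQ L N P t k := by
      funext i
      have h5 : l.1 i + t * l.2 i / 2 ^ L = P i - 2 ^ L * c i := congrFun h2 i
      unfold aQ
      rw [h4]
      linarith
    rw [e]

lemma aQ_block {L N : ℕ} {P : Fin 2 → ℤ} {t : ℕ} {k : ℤ × ℤ} (ht : t < 2 ^ L) (hk : k ∈ Gk N) (i : Fin 2) :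
    aQ L N P t k i / 2 ^ L = P i / 2 ^ L - 1 ∨ aQ L N P t k i / 2 ^ L = P i / 2 ^ L := by
  have hp : (0:ℤ) < 2 ^ L := by positivity
  have ht' : (t:ℤ) < 2 ^ L := by exact_mod_cast ht
  obtain ⟨h1, h2⟩ := yk_range L hk i
  have h3 : 0 ≤ (t:ℤ) * yk L N k i / 2 ^ L := Int.ediv_nonneg (mul_nonneg (by positivity) h1) hp.le
  have h4 : (t:ℤ) * yk L N k i / 2 ^ L < 2 ^ L := by
    apply Int.ediv_lt_of_lt_mul hp
    exact mul_lt_mul'' ht' h2 (by positivity) h1
  have h5 := Int.emod_nonneg (P i) hp.ne'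
  have h6 := Int.emod_lt_of_pos (P i) hp
  have h7 := Int.mul_ediv_add_emod (P i) (2 ^ L)
  set s := (t:ℤ) * yk L N k i / 2 ^ L with hs
  set M : ℤ := 2 ^ L with hM
  have e : aQ L N P t k i = P i - s := rfl
  rw [e]
  by_cases h : s ≤ P i % M
  · right
    rw [← ediv_eq_iff' hp]
    constructor <;> linarith
  · left
    rw [← ediv_eq_iff' hp, mul_sub]
    constructor <;> linarith

/-- **[G3A]** -/
theorem stG3A : StG3A := by
  intro ν L N j P t ht
  refine ⟨Fintype.piFinset fun i => {P i / 2 ^ L - 1, P i / 2 ^ L}, ?_, ?_, ?_⟩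
  · rw [Fintype.card_piFinset, Fin.prod_univ_two]
    calc _ ≤ 2 * 2 := Nat.mul_le_mul (card_le_two) (card_le_two)
      _ = 4 := rfl
  · intro c hc
    rw [SB_eq]
    apply sum_eq_zero
    intro k hk
    rw [mem_filter] at hk
    exfalso
    apply hc
    rw [Fintype.mem_piFinset]
    intro i
    rw [mem_insert, mem_singleton, ← congrFun hk.2 i]
    exact aQ_block ht hk.1 i
  · simp_rw [SB_eq]
    rw [sum_fiberwise_of_maps_to]
    · rfl
    · intro k hk
      rw [Fintype.mem_piFinset]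
      intro i
      rw [mem_insert, mem_singleton]
      exact aQ_block ht hk i

end Vale.Agent.P117.K.Geo
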