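import Vale.Agent.P117.K.MainD

/-! # P117 / K : assembly, part E : the order of `T_δ` near `L²` -/

open MeasureTheory Complex Set
open scoped ENNReal NNReal ContDiff FourierTransform SchwartzMap

set_option linter.all false

namespace Vale.Agent.P117.K.Asm

theorem br_ge_two (hREF : StREF3) (hLOC : StLOC3) (hBER : StBER3) (hKIN : StKIN3) (hKINB : StKINB) (hCH : StCH3) (hSUP : StSUP3)
    (hRST : StRST) (hTOP : StTOP3) (hL2 : StL2) {κ Np : ℝ} (hκ : 0 ≤ κ) (hNp : 0 ≤ Np) (hGEO : StGEO3 κ Np) (p δ : ℝ)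
    (h2 : 2 ≤ p) (hp : p ≤ 2 + 2 / (Np + 2)) (hδ : κ * (1 / 2 - 1 / p) < δ) : BRbdd δ (ENNReal.ofReal p) := by
  rcases eq_or_lt_of_le h2 with rfl | h2'
  · have : 0 ≤ δ := by norm_num at hδ; exact hδ.le
    simpa using hL2 δ this
  · have h1 := brb hREF hLOC hBER hKIN hKINB hCH hSUP hκ hNp hGEO h2' hp
    have h3 : 0 ≤ κ * (p - 2) / 2 := by
      have : 0 ≤ κ * (p - 2) := mul_nonneg hκ (by linarith)
      linarith
    have h4 := hRST p _ h2' h3 h1
    refine hTOP p _ h2' (by positivity) h4 δ (lt_of_le_of_lt (le_of_eq ?_) hδ)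
    field_simp

/-- the order at `p` and at the dual exponent -/
theorem br_both (hREF : StREF3) (hLOC : StLOC3) (hBER : StBER3) (hKIN : StKIN3) (hKINB : StKINB) (hCH : StCH3) (hSUP : StSUP3)
    (hRST : StRST) (hTOP : StTOP3) (hL2 : StL2) (hDUAL : StDUAL3) {κ Np : ℝ} (hκ : 0 ≤ κ) (hNp : 0 ≤ Np) (hGEO : StGEO3 κ Np) (p δ : ℝ)
    (h1 : 1 < p) (hp : |1 / p - 1 / 2| ≤ 1 / (2 * (Np + 3))) (hδ : κ * |1 / p - 1 / 2| < δ) : BRbdd δ (ENNReal.ofReal p) := by
  -- `p ≥ 2`
  have key : ∀ q : ℝ, 2 ≤ q → 1 / 2 - 1 / q ≤ 1 / (2 * (Np + 3)) → q ≤ 2 + 2 / (Np + 2) := by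
    intro q hq hh
    have hq0 : 0 < q := by linarith
    have h3 : (Np + 2) / (2 * (Np + 3)) ≤ 1 / q := by
      have e : (Np + 2) / (2 * (Np + 3)) = 1 / 2 - 1 / (2 * (Np + 3)) := by
        field_simp
        ring
      rw [e]; linarith
    have h4 : q ≤ 2 * (Np + 3) / (Np + 2) := by
      rw [div_le_div_iff₀ (by positivity) hq0] at h3
      rw [le_div_iff₀ (by positivity)]
      linarith
    refine h4.trans (le_of_eq ?_)
    field_simp
    ring
  have hδ0 : 0 < δ := lt_of_le_of_lt (mul_nonneg hκ (abs_nonneg _)) hδ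
  rcases le_total 2 p with h2 | h2
  · have e : |1 / p - 1 / 2| = 1 / 2 - 1 / p := by
      rw [abs_of_nonpos]
      · ring
      · have : 1 / p ≤ 1 / 2 := one_div_le_one_div_of_le (by norm_num) h2
        linarith
    rw [e] at hp hδ
    exact br_ge_two hREF hLOC hBER hKIN hKINB hCH hSUP hRST hTOP hL2 hκ hNp hGEO p δ h2 (key p h2 hp) hδ
  · -- dual exponent
    set q : ℝ := p / (p - 1) with hq
    have hp1 : 0 < p - 1 := by linarith
    have hq2 : 2 ≤ q := by
      rw [hq, le_div_iff₀ hp1]; linarith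
    have e1 : 1 / p + 1 / q = 1 := by
      rw [hq]
      field_simp
      ring
    have e : |1 / p - 1 / 2| = 1 / 2 - 1 / q := by
      have e2 : 1 / q = 1 - 1 / p := by linarith
      rw [e2, abs_of_nonneg]
      · ring
      · have : 1 / 2 ≤ 1 / p := one_div_le_one_div_of_le (by linarith) h2
        linarith
    rw [e] at hp hδ
    have h5 := br_ge_two hREF hLOC hBER hKIN hKINB hCH hSUP hRST hTOP hL2 hκ hNp hGEO q δ hq2 (key q hq2 hp) hδ
    exact hDUAL q p δ (by linarith) h1 (by linarith) hδ0 h5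

end Vale.Agent.P117.K.Asm
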