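import Vale.Agent.P117.K.RstC
import Vale.Agent.P117.K.Defs

/-! # The block [RST]: kernel bound for the localised Bochner-Riesz operators, restricted to strong type -/

open MeasureTheory Complex Set Filter
open scoped ENNReal NNReal Topology ContDiff FourierTransform SchwartzMap

set_option linter.all false

namespace Vale.Agent.P117.Rst

open Vale.Agent.P117 (Adm cv enorm_cv_le young_lintegral E3 DB fourier_decay cv_schwartz_eq)
open Vale.Agent.P117.K (Prf Cut SR Ad1 StBRb StBRp StRST xist)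

theorem norm_xist : ‖xist‖ = 1 := by
  rw [EuclideanSpace.norm_eq, Fin.sum_univ_three]
  have h0 : xist 0 = 4/9 := rfl
  have h1 : xist 1 = 4/9 := rfl
  have h2 : xist 2 = 7/9 := rfl
  rw [h0, h1, h2, Real.norm_eq_abs, Real.norm_eq_abs, sq_abs, sq_abs, Real.sqrt_eq_one]
  norm_num

theorem mult_smooth {c1 : ℝ} {φ : ℝ → ℂ} {χ : E3 → ℂ} (hφ : Prf c1 φ) (hχ : Cut c1 χ) (R : ℝ) :
    ContDiff ℝ ∞ (K.mult φ χ R) := by
  have h1 : ContDiff ℝ ∞ (fun ξ : E3 => R * (‖ξ‖ ^ 2 - 1)) :=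
    contDiff_const.mul ((contDiff_norm_sq ℝ).sub contDiff_const)
  exact (hφ.smooth.comp h1).mul hχ.smooth

theorem mult_supp {c1 : ℝ} {φ : ℝ → ℂ} {χ : E3 → ℂ} (hχ : Cut c1 χ) {R : ℝ} {ξ : E3} (h : K.mult φ χ R ξ ≠ 0) :
    ‖ξ‖ ≤ 1 + c1 := by
  have h1 : χ ξ ≠ 0 := right_ne_zero_of_mul h
  have h2 := hχ.supp ξ h1
  calc ‖ξ‖ = ‖(ξ - xist) + xist‖ := by rw [sub_add_cancel]
    _ ≤ ‖ξ - xist‖ + ‖xist‖ := norm_add_le _ _
    _ ≤ _ := by rw [norm_xist]; linarith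

theorem hcs_of_supp {f : E3 → ℂ} {r : ℝ} (h : ∀ x, f x ≠ 0 → ‖x‖ ≤ r) : HasCompactSupport f := by
  apply HasCompactSupport.of_support_subset_isCompact (isCompact_closedBall (0:E3) r)
  intro x hx
  rw [mem_closedBall_zero_iff]
  exact h x hx

theorem norm_sq_DB (n : ℕ) (r : ℝ) : ∃ C : ℝ, 1 ≤ C ∧ ∀ x : E3, ‖x‖ ≤ r → DB n C (fun y : E3 => ‖y‖ ^ 2 - 1) x := by
  have hK : IsCompact ((Metric.closedBall (0:E3) r) ×ˢ ({0} : Set ℝ)) := (isCompact_closedBall _ _).prod isCompact_singleton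
  have hΨ : ContDiff ℝ ∞ (fun z : E3 × ℝ => ‖z.1‖ ^ 2 - 1) :=
    ((contDiff_norm_sq ℝ).comp contDiff_fst).sub contDiff_const
  obtain ⟨C, hC, h⟩ := DB.of_param hK hΨ n
  exact ⟨C, hC, fun x hx => h x 0 ⟨by simpa using hx, rfl⟩⟩

theorem DB_smul {n : ℕ} {C R : ℝ} (hR : 0 ≤ R) {f : E3 → ℝ} {x : E3} (hf : ContDiff ℝ ∞ f) (h : DB n C f x) :
    DB n (R * C) (fun y => R * f y) x := by
  intro i hi
  have e : (fun y => R * f y) = fun y => R • f y := by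
    ext y
    rw [smul_eq_mul]
  rw [e, iteratedFDeriv_const_smul_apply' ((hf.of_le (by exact_mod_cast le_top)).contDiffAt), norm_smul, Real.norm_of_nonneg hR]
  gcongr
  exact h i hi

/-- derivative bounds for the multiplier -/
theorem mult_DB (n : ℕ) {c1 : ℝ} {φ : ℝ → ℂ} {χ : E3 → ℂ} (hφ : Prf c1 φ) (hχ : Cut c1 χ) :
    ∃ C : ℝ, 0 ≤ C ∧ ∀ R : ℝ, 1 ≤ R → ∀ x : E3, ‖x‖ ≤ 1 + c1 → DB n (C * R ^ n) (K.mult φ χ R) x := by
  have hsφ : HasCompactSupport φ := by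
    apply HasCompactSupport.of_support_subset_isCompact (isCompact_Icc (a := -c1) (b := c1))
    intro t ht
    exact abs_le.1 (hφ.supp t ht)
  obtain ⟨A, hA, hAφ⟩ := DB.exists_of_compact hφ.smooth hsφ n
  obtain ⟨C1, hC1, h1⟩ := norm_sq_DB n (1 + c1)
  have hχc : HasCompactSupport χ := by
    apply hcs_of_supp (r := 1 + c1)
    intro ξ h
    calc ‖ξ‖ = ‖(ξ - xist) + xist‖ := by rw [sub_add_cancel]
      _ ≤ ‖ξ - xist‖ + ‖xist‖ := norm_add_le _ _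
      _ ≤ _ := by
          rw [norm_xist]
          have := hχ.supp ξ h
          linarith
  obtain ⟨Cχ, hCχ, hχD⟩ : ∃ C : ℝ, 0 ≤ C ∧ ∀ x, DB n C χ x := by
    have hb : ∀ i : ℕ, ∃ C : ℝ, ∀ t, ‖iteratedFDeriv ℝ i χ t‖ ≤ C := by
      intro i
      have hc : Continuous (iteratedFDeriv ℝ i χ) := hχ.smooth.continuous_iteratedFDeriv
        (by exact_mod_cast le_top)
      exact (hχc.iteratedFDeriv i).exists_bound_of_continuous hc
    choose C hC using hb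
    refine ⟨∑ i ∈ Finset.range (n + 1), |C i|, Finset.sum_nonneg fun i _ => abs_nonneg _, ?_⟩
    intro t i hi
    refine ((hC i t).trans (le_abs_self _)).trans ?_
    exact Finset.single_le_sum (f := fun i => |C i|) (fun _ _ => abs_nonneg _) (Finset.mem_range.2 (by omega))
  refine ⟨2 ^ n * (n.factorial * A * C1 ^ n) * Cχ, by positivity, ?_⟩
  intro R hR x hx
  have hR0 : 0 ≤ R := by linarith
  have hsq : ContDiff ℝ ∞ (fun ξ : E3 => ‖ξ‖ ^ 2 - 1) := (contDiff_norm_sq ℝ).sub contDiff_const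
  have h2 : DB n (R * C1) (fun ξ : E3 => R * (‖ξ‖ ^ 2 - 1)) x := DB_smul hR0 hsq (h1 x hx)
  have h3 : ContDiff ℝ ∞ (fun ξ : E3 => R * (‖ξ‖ ^ 2 - 1)) := contDiff_const.mul hsq
  have h4 := DB.comp hφ.smooth h3 (hAφ _) h2 (by nlinarith)
  have h5 := DB.mul (hφ.smooth.comp h3) hχ.smooth h4 (hχD x)
  refine h5.mono (le_of_eq ?_)
  rw [mul_pow]
  ring

/-- kernel bound -/
theorem ker_bd (n : ℕ) {c1 : ℝ} (hc1 : 0 < c1) {φ : ℝ → ℂ} {χ : E3 → ℂ} (hφ : Prf c1 φ) (hχ : Cut c1 χ) :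
    ∃ C : ℝ, 0 ≤ C ∧ ∀ R : ℝ, 1 ≤ R → ∀ x : E3, ‖𝓕⁻ (K.mult φ χ R) x‖ ≤ C * ((1 + ‖x‖ / R) ^ n)⁻¹ := by
  obtain ⟨C0, hC0, h0⟩ := mult_DB 0 hφ hχ
  obtain ⟨Cn, hCn, hn⟩ := mult_DB n hφ hχ
  obtain ⟨F0, hF0, hf0⟩ := fourier_decay (V := E3) 0 (1 + c1)
  obtain ⟨Fn, hFn, hfn⟩ := fourier_decay (V := E3) n (1 + c1)
  refine ⟨2 ^ n * (F0 * C0 + Fn * Cn), by positivity, ?_⟩
  intro R hR x
  have hR0 : 0 < R := by linarith
  have e1 : 𝓕⁻ (K.mult φ χ R) x = 𝓕 (K.mult φ χ R) (-x) := Real.fourierInv_eq_fourier_neg _ _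
  have hs : ∀ ξ, K.mult φ χ R ξ ≠ 0 → ‖ξ‖ ≤ 1 + c1 := fun ξ h => mult_supp hχ h
  have k0 := hf0 (K.mult φ χ R) (C0 * R ^ 0) (mult_smooth hφ hχ R) hs (h0 R hR) (by positivity) (-x)
  have kn := hfn (K.mult φ χ R) (Cn * R ^ n) (mult_smooth hφ hχ R) hs (hn R hR) (by positivity) (-x)
  rw [pow_zero, one_mul, pow_zero, mul_one] at k0
  rw [norm_neg] at kn
  rw [e1]
  set k := ‖𝓕 (K.mult φ χ R) (-x)‖ with hk
  have hk0 : 0 ≤ k := norm_nonneg _
  rw [← div_eq_mul_inv, le_div_iff₀ (by positivity)]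
  rcases le_total ‖x‖ R with h | h
  · have h1 : (1 + ‖x‖ / R) ^ n ≤ 2 ^ n := by
      gcongr
      have : ‖x‖ / R ≤ 1 := by rw [div_le_one hR0]; exact h
      linarith
    calc k * (1 + ‖x‖ / R) ^ n ≤ (F0 * C0) * 2 ^ n := by gcongr
      _ ≤ _ := by nlinarith [mul_nonneg hFn hCn, pow_pos (show (0:ℝ) < 2 by norm_num) n]
  · have h1 : (1 + ‖x‖ / R) ≤ 2 * ((1 + ‖x‖) / R) := by
      have : 1 ≤ ‖x‖ / R := by rw [le_div_iff₀ hR0]; linarith
      have h2 : (1 + ‖x‖) / R = 1 / R + ‖x‖ / R := by ring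
      have h3 : 0 ≤ 1 / R := by positivity
      rw [h2]
      linarith
    calc k * (1 + ‖x‖ / R) ^ n ≤ k * (2 * ((1 + ‖x‖) / R)) ^ n := by gcongr
      _ = 2 ^ n * ((1 + ‖x‖) ^ n * k) / R ^ n := by rw [mul_pow, div_pow]; ring
      _ ≤ 2 ^ n * (Fn * (Cn * R ^ n)) / R ^ n := by gcongr
      _ = 2 ^ n * (Fn * Cn) := by
          have : R ^ n ≠ 0 := by positivity
          field_simp
      _ ≤ _ := by nlinarith [mul_nonneg hF0 hC0, pow_pos (show (0:ℝ) < 2 by norm_num) n]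

/-- the operator is a convolution -/
theorem SR_eq_cv {c1 : ℝ} {φ : ℝ → ℂ} {χ : E3 → ℂ} (hφ : Prf c1 φ) (hχ : Cut c1 χ) (R : ℝ) {f : E3 → ℂ}
    (hf : Integrable f) : SR φ χ R f = cv (𝓕⁻ (K.mult φ χ R)) f := by
  have hcs : HasCompactSupport (K.mult φ χ R) := hcs_of_supp (r := 1 + c1) fun ξ h => mult_supp hχ h
  set m : 𝓢(E3, ℂ) := hcs.toSchwartzMap (mult_smooth hφ hχ R) with hm
  have h1 := cv_schwartz_eq m hf
  have h2 : (m : E3 → ℂ) = K.mult φ χ R := rfl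
  rw [SchwartzMap.fourierInv_coe, h2] at h1
  unfold SR
  exact h1.symm

theorem stRST : StRST := by
  intro p A hp hA hb ε hε
  have hp1 : 1 < p := by linarith
  have hp0 : 0 < p := by linarith
  set ε2 := p * ε / 2 with hε2
  have hε20 : 0 < ε2 := by positivity
  obtain ⟨c1, hc1, hbb⟩ := hb ε2 hε20
  refine ⟨c1, hc1, ?_⟩
  intro φ χ hφ hχ
  obtain ⟨C, hC, hCb⟩ := hbb φ χ hφ hχ
  obtain ⟨δ, M, hδ, hr⟩ := rst p hp1 0 ε2 0 hε20
  obtain ⟨CM, hCM, hker⟩ := ker_bd M hc1 hφ hχ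
  obtain ⟨C', hC', hr'⟩ := hr CM hCM
  refine ⟨(C' * (C + 1)) ^ (1 / p), by positivity, ?_⟩
  intro R f hR hfa
  have hR0 : 0 < R := by linarith
  have hcs : HasCompactSupport (K.mult φ χ R) := hcs_of_supp (r := 1 + c1) fun ξ h => mult_supp hχ h
  set m : 𝓢(E3, ℂ) := hcs.toSchwartzMap (mult_smooth hφ hχ R) with hm
  have hKm : Measurable (𝓕⁻ (K.mult φ χ R)) := by
    have h2 : (m : E3 → ℂ) = K.mult φ χ R := rfl
    rw [← h2, ← SchwartzMap.fourierInv_coe]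
    exact (𝓕⁻ m : 𝓢(E3, ℂ)).continuous.measurable
  have hloc : LocR p R (2 * R ^ (1 + δ)) (ENNReal.ofReal (C * R ^ (A + ε2))) (𝓕⁻ (K.mult φ χ R)) := by
    intro g E hg hE hEs hgE
    have hEv : volume E < ⊤ := lt_of_le_of_lt (measure_mono hEs) measure_ball_lt_top
    have hg1 : ∀ x, ‖g x‖ ≤ 1 := by
      intro x
      refine (hgE x).trans ?_
      by_cases hx : x ∈ E
      · rw [indicator_of_mem hx]
      · rw [indicator_of_notMem hx]; norm_num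
    have hgi : Integrable g := by
      have h1 : Integrable (E.indicator (fun _ => (1:ℝ))) :=
        (integrable_indicator_iff hE).2 (integrableOn_const hEv.ne)
      exact h1.mono' hg.aestronglyMeasurable (Eventually.of_forall hgE)
    have h1 := hCb R g hR ⟨hg, hgi, hg1⟩
    rw [← SR_eq_cv hφ hχ R hgi]
    calc ∫⁻ x in Metric.ball (0:E3) R, ‖SR φ χ R g x‖ₑ ^ p ≤ ∫⁻ x, ‖SR φ χ R g x‖ₑ ^ p := setLIntegral_le_lintegral _ _
      _ ≤ _ := h1
      _ ≤ _ := by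
          gcongr
          rw [← setLIntegral_one, ← lintegral_indicator hE]
          apply lintegral_mono
          intro x
          have h2 := hgE x
          by_cases hx : x ∈ E
          · simp only
            rw [indicator_of_mem hx, ← ofReal_norm, ← ENNReal.ofReal_pow (norm_nonneg _), ← ENNReal.ofReal_one]
            apply ENNReal.ofReal_le_ofReal
            have h3 := hg1 x
            have h4 := norm_nonneg (g x)
            nlinarith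
          · rw [indicator_of_notMem hx] at h2
            have h3 : ‖g x‖ = 0 := le_antisymm h2 (norm_nonneg _)
            simp only
            rw [indicator_of_notMem hx, ← ofReal_norm, h3]
            simp
  have hfA : Adm volume f := ⟨hfa.meas, hfa.int, hfa.bdd⟩
  have h1 := hr' R (𝓕⁻ (K.mult φ χ R)) (ENNReal.ofReal (C * R ^ (A + ε2))) hR hKm (by
    intro x
    rw [Real.rpow_zero, mul_one]
    exact hker R hR x) hloc f hfA
  rw [← SR_eq_cv hφ hχ R hfA.int] at h1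
  have hp1' : ENNReal.ofReal p ≠ 0 := by
    rw [ne_eq, ENNReal.ofReal_eq_zero, not_le]
    exact hp0
  rw [eLpNorm_eq_lintegral_rpow_enorm_toReal hp1' ENNReal.ofReal_ne_top,
    eLpNorm_eq_lintegral_rpow_enorm_toReal hp1' ENNReal.ofReal_ne_top, ENNReal.toReal_ofReal hp0.le]
  have h2 : ENNReal.ofReal (C' * R ^ ε2) * (ENNReal.ofReal (C * R ^ (A + ε2)) + ENNReal.ofReal (R ^ (-(0:ℝ)))) ≤
      ENNReal.ofReal (C' * (C + 1) * R ^ (A + p * ε)) := by
    rw [← ENNReal.ofReal_add (by positivity) (by positivity), ← ENNReal.ofReal_mul (by positivity)]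
    apply ENNReal.ofReal_le_ofReal
    have h3 : R ^ (-(0:ℝ)) ≤ R ^ (A + ε2) := Real.rpow_le_rpow_of_exponent_le hR (by rw [neg_zero]; positivity)
    calc C' * R ^ ε2 * (C * R ^ (A + ε2) + R ^ (-(0:ℝ))) ≤ C' * R ^ ε2 * (C * R ^ (A + ε2) + R ^ (A + ε2)) := by gcongr
      _ = C' * (C + 1) * (R ^ ε2 * R ^ (A + ε2)) := by ring
      _ = _ := by
          rw [← Real.rpow_add hR0]
          congr 2
          rw [hε2]
          ring
  calc (∫⁻ x, ‖SR φ χ R f x‖ₑ ^ p) ^ (1 / p) ≤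
        (ENNReal.ofReal (C' * (C + 1) * R ^ (A + p * ε)) * ∫⁻ x, ‖f x‖ₑ ^ p) ^ (1 / p) := by
        gcongr
        exact h1.trans (mul_le_mul' h2 le_rfl)
    _ = ENNReal.ofReal ((C' * (C + 1)) ^ (1 / p) * R ^ (A / p + ε)) * (∫⁻ x, ‖f x‖ₑ ^ p) ^ (1 / p) := by
        rw [ENNReal.mul_rpow_of_nonneg _ _ (by positivity), ENNReal.ofReal_rpow_of_nonneg (by positivity) (by positivity),
          Real.mul_rpow (by positivity) (by positivity), ← Real.rpow_mul hR0.le]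
        congr 4
        field_simp

end Vale.Agent.P117.Rst
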