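import Vale.Agent.P117.KR.Fin
import Vale.Agent.P117.K.KINB
import Vale.Agent.P117.K.KinS
import Vale.Agent.P117.KC.Loc3
import Vale.Agent.P117.K.Ch5
import Vale.Agent.P117.K.RstD
import Vale.Agent.P117.K.RstE
import Vale.Agent.P117.K.TopK
import Vale.Agent.P117.K.KTC
import Vale.Agent.P117.K.MainE
import Vale.Agent.P117.K.BrX
import Vale.Agent.P117.K.GeoF
import Vale.Agent.P117.K.GeoQ
import Vale.Agent.P117.K.GeoG2

/-! # P117 / K : Bochner-Riesz in three dimensions near `L²` from the Kakeya theorems of P127 -/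

open MeasureTheory
open scoped ENNReal NNReal

set_option linter.all false

namespace Vale.Agent.P117.K

open Asm Geo Rst

/-- from a Kakeya estimate for Katz-Tao families with price `Np` and loss `2κ` -/
theorem br_of_KT {κ Np : ℝ} (hκ : 0 ≤ κ) (hNp : 0 ≤ Np) (h : StKT κ Np) {P : ℝ≥0∞} {δ : ℝ}
    (hP : |(1 / P).toReal - 1 / 2| ≤ 1 / (2 * (Np + 3))) (hδ0 : 0 < δ) (hδ : κ * |(1 / P).toReal - 1 / 2| < δ) :
    BRbdd δ P := by
  have hGEO : StGEO3 κ Np := stGEO3 stG2 stG3A hκ hNp h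
  set p0 : ℝ := 2 + 2 / (Np + 2) with hp0
  have h2 : 2 < p0 := by
    have : 0 < 2 / (Np + 2) := by positivity
    rw [hp0]; linarith
  have e1 : 1 / 2 - 1 / p0 = 1 / (2 * (Np + 3)) := by
    rw [hp0]
    field_simp
    ring
  have h3 := brb KR.stREF3 KC.stLOC3 KC.stBER3 stKIN3 KINB.stKINB stCH3 stSUP3 hκ hNp hGEO h2 le_rfl
  have h4 : 0 ≤ κ * (p0 - 2) / 2 := by
    have : 0 ≤ κ * (p0 - 2) := mul_nonneg hκ (by linarith)
    linarith
  have h5 := stRST p0 _ h2 h4 h3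
  have hP1 : 1 ≤ P := by
    have h6 : (1:ℝ) / (2 * (Np + 3)) ≤ 1 / 6 := one_div_le_one_div_of_le (by norm_num) (by linarith)
    have h7 := abs_le.1 (hP.trans h6)
    have h8 : (1 / P).toReal ≤ 1 := by linarith [h7.2]
    have h9 : 0 < (1 / P).toReal := by linarith [h7.1]
    have h10 : (1 / P) ≠ ⊤ := fun hh => by rw [hh] at h9; simp at h9
    have h11 : 1 / P ≤ 1 := by
      rw [← ENNReal.ofReal_toReal h10]
      exact ENNReal.ofReal_le_one.2 h8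
    rw [one_div] at h11
    exact ENNReal.inv_le_one.1 h11
  refine BRbdd_of_BRp h2 (by positivity) h5 hP1 (by rw [e1]; exact hP) hδ0 (lt_of_le_of_lt (le_of_eq ?_) hδ)
  have h12 : 1 / 2 - 1 / p0 ≠ 0 := by rw [e1]; positivity
  have h13 : κ * (p0 - 2) / 2 / p0 = κ * (1 / 2 - 1 / p0) := by
    field_simp
  rw [h13]
  have h14 : ∀ u v w : ℝ, w ≠ 0 → u * w * (v / w) = u * v := by
    intro u v w hw
    field_simp
  exact h14 _ _ _ h12

/-- **from the unshaded theorem**: the order of `T_δ` near `L²` is `o(|1/p - 1/2|)` -/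
theorem br_of_JU (h : Vale.Agent.P127.U.JU 0) {η : ℝ} (hη : 0 < η) : ∃ c : ℝ, 0 < c ∧ ∀ (P : ℝ≥0∞) (δ : ℝ),
    |(1 / P).toReal - 1 / 2| ≤ c → 0 < δ → η * |(1 / P).toReal - 1 / 2| < δ → BRbdd δ P := by
  obtain ⟨Np, hNp, hKT⟩ := stKTUN (stKTU_of_JU h) η hη
  exact ⟨1 / (2 * (Np + 3)), by positivity, fun P δ hP hδ0 hδ => br_of_KT hη.le hNp hKT hP hδ0 hδ⟩

/-- **from the theorem with shading price `N`**: all orders `δ > 0` for `|1/p - 1/2| ≤ 1/(2(N+3))` -/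
theorem br_of_JS {N : ℝ} (hN : 0 ≤ N) (h : Vale.Agent.P127.U.JS N 0) (P : ℝ≥0∞) (δ : ℝ)
    (hP : |(1 / P).toReal - 1 / 2| ≤ 1 / (2 * (N + 3))) (hδ0 : 0 < δ) : BRbdd δ P :=
  br_of_KT le_rfl hN (stKT_of_JS hN h) hP hδ0 (by rw [zero_mul]; exact hδ0)

/-- from the finite inequality with price `N` and rate `β` -/
theorem br_of_JF {N β : ℝ} (hN : 0 ≤ N) (hβ : 0 ≤ β) (h : Vale.Agent.P127.U.JF N β) (P : ℝ≥0∞) (δ : ℝ)
    (hP : |(1 / P).toReal - 1 / 2| ≤ 1 / (2 * (N + 3))) (hδ0 : 0 < δ) (hδ : β / 2 * |(1 / P).toReal - 1 / 2| < δ) : BRbdd δ P :=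
  br_of_KT (by positivity) hN (stKT_of_JF h) hP hδ0 hδ

end Vale.Agent.P117.K
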