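import Vale.Agent.P117.K.Final

/-! # P117 / K : all positive orders for `|1/p - 1/2| ≤ 1/10` from the inequality with price `2` -/

open MeasureTheory
open scoped ENNReal NNReal

namespace Vale.Agent.P117.K

theorem br_of_JF2 (h : ∀ b : ℝ, 0 < b → Vale.Agent.P127.U.JF 2 b) (P : ℝ≥0∞) (δ : ℝ)
    (hP : |(1 / P).toReal - 1 / 2| ≤ 1 / 10) (hδ0 : 0 < δ) : BRbdd δ P := by
  refine br_of_JF (N := 2) (β := δ) (by norm_num) hδ0.le (h δ hδ0) P δ (hP.trans (by norm_num)) hδ0 ?_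
  have h1 : |(1 / P).toReal - 1 / 2| ≤ 1 := hP.trans (by norm_num)
  have h2 : δ / 2 * |(1 / P).toReal - 1 / 2| ≤ δ / 2 * 1 := mul_le_mul_of_nonneg_left h1 (by positivity)
  linarith

end Vale.Agent.P117.K
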