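import Vale.Agent.P117.K.GeoA

/-!
# P117 / K : block GEO3, cells of side `N`
-/

namespace Vale.Agent.P117.K.Geo

open Finset MeasureTheory
open scoped ENNReal

/-- the cell with lateral index `P` and time index `2 ^ L j + t` -/
def cell (L N : ℕ) (j : ℤ) (P : Fin 2 → ℤ) (t : ℕ) : Set E3 :=
  {z | (⌊z 0 / N⌋ = P 0 ∧ ⌊z 1 / N⌋ = P 1) ∧ ⌊z 2 / N⌋ = 2 ^ L * j + t}

/-- base point with integer coordinate `a` in the slab `j` -/
noncomputable def bpt (L N : ℕ) (j : ℤ) (a : Fin 2 → ℤ) : E3 :=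
  !₂[(N:ℝ) * a 0, (N:ℝ) * a 1, (N:ℝ) * (2 ^ L * j)]

/-- weight of the line `l` in the slab `j` and the lateral block `c` -/
noncomputable def wgt (ν : ℤ × ℤ → E3 → ℝ≥0∞) (L N : ℕ) (j : ℤ) (c : Fin 2 → ℤ) (l : LI) : ℝ≥0∞ :=
  ∑ k ∈ Gk N with yk L N k = l.2, ν k (bpt L N j (fun i => 2 ^ L * c i + l.1 i))

/-- [G2] the weights of the lines are Katz-Tao -/
def StG2 : Prop := ∀ M : ℕ, ∃ C : ℝ, 1 ≤ C ∧
  ∀ (N L : ℕ) (A : ℝ) (ν : ℤ × ℤ → E3 → ℝ≥0∞), 1 ≤ N → N ≤ 2 ^ L → 2 ^ L ≤ 2 * N → 0 ≤ A →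
    (∀ k, Measurable (ν k)) →
    (∀ k x y, ν k x ≤ ENNReal.ofReal ((1 + gam N k (x - y)) ^ M) * ν k y) →
    KTd N A ν → ∀ (j : ℤ) (c : Fin 2 → ℤ) (a b w1 w2 : ℝ) (x0 y0 : Fin 2 → ℝ),
    a ^ 2 + b ^ 2 = 1 → 1 ≤ w1 → w1 ≤ w2 →
    ∀ T' : Finset LI, (∀ l ∈ T', inP a b w1 w2 x0 y0 l) →
    ∑ l ∈ T', wgt ν L N j c l ≤ ENNReal.ofReal (C * A * (w1 * w2))

section cells

variable {L N : ℕ} {j : ℤ} {P : Fin 2 → ℤ} {t : ℕ} {z : E3} {k : ℤ × ℤ}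

lemma measurable_coord (i : Fin 3) : Measurable (fun z : E3 => z i) :=
  (measurable_pi_apply i).comp (WithLp.measurable_ofLp 2 _)

lemma measurableSet_cell : MeasurableSet (cell L N j P t) := by
  have h : ∀ (i : Fin 3) (m : ℤ), MeasurableSet {z : E3 | ⌊z i / N⌋ = m} := fun i m =>
    ((measurable_coord i).div_const _).floor (measurableSet_singleton m)
  exact ((h 0 _).inter (h 1 _)).inter (h 2 _)

lemma cell_bds (hN : 1 ≤ N) (hz : z ∈ cell L N j P t) :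
    ((N:ℝ) * P 0 ≤ z 0 ∧ z 0 < N * P 0 + N) ∧ ((N:ℝ) * P 1 ≤ z 1 ∧ z 1 < N * P 1 + N) ∧
    ((N:ℝ) * (2 ^ L * j + t) ≤ z 2 ∧ z 2 < N * (2 ^ L * j + t) + N) := by
  have hN0 : (0:ℝ) < N := by exact_mod_cast hN
  obtain ⟨⟨h0, h1⟩, h2⟩ := hz
  have key : ∀ (x : ℝ) (m : ℤ), ⌊x / N⌋ = m → (N:ℝ) * m ≤ x ∧ x < N * m + N := by
    intro x m h
    rw [Int.floor_eq_iff] at h
    obtain ⟨h3, h4⟩ := h
    rw [le_div_iff₀ hN0] at h3
    rw [div_lt_iff₀ hN0] at h4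
    constructor <;> linarith
  have e0 := key _ _ h0
  have e1 := key _ _ h1
  have e2 := key _ _ h2
  push_cast at e2
  exact ⟨e0, e1, e2⟩

/-- in a cell, all points are close to the line with base point `P - ⌊t y / 2 ^ L⌋` -/
lemma gam_cell (hN : 1 ≤ N) (hL2 : 2 ^ L ≤ 2 * N) (ht : t < 2 ^ L)
    (hk : k ∈ Gk N) (hz : z ∈ cell L N j P t) :
    gam N k (z - bpt L N j (fun i => P i - t * yk L N k i / 2 ^ L)) ≤ 15 := by
  have hN0 : (0:ℝ) < N := by exact_mod_cast hN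
  have hp : (0:ℝ) < 2 ^ L := by positivity
  obtain ⟨h0, h1, h2⟩ := cell_bds hN hz
  have htL : (t:ℝ) < 2 ^ L := by exact_mod_cast ht
  have hL2' : (2:ℝ) ^ L ≤ 2 * N := by exact_mod_cast hL2
  have ht0 : (0:ℝ) ≤ t := Nat.cast_nonneg t
  -- the floor
  have hfl : ∀ i, (t:ℝ) * sk N k i - 2 ≤ ((t * yk L N k i / 2 ^ L : ℤ) : ℝ) ∧
      ((t * yk L N k i / 2 ^ L : ℤ) : ℝ) ≤ t * sk N k i := by
    intro i
    have hy1 : (yk L N k i : ℝ) ≤ 2 ^ L * sk N k i := Int.floor_le _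
    have hy2 : (2:ℝ) ^ L * sk N k i - 1 < yk L N k i := Int.sub_one_lt_floor _
    have e1 : (2 ^ L : ℤ) * (t * yk L N k i / 2 ^ L) ≤ t * yk L N k i :=
      Int.mul_ediv_self_le (by positivity)
    have e2 : t * yk L N k i < (2 ^ L : ℤ) * (t * yk L N k i / 2 ^ L) + 2 ^ L :=
      Int.lt_mul_ediv_self_add (by positivity)
    have e1' : (2:ℝ) ^ L * ((t * yk L N k i / 2 ^ L : ℤ) : ℝ) ≤ t * yk L N k i := by exact_mod_cast e1
    have e2' : (t:ℝ) * yk L N k i < 2 ^ L * ((t * yk L N k i / 2 ^ L : ℤ) : ℝ) + 2 ^ L := by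
      exact_mod_cast e2
    constructor
    · have h3 : (2:ℝ) ^ L * (t * sk N k i - 2) ≤ 2 ^ L * ((t * yk L N k i / 2 ^ L : ℤ) : ℝ) := by
        have h4 : (t:ℝ) * (2 ^ L * sk N k i - 1) ≤ t * yk L N k i :=
          mul_le_mul_of_nonneg_left hy2.le ht0
        nlinarith
      exact le_of_mul_le_mul_left h3 hp
    · have h3 : (2:ℝ) ^ L * ((t * yk L N k i / 2 ^ L : ℤ) : ℝ) ≤ 2 ^ L * (t * sk N k i) := by
        have h4 : (t:ℝ) * yk L N k i ≤ t * (2 ^ L * sk N k i) := mul_le_mul_of_nonneg_left hy1 ht0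
        nlinarith
      exact le_of_mul_le_mul_left h3 hp
  have h3 := gam_le (r := 2) (s := N * t) hN hk (z - bpt L N j (fun i => P i - t * yk L N k i / 2 ^ L))
    (by positivity) (by nlinarith) (by norm_num)
    (by
      show |z 0 - (N:ℝ) * ((P 0 - t * yk L N k 0 / 2 ^ L : ℤ) : ℝ) - N * t * sk N k 0| ≤ 2 * N
      have h4 := hfl 0
      rw [Int.cast_sub]
      rw [abs_le]
      constructor <;> nlinarith [h0.1, h0.2, h4.1, h4.2])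
    (by
      show |z 1 - (N:ℝ) * ((P 1 - t * yk L N k 1 / 2 ^ L : ℤ) : ℝ) - N * t * sk N k 1| ≤ 2 * N
      have h4 := hfl 1
      rw [Int.cast_sub]
      rw [abs_le]
      constructor <;> nlinarith [h1.1, h1.2, h4.1, h4.2])
    (by
      show |z 2 - (N:ℝ) * (2 ^ L * j) - N * t| ≤ 2 * N
      rw [abs_le]
      constructor <;> nlinarith [h2.1, h2.2])
  linarith

/-- the volume of a cell -/
lemma volume_cell (hN : 1 ≤ N) : volume (cell L N j P t) = ENNReal.ofReal ((N:ℝ) ^ 3) := by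
  have hN0 : (0:ℝ) < N := by exact_mod_cast hN
  set lo : Fin 3 → ℝ := ![(N:ℝ) * P 0, (N:ℝ) * P 1, (N:ℝ) * (2 ^ L * j + t)] with hlo
  have hset : cell L N j P t = (@WithLp.ofLp 2 (Fin 3 → ℝ)) ⁻¹'
      (Set.pi Set.univ fun i => Set.Ico (lo i) (lo i + N)) := by
    ext z
    rw [Set.mem_preimage, Set.mem_univ_pi]
    have key : ∀ (x : ℝ) (m : ℤ), ⌊x / N⌋ = m ↔ (N:ℝ) * m ≤ x ∧ x < N * m + N := by
      intro x m
      rw [Int.floor_eq_iff, le_div_iff₀ hN0, div_lt_iff₀ hN0]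
      constructor
      · rintro ⟨h3, h4⟩
        constructor <;> linarith
      · rintro ⟨h3, h4⟩
        constructor <;> linarith
    constructor
    · rintro hz i
      obtain ⟨h0, h1, h2⟩ := cell_bds hN hz
      fin_cases i
      · exact h0
      · exact h1
      · exact h2
    · intro h
      refine ⟨⟨(key _ _).2 (h 0), (key _ _).2 (h 1)⟩, (key _ _).2 ?_⟩
      have h2 := h 2
      push_cast
      exact h2
  rw [hset, (PiLp.volume_preserving_ofLp (Fin 3)).measure_preimage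
    (MeasurableSet.univ_pi fun i => measurableSet_Ico).nullMeasurableSet, Real.volume_pi_Ico]
  simp only [add_sub_cancel_left, prod_const, card_univ, Fintype.card_fin]
  rw [ENNReal.ofReal_pow hN0.le]

/-- cells are disjoint -/
lemma cell_inj {j' : ℤ} {P' : Fin 2 → ℤ} {t' : ℕ} (ht : t < 2 ^ L) (ht' : t' < 2 ^ L)
    (h : z ∈ cell L N j P t) (h' : z ∈ cell L N j' P' t') : j = j' ∧ P = P' ∧ t = t' := by
  obtain ⟨⟨h0, h1⟩, h2⟩ := h
  obtain ⟨⟨h0', h1'⟩, h2'⟩ := h'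
  have h3 : (2:ℤ) ^ L * j + t = 2 ^ L * j' + t' := by rw [← h2, ← h2']
  have hp : (0:ℤ) < 2 ^ L := by positivity
  have ht1 : (t:ℤ) < 2 ^ L := by exact_mod_cast ht
  have ht1' : (t':ℤ) < 2 ^ L := by exact_mod_cast ht'
  have h4 : j = j' := by
    have e1 : ((2:ℤ) ^ L * j + t) / 2 ^ L = j := by
      rw [Int.add_comm, Int.add_mul_ediv_left _ _ hp.ne', Int.ediv_eq_zero_of_lt (by positivity) ht1,
        zero_add]
    have e2 : ((2:ℤ) ^ L * j' + t') / 2 ^ L = j' := by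
      rw [Int.add_comm, Int.add_mul_ediv_left _ _ hp.ne', Int.ediv_eq_zero_of_lt (by positivity) ht1',
        zero_add]
    rw [← e1, ← e2, h3]
  refine ⟨h4, ?_, ?_⟩
  · funext i
    fin_cases i
    · exact h0.symm.trans h0'
    · exact h1.symm.trans h1'
  · rw [h4] at h3
    omega

/-- every point is in a cell -/
lemma exists_cell (z : E3) : ∃ j P t, t < 2 ^ L ∧ z ∈ cell L N j P t := by
  have hp : (0:ℤ) < 2 ^ L := by positivity
  set m : ℤ := ⌊z 2 / N⌋ with hm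
  have h1 : 0 ≤ m % 2 ^ L := Int.emod_nonneg _ hp.ne'
  have h2 : m % 2 ^ L < 2 ^ L := Int.emod_lt_of_pos _ hp
  refine ⟨m / 2 ^ L, ![⌊z 0 / N⌋, ⌊z 1 / N⌋], (m % 2 ^ L).toNat, ?_, ⟨rfl, rfl⟩, ?_⟩
  · have h3 : (((m % 2 ^ L).toNat : ℕ) : ℤ) < ((2 ^ L : ℕ) : ℤ) := by
      rw [Int.toNat_of_nonneg h1]
      push_cast
      exact h2
    exact_mod_cast h3
  · rw [Int.toNat_of_nonneg h1, ← hm]
    exact (Int.mul_ediv_add_emod m (2 ^ L)).symm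

end cells

/-- all lines of the box -/
noncomputable def TL (L : ℕ) : Finset LI :=
  (Fintype.piFinset fun _ : Fin 2 => Finset.Ico (0:ℤ) (2 ^ L)) ×ˢ
    (Fintype.piFinset fun _ : Fin 2 => Finset.Ico (0:ℤ) (2 ^ L))

lemma mem_TL {L : ℕ} {l : LI} :
    l ∈ TL L ↔ ∀ i, (0 ≤ l.1 i ∧ l.1 i < 2 ^ L) ∧ (0 ≤ l.2 i ∧ l.2 i < 2 ^ L) := by
  unfold TL
  rw [mem_product, Fintype.mem_piFinset, Fintype.mem_piFinset]
  simp only [Finset.mem_Ico]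
  exact ⟨fun h i => ⟨h.1 i, h.2 i⟩, fun h => ⟨fun i => (h i).1, fun i => (h i).2⟩⟩

/-- discrete sum at the cell `(j, P, t)` -/
noncomputable def SD (ν : ℤ × ℤ → E3 → ℝ≥0∞) (L N : ℕ) (j : ℤ) (P : Fin 2 → ℤ) (t : ℕ) : ℝ≥0∞ :=
  ∑ k ∈ Gk N, ν k (bpt L N j (fun i => P i - t * yk L N k i / 2 ^ L))

/-- discrete sum at the cell `(P, t)` of the lines of the lateral block `c` -/
noncomputable def SB (ν : ℤ × ℤ → E3 → ℝ≥0∞) (L N : ℕ) (j : ℤ) (c : Fin 2 → ℤ) (P : Fin 2 → ℤ)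
    (t : ℕ) : ℝ≥0∞ :=
  ∑ l ∈ TL L with pos L l t = P, wgt ν L N j c l

/-- [G3A] decomposition into lateral blocks -/
def StG3A : Prop := ∀ (ν : ℤ × ℤ → E3 → ℝ≥0∞) (L N : ℕ) (j : ℤ) (P : Fin 2 → ℤ) (t : ℕ), t < 2 ^ L →
  ∃ F : Finset (Fin 2 → ℤ), #F ≤ 4 ∧
    (∀ c ∉ F, SB ν L N j c (fun i => P i - 2 ^ L * c i) t = 0) ∧
    SD ν L N j P t = ∑ c ∈ F, SB ν L N j c (fun i => P i - 2 ^ L * c i) t

section cmp

variable {L N M : ℕ} {ν : ℤ × ℤ → E3 → ℝ≥0∞} {j : ℤ} {P : Fin 2 → ℤ} {t : ℕ} {z : E3}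

lemma cmp1 (hN : 1 ≤ N) (hL2 : 2 ^ L ≤ 2 * N) (ht : t < 2 ^ L)
    (hν : ∀ k x y, ν k x ≤ ENNReal.ofReal ((1 + gam N k (x - y)) ^ M) * ν k y)
    (hz : z ∈ cell L N j P t) : ∑ k ∈ Gk N, ν k z ≤ ENNReal.ofReal (16 ^ M) * SD ν L N j P t := by
  unfold SD
  rw [mul_sum]
  refine sum_le_sum fun k hk => ?_
  refine (hν k z (bpt L N j (fun i => P i - t * yk L N k i / 2 ^ L))).trans ?_
  gcongr
  · exact add_nonneg zero_le_one (gam_nonneg' _)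
  · have := gam_cell hN hL2 ht hk hz
    linarith

lemma cmp2 (hN : 1 ≤ N) (hL2 : 2 ^ L ≤ 2 * N) (ht : t < 2 ^ L)
    (hν : ∀ k x y, ν k x ≤ ENNReal.ofReal ((1 + gam N k (x - y)) ^ M) * ν k y)
    (hz : z ∈ cell L N j P t) : SD ν L N j P t ≤ ENNReal.ofReal (16 ^ M) * ∑ k ∈ Gk N, ν k z := by
  unfold SD
  rw [mul_sum]
  refine sum_le_sum fun k hk => ?_
  refine (hν k (bpt L N j (fun i => P i - t * yk L N k i / 2 ^ L)) z).trans ?_
  gcongr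
  · exact add_nonneg zero_le_one (gam_nonneg' _)
  · have := gam_cell hN hL2 ht hk hz
    rw [← gam_neg', neg_sub]
    linarith

end cmp

end Vale.Agent.P117.K.Geo
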