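import Vale.Agent.P117.K.GeoDefs

/-!
# P117 / K : block GEO3, the weighted discrete estimate (G1)
-/

namespace Vale.Agent.P117.K.Geo

open Finset Vale.Agent.P127 Vale.Agent.P127.Stk

/-- cardinality of the lines through a cell -/
lemma card_through_le {L : ℕ} {T : Finset LI}
    (hT : ∀ l ∈ T, ∀ i, (0 ≤ l.1 i ∧ l.1 i < 2 ^ L) ∧ (0 ≤ l.2 i ∧ l.2 i < 2 ^ L))
    (z : (Fin 2 → ℤ) × ℕ) : #{l ∈ T | pos L l z.2 = z.1} ≤ 2 ^ (2 * L) := by
  classical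
  have h1 : #{l ∈ T | pos L l z.2 = z.1} ≤
      #(Fintype.piFinset fun _ : Fin 2 => Finset.Ico (0:ℤ) (2 ^ L)) := by
    refine card_le_card_of_injOn (fun l => l.2) ?_ ?_
    · intro l hl
      rw [mem_coe, mem_filter] at hl
      rw [mem_coe, Fintype.mem_piFinset]
      intro i
      rw [mem_Ico]
      exact (hT l hl.1 i).2
    · intro l hl l' hl' h
      rw [mem_coe, mem_filter] at hl hl'
      have h2 : l.2 = l'.2 := h
      refine Prod.ext (funext fun i => ?_) h2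
      have h3 := congrFun hl.2 i
      have h4 := congrFun hl'.2 i
      unfold pos at h3 h4
      rw [← h4, h2] at h3
      linarith
  refine h1.trans (le_of_eq ?_)
  have h2 : ((2:ℤ) ^ L).toNat = 2 ^ L := by
    have h3 : ((2:ℤ) ^ L) = ((2 ^ L : ℕ) : ℤ) := by push_cast; rfl
    rw [h3, Int.toNat_natCast]
  rw [Fintype.card_piFinset]
  simp only [Int.card_Ico, sub_zero, prod_const, card_univ, Fintype.card_fin]
  rw [h2, ← pow_mul, mul_comm]

lemma Sd_nonneg {L : ℕ} {T : Finset LI} {w : LI → ℝ} (hw : ∀ l ∈ T, 0 ≤ w l ∧ w l ≤ 1)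
    (z : (Fin 2 → ℤ) × ℕ) : 0 ≤ Sd L T w z :=
  sum_nonneg fun l hl => (hw l (mem_filter.1 hl).1).1

lemma Sd_le {L : ℕ} {T : Finset LI} {w : LI → ℝ}
    (hT : ∀ l ∈ T, ∀ i, (0 ≤ l.1 i ∧ l.1 i < 2 ^ L) ∧ (0 ≤ l.2 i ∧ l.2 i < 2 ^ L))
    {c : ℝ} (hw : ∀ l ∈ T, w l ≤ c) (hc : 0 ≤ c)
    (z : (Fin 2 → ℤ) × ℕ) : Sd L T w z ≤ 2 ^ (2 * L) * c := by
  have h1 : Sd L T w z ≤ ∑ l ∈ T with pos L l z.2 = z.1, c :=
    sum_le_sum fun l hl => hw l (mem_filter.1 hl).1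
  refine h1.trans ?_
  rw [sum_const, nsmul_eq_mul]
  have h2 := card_through_le hT z
  have h3 : (#{l ∈ T | pos L l z.2 = z.1} : ℝ) ≤ 2 ^ (2 * L) := by exact_mod_cast h2
  exact mul_le_mul_of_nonneg_right h3 hc

/-- each line has at most `2 ^ L` positions -/
lemma sum_Sd_le {L : ℕ} {T : Finset LI} {w : LI → ℝ} (hw : ∀ l ∈ T, 0 ≤ w l)
    {X : Finset ((Fin 2 → ℤ) × ℕ)} (hX : ∀ z ∈ X, z.2 < 2 ^ L) :
    ∑ z ∈ X, Sd L T w z ≤ 2 ^ L * ∑ l ∈ T, w l := by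
  classical
  unfold Sd
  simp_rw [sum_filter]
  rw [sum_comm, mul_sum]
  refine sum_le_sum fun l hl => ?_
  rw [← sum_filter, sum_const, nsmul_eq_mul]
  refine mul_le_mul_of_nonneg_right ?_ (hw l hl)
  have h1 : #{z ∈ X | pos L l z.2 = z.1} ≤ #(range (2 ^ L)) := by
    refine card_le_card_of_injOn (fun z => z.2) ?_ ?_
    · intro z hz
      rw [mem_coe, mem_filter] at hz
      rw [mem_coe, mem_range]
      exact hX z hz.1
    · intro z hz z' hz' h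
      rw [mem_coe, mem_filter] at hz hz'
      have h2 : z.2 = z'.2 := h
      refine Prod.ext ?_ h2
      rw [← hz.2, ← hz'.2, h2]
  rw [card_range] at h1
  exact_mod_cast h1

/-- the level sets of the weight -/
noncomputable def Lev (T : Finset LI) (w : LI → ℝ) (j : ℕ) : Finset LI := by
  classical exact {l ∈ T | (2:ℝ)⁻¹ ^ (j + 1) < w l ∧ w l ≤ (2:ℝ)⁻¹ ^ j}

noncomputable def Low (T : Finset LI) (w : LI → ℝ) (J : ℕ) : Finset LI := by
  classical exact {l ∈ T | w l ≤ (2:ℝ)⁻¹ ^ J}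

lemma mem_Lev {T : Finset LI} {w : LI → ℝ} {j : ℕ} {l : LI} :
    l ∈ Lev T w j ↔ l ∈ T ∧ (2:ℝ)⁻¹ ^ (j + 1) < w l ∧ w l ≤ (2:ℝ)⁻¹ ^ j := by
  unfold Lev
  rw [mem_filter]

lemma mem_Low {T : Finset LI} {w : LI → ℝ} {j : ℕ} {l : LI} :
    l ∈ Low T w j ↔ l ∈ T ∧ w l ≤ (2:ℝ)⁻¹ ^ j := by
  unfold Low
  rw [mem_filter]

/-- decomposition of sums over the level sets -/
lemma sum_lev {T : Finset LI} {w : LI → ℝ} (hw : ∀ l ∈ T, w l ≤ 1) (J : ℕ) (f : LI → ℝ) :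
    ∑ l ∈ T, f l = ∑ j ∈ range J, ∑ l ∈ Lev T w j, f l + ∑ l ∈ Low T w J, f l := by
  classical
  induction J with
  | zero =>
    rw [range_zero, sum_empty, zero_add]
    refine sum_congr ?_ fun _ _ => rfl
    ext l
    rw [mem_Low, pow_zero]
    exact ⟨fun h => ⟨h, hw l h⟩, fun h => h.1⟩
  | succ J ih =>
    rw [ih, sum_range_succ, add_assoc]
    congr 1
    rw [← sum_union]
    · refine sum_congr ?_ fun _ _ => rfl
      ext l
      rw [mem_union, mem_Lev, mem_Low, mem_Low]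
      constructor
      · intro h
        rcases lt_or_ge ((2:ℝ)⁻¹ ^ (J + 1)) (w l) with h1 | h1
        · exact Or.inl ⟨h.1, h1, h.2⟩
        · exact Or.inr ⟨h.1, h1⟩
      · rintro (h | h)
        · exact ⟨h.1, h.2.2⟩
        · refine ⟨h.1, h.2.trans ?_⟩
          exact pow_le_pow_of_le_one (by norm_num) (by norm_num) (Nat.le_succ J)
    · rw [disjoint_left]
      intro l h1 h2
      rw [mem_Lev] at h1
      rw [mem_Low] at h2
      exact absurd h1.2.1 (not_lt.2 h2.2)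

lemma Sd_lev {L : ℕ} {T : Finset LI} {w : LI → ℝ} (hw : ∀ l ∈ T, w l ≤ 1) (J : ℕ)
    (z : (Fin 2 → ℤ) × ℕ) :
    Sd L T w z = ∑ j ∈ range J, Sd L (Lev T w j) w z + Sd L (Low T w J) w z := by
  unfold Sd
  simp_rw [sum_filter]
  exact sum_lev hw J _

/-- the pigeonholed estimate: one level -/
lemma pigeon {ι : Type*} {I : Finset ι} {a b : ι → ℝ} (hb : ∀ i ∈ I, 0 ≤ b i)
    (hab : ∑ i ∈ I, b i ≤ ∑ i ∈ I, a i) (hpos : 0 < ∑ i ∈ I, a i) :
    ∃ i ∈ I, b i ≤ a i ∧ 0 < a i := by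
  by_contra hcon
  push Not at hcon
  have h1 : ∀ i ∈ I, a i ≤ b i := by
    intro i hi
    by_contra h
    have h2 := hcon i hi (le_of_not_ge h)
    exact h (h2.trans (hb i hi))
  obtain ⟨i, hi, hi0⟩ := exists_lt_of_sum_lt (s := I) (f := fun _ => (0:ℝ)) (g := a) (by simpa using hpos)
  have h2 : a i < b i := by
    by_contra h
    exact absurd hi0 (not_lt.2 (hcon i hi (le_of_not_gt h)))
  exact absurd hab (not_le.2 (sum_lt_sum h1 ⟨i, hi, h2⟩))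

section law

variable {L : ℕ} {T : Finset LI} {X : Finset ((Fin 2 → ℤ) × ℕ)}

/-- pairs (line, cell of the line in `X`) -/
def Om (L : ℕ) (T : Finset LI) (X : Finset ((Fin 2 → ℤ) × ℕ)) : Finset (LI × ((Fin 2 → ℤ) × ℕ)) :=
  {q ∈ T ×ˢ X | pos L q.1 q.2.2 = q.2.1}

lemma mem_Om {q : LI × ((Fin 2 → ℤ) × ℕ)} :
    q ∈ Om L T X ↔ q.1 ∈ T ∧ q.2 ∈ X ∧ pos L q.1 q.2.2 = q.2.1 := by
  unfold Om
  rw [mem_filter, mem_product, and_assoc]

lemma card_Om : #(Om L T X) = ∑ z ∈ X, #{l ∈ T | pos L l z.2 = z.1} := by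
  classical
  unfold Om
  rw [card_filter, sum_product_right]
  refine sum_congr rfl fun z _ => ?_
  rw [card_filter]

lemma H_le_log {Ω : Type} [Fintype Ω] (P : Law Ω) (X : Ω → LI)
    (h : ∀ ω, X ω ∈ T) : P.H X ≤ Real.log (#T) := by
  classical
  have h1 := P.H_le_log_card (F := {l // l ∈ T}) (fun ω => ⟨X ω, h ω⟩)
  rw [Fintype.card_coe] at h1
  refine le_trans (le_of_eq (P.H_congr ?_)) h1
  intro ω ω'
  simp

/-- entropies of the uniform law on `Om` -/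
theorem law_main {Np κ : ℝ} {L₀ : ℕ} (hNp : 0 ≤ Np)
    (H : ∀ L : ℕ, L₀ ≤ L → ∀ (Ω : Type) [Fintype Ω] (P : Law Ω)
    (x y : Ω → Fin 2 → ℤ) (t : Ω → ℕ) (K : ℝ), 1 ≤ K →
    (∀ ω i, 0 ≤ x ω i ∧ x ω i < 2 ^ L) → (∀ ω i, 0 ≤ y ω i ∧ y ω i < 2 ^ L) →
    (∀ ω, t ω < 2 ^ L) → KTf K (suppL P x y) →
    hc P (fun ω => (x ω, y ω)) (fun ω => (pos L (x ω, y ω) (t ω), t ω)) ≤
      Np * (L * Real.log 2 - hc P t (fun ω => (x ω, y ω))) + Real.log K + κ * L)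
    (hL : L₀ ≤ L)
    (hT : ∀ l ∈ T, ∀ i, (0 ≤ l.1 i ∧ l.1 i < 2 ^ L) ∧ (0 ≤ l.2 i ∧ l.2 i < 2 ^ L))
    (hX : ∀ z ∈ X, z.2 < 2 ^ L) {K : ℝ} (hK : 1 ≤ K) (hKT : KTf K T)
    {μ lam : ℝ} (hμ : 0 < μ) (hlam : 0 < lam)
    (hXμ : ∀ z ∈ X, μ ≤ #{l ∈ T | pos L l z.2 = z.1})
    (hXlam : lam * 2 ^ L * #T ≤ ∑ z ∈ X, (#{l ∈ T | pos L l z.2 = z.1} : ℝ)) (hT0 : T.Nonempty) :
    Real.log μ ≤ - Np * Real.log lam + Real.log K + κ * L := by
  classical
  have hO : lam * 2 ^ L * #T ≤ #(Om L T X) := by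
    rw [card_Om]
    push_cast
    exact hXlam
  have hT1 : (0:ℝ) < #T := by exact_mod_cast card_pos.2 hT0
  have hO0 : (0:ℝ) < #(Om L T X) := lt_of_lt_of_le (by positivity) hO
  have hOne : (Om L T X).Nonempty := card_pos.1 (by exact_mod_cast hO0)
  have : Nonempty {q // q ∈ Om L T X} := ⟨⟨hOne.choose, hOne.choose_spec⟩⟩
  set Ω : Type := {q // q ∈ Om L T X} with hΩ
  have hcard : Fintype.card Ω = #(Om L T X) := Fintype.card_coe _
  set x : Ω → Fin 2 → ℤ := fun ω => ω.1.1.1 with hx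
  set y : Ω → Fin 2 → ℤ := fun ω => ω.1.1.2 with hy
  set t : Ω → ℕ := fun ω => ω.1.2.2 with ht
  have hmem : ∀ ω : Ω, ω.1.1 ∈ T ∧ ω.1.2 ∈ X ∧ pos L ω.1.1 ω.1.2.2 = ω.1.2.1 := fun ω =>
    mem_Om.1 ω.2
  have hz : ∀ ω : Ω, (pos L (x ω, y ω) (t ω), t ω) = ω.1.2 := by
    intro ω
    exact Prod.ext (hmem ω).2.2 rfl
  have hl : ∀ ω : Ω, (x ω, y ω) = ω.1.1 := fun ω => rfl
  have hmain := H L hL Ω (M3.ulaw Ω) x y t K hK (fun ω i => (hT _ (hmem ω).1 i).1)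
    (fun ω i => (hT _ (hmem ω).1 i).2) (fun ω => hX _ (hmem ω).2.1) (by
      refine KTf_mono hKT ?_
      intro l hl'
      unfold suppL at hl'
      rw [mem_image] at hl'
      obtain ⟨ω, _, hω⟩ := hl'
      rw [← hω]
      exact (hmem ω).1)
  -- the full entropies
  have hfull : ∀ (S : Type) (Y : Ω → S), (∀ ω ω', Y ω = Y ω' → ω = ω') →
      (M3.ulaw Ω).H Y = Real.log #(Om L T X) := by
    intro S Y hY
    have h1 := M3.ulaw_H Y (k := 1) one_pos (by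
      intro ω
      rw [Nat.card_eq_one_iff_unique]
      refine ⟨⟨fun a b => ?_⟩, ⟨⟨ω, rfl⟩⟩⟩
      refine Subtype.ext (hY _ _ ?_)
      rw [a.2, b.2])
    rw [h1, hcard]
    simp
  have h1 : hc (M3.ulaw Ω) (fun ω => (x ω, y ω)) (fun ω => (pos L (x ω, y ω) (t ω), t ω)) =
      Real.log #(Om L T X) - (M3.ulaw Ω).H (fun ω => (pos L (x ω, y ω) (t ω), t ω)) := by
    unfold hc
    rw [hfull]
    intro ω ω' h
    have h2 := congrArg Prod.fst h
    have h3 := congrArg Prod.snd h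
    simp only [hz] at h3
    refine Subtype.ext (Prod.ext h2 h3)
  have h2 : hc (M3.ulaw Ω) t (fun ω => (x ω, y ω)) =
      Real.log #(Om L T X) - (M3.ulaw Ω).H (fun ω => (x ω, y ω)) := by
    unfold hc
    rw [hfull]
    intro ω ω' h
    have h2 := congrArg Prod.snd h
    have h3 := congrArg Prod.fst h
    have h4 : ω.1.1 = ω'.1.1 := h2
    have h5 : ω.1.2.2 = ω'.1.2.2 := h3
    refine Subtype.ext (Prod.ext h4 (Prod.ext ?_ h5))
    rw [← (hmem ω).2.2, ← (hmem ω').2.2, h4, h5]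
  have h3 : (M3.ulaw Ω).H (fun ω => (x ω, y ω)) ≤ Real.log #T :=
    H_le_log _ _ fun ω => (hmem ω).1
  have h4 : (M3.ulaw Ω).H (fun ω => (pos L (x ω, y ω) (t ω), t ω)) ≤
      Real.log #(Om L T X) - Real.log μ := by
    unfold Law.H
    rw [← Law.ex_const (M3.ulaw Ω) (Real.log #(Om L T X) - Real.log μ)]
    refine Law.ex_mono _ fun ω _ => ?_
    have h5 : μ / #(Om L T X) ≤ (M3.ulaw Ω).pr (fun ω => (pos L (x ω, y ω) (t ω), t ω))
        (pos L (x ω, y ω) (t ω), t ω) := by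
      unfold Law.pr M3.ulaw
      simp only
      rw [sum_const, nsmul_eq_mul, hcard, mul_one_div]
      refine div_le_div_of_nonneg_right ?_ hO0.le
      refine (hXμ ω.1.2 (hmem ω).2.1).trans ?_
      have h6 : #{l ∈ T | pos L l ω.1.2.2 = ω.1.2.1} ≤
          #{ω' : Ω | (pos L (x ω', y ω') (t ω'), t ω') = (pos L (x ω, y ω) (t ω), t ω)} := by
        refine card_le_card_of_surjOn (fun ω' : Ω => ω'.1.1) ?_
        intro l hl'
        rw [mem_coe, mem_filter] at hl'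
        have h7 : (l, ω.1.2) ∈ Om L T X := mem_Om.2 ⟨hl'.1, (hmem ω).2.1, hl'.2⟩
        refine ⟨⟨(l, ω.1.2), h7⟩, ?_, rfl⟩
        rw [mem_coe, mem_filter]
        refine ⟨mem_univ _, ?_⟩
        rw [hz, hz]
      exact_mod_cast h6
    have h6 : 0 < μ / #(Om L T X) := by positivity
    have h7 := Real.log_le_log h6 h5
    rw [Real.log_div hμ.ne' hO0.ne'] at h7
    linarith
  have h5 : Real.log lam + L * Real.log 2 + Real.log #T ≤ Real.log #(Om L T X) := by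
    have h6 := Real.log_le_log (by positivity) hO
    rw [Real.log_mul (by positivity) hT1.ne', Real.log_mul hlam.ne' (by positivity),
      Real.log_pow] at h6
    linarith
  rw [h1, h2] at hmain
  have h6 : Np * (L * Real.log 2 - (Real.log #(Om L T X) - (M3.ulaw Ω).H (fun ω => (x ω, y ω)))) ≤
      Np * (- Real.log lam) := mul_le_mul_of_nonneg_left (by linarith) hNp
  linarith

end law

/-- powers of `2` and exponentials -/
lemma card_le_weight {T' : Finset LI} {w : LI → ℝ} {j : ℕ} (h : ∀ l ∈ T', (2:ℝ)⁻¹ ^ (j + 1) ≤ w l) :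
    (#T' : ℝ) ≤ 2 ^ (j + 1) * ∑ l ∈ T', w l := by
  have h1 : (#T' : ℝ) * (2:ℝ)⁻¹ ^ (j + 1) ≤ ∑ l ∈ T', w l := by
    rw [← nsmul_eq_mul, ← sum_const]
    exact sum_le_sum h
  have h2 : (0:ℝ) < 2 ^ (j + 1) := by positivity
  rw [inv_pow] at h1
  rw [← div_eq_mul_inv, div_le_iff₀ h2] at h1
  linarith

theorem stG1 {Np κ : ℝ} (hNp : 0 ≤ Np) (hκ : 0 ≤ κ) (H : StKT κ Np) : StG1 κ Np := by
  classical
  intro ε hε
  have hl2 : 0 < Real.log 2 := Real.log_pos (by norm_num)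
  obtain ⟨L₀, H⟩ := H (ε / 2 * Real.log 2) (by positivity)
  obtain ⟨C1, hC1, hpoly⟩ := M3.poly_le 1 (ε := ε / 2) (by positivity)
  have hpoly' : ∀ L : ℕ, ((L:ℝ) + 2) ≤ C1 * (2:ℝ) ^ (ε / 2 * L) := by
    intro L
    have h1 := hpoly L
    rwa [pow_one] at h1
  refine ⟨2 ^ (2 * L₀) + 24 * C1 * 4 ^ Np, by positivity, ?_⟩
  intro L w T X K σ lam hT hw hK hKT hσ hlam hX hXσ hXlam hW
  have hw1 : ∀ l ∈ T, w l ≤ 1 := fun l hl => (hw l hl).2
  have hw0 : ∀ l ∈ T, 0 ≤ w l := fun l hl => (hw l hl).1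
  have hSpos : 0 < ∑ z ∈ X, Sd L T w z := lt_of_lt_of_le (by positivity) hXlam
  have hXne : X.Nonempty := by
    by_contra h
    rw [not_nonempty_iff_eq_empty] at h
    rw [h, sum_empty] at hSpos
    exact lt_irrefl _ hSpos
  have hlam1 : lam ≤ 1 := by
    have h1 := hXlam.trans (sum_Sd_le hw0 hX)
    rw [mul_assoc] at h1
    have h2 : (0:ℝ) < 2 ^ L * ∑ l ∈ T, w l := by positivity
    exact (mul_le_iff_le_one_left h2).1 h1
  have hexp : 1 ≤ (2:ℝ) ^ ((2 * κ + ε) * L) := Real.one_le_rpow (by norm_num) (by positivity)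
  have hlamN : 1 ≤ lam ^ (-Np) := by
    refine Real.one_le_rpow_of_pos_of_le_one_of_nonpos hlam hlam1 (by linarith)
  -- small `L`
  rcases lt_or_ge L L₀ with hL | hL
  · obtain ⟨z, hz⟩ := hXne
    have h1 : σ ≤ 2 ^ (2 * L) * 1 := (hXσ z hz).trans (Sd_le hT hw1 zero_le_one z)
    have h2 : (2:ℝ) ^ (2 * L) ≤ 2 ^ (2 * L₀) := pow_le_pow_right₀ (by norm_num) (by omega)
    have h3 : (0:ℝ) ≤ 24 * C1 * 4 ^ Np := by positivity
    calc σ ≤ 2 ^ (2 * L₀) + 24 * C1 * 4 ^ Np := by linarith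
      _ = (2 ^ (2 * L₀) + 24 * C1 * 4 ^ Np) * 1 * 1 * 1 := by ring
      _ ≤ (2 ^ (2 * L₀) + 24 * C1 * 4 ^ Np) * K * (2:ℝ) ^ ((2 * κ + ε) * L) * lam ^ (-Np) := by
        gcongr
  -- pigeonholing
  set J : ℕ := 2 * L + 2 with hJ
  set θ : ℝ := σ / (4 * J) with hθ
  have hJ0 : (0:ℝ) < J := by rw [hJ]; positivity
  have hθ0 : 0 < θ := by rw [hθ]; positivity
  set Xj : ℕ → Finset ((Fin 2 → ℤ) × ℕ) := fun j => {z ∈ X | θ ≤ Sd L (Lev T w j) w z} with hXj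
  have hlow : ∀ z, Sd L (Low T w J) w z ≤ 1 / 4 := by
    intro z
    have h1 : Sd L (Low T w J) w z ≤ 2 ^ (2 * L) * (2:ℝ)⁻¹ ^ J := by
      refine Sd_le (fun l hl => hT l (mem_Low.1 hl).1) (fun l hl => (mem_Low.1 hl).2) (by positivity) z
    refine h1.trans (le_of_eq ?_)
    rw [hJ, pow_add, inv_pow, inv_pow]
    field_simp
    norm_num
  have hSj0 : ∀ j z, 0 ≤ Sd L (Lev T w j) w z := fun j z =>
    Sd_nonneg (fun l hl => hw l (mem_Lev.1 hl).1) z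
  have hz1 : ∀ z ∈ X, Sd L T w z ≤
      2 * ∑ j ∈ range J, (if θ ≤ Sd L (Lev T w j) w z then Sd L (Lev T w j) w z else 0) := by
    intro z hz
    have h1 := Sd_lev (L := L) hw1 J z
    have h2 : ∑ j ∈ range J, Sd L (Lev T w j) w z ≤
        ∑ j ∈ range J, ((if θ ≤ Sd L (Lev T w j) w z then Sd L (Lev T w j) w z else 0) + θ) := by
      refine sum_le_sum fun j _ => ?_
      split_ifs with h
      · linarith
      · rw [not_le] at h
        linarith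
    rw [sum_add_distrib, sum_const, card_range, nsmul_eq_mul] at h2
    have h3 : (J:ℝ) * θ = σ / 4 := by
      rw [hθ]
      field_simp
    have h4 := hlow z
    have h5 := hXσ z hz
    linarith
  have hsum : ∑ z ∈ X, Sd L T w z ≤ 2 * ∑ j ∈ range J, ∑ z ∈ Xj j, Sd L (Lev T w j) w z := by
    refine (sum_le_sum hz1).trans (le_of_eq ?_)
    rw [← mul_sum, sum_comm]
    congr 1
    refine sum_congr rfl fun j _ => ?_
    rw [hXj, sum_filter]
  have hWsum : ∑ j ∈ range J, ∑ l ∈ Lev T w j, w l ≤ ∑ l ∈ T, w l := by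
    rw [sum_lev hw1 J w]
    have : 0 ≤ ∑ l ∈ Low T w J, w l := sum_nonneg fun l hl => hw0 l (mem_Low.1 hl).1
    linarith
  obtain ⟨j, hj, hj1, hj2⟩ := pigeon (I := range J)
    (b := fun j => lam / 2 * 2 ^ L * ∑ l ∈ Lev T w j, w l)
    (a := fun j => ∑ z ∈ Xj j, Sd L (Lev T w j) w z)
    (fun j _ => mul_nonneg (by positivity) (sum_nonneg fun l hl => hw0 l (mem_Lev.1 hl).1))
    (by
      rw [← mul_sum]
      have h1 : lam / 2 * 2 ^ L * ∑ j ∈ range J, ∑ l ∈ Lev T w j, w l ≤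
          lam / 2 * 2 ^ L * ∑ l ∈ T, w l := mul_le_mul_of_nonneg_left hWsum (by positivity)
      have h2 := hXlam.trans hsum
      have h3 : lam / 2 * 2 ^ L * ∑ l ∈ T, w l = (lam * 2 ^ L * ∑ l ∈ T, w l) / 2 := by ring
      linarith)
    (by linarith)
  -- the level `j`
  set Tj := Lev T w j with hTj
  have hTjne : Tj.Nonempty := by
    by_contra h
    rw [not_nonempty_iff_eq_empty] at h
    rw [h] at hj2
    unfold Sd at hj2
    simp at hj2
  have hcard : ∀ z, (#{l ∈ Tj | pos L l z.2 = z.1} : ℝ) ≥ 2 ^ j * Sd L Tj w z := by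
    intro z
    have h1 : Sd L Tj w z ≤ ∑ l ∈ Tj with pos L l z.2 = z.1, (2:ℝ)⁻¹ ^ j :=
      sum_le_sum fun l hl => (mem_Lev.1 (mem_filter.1 hl).1).2.2
    rw [sum_const, nsmul_eq_mul, inv_pow, ← div_eq_mul_inv, le_div_iff₀ (by positivity)] at h1
    linarith
  have hTjw : (#Tj : ℝ) ≤ 2 ^ (j + 1) * ∑ l ∈ Tj, w l :=
    card_le_weight fun l hl => (mem_Lev.1 hl).2.1.le
  have hmain := law_main (Np := Np) (κ := (2 * κ + ε / 2) * Real.log 2) (L₀ := L₀) (T := Tj)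
    (X := Xj j) hNp (by
      intro L hL Ω _ P x y t K h1 h2 h3 h4 h5
      refine (H L hL Ω P x y t K h1 h2 h3 h4 h5).trans (le_of_eq ?_)
      ring) hL
    (fun l hl => hT l (mem_Lev.1 hl).1) (fun z hz => hX z (mem_filter.1 hz).1)
    (K := 2 ^ (j + 1) * K) (by
      have h1 : (1:ℝ) ≤ 2 ^ (j + 1) := one_le_pow₀ (by norm_num)
      calc (1:ℝ) = 1 * 1 := by ring
        _ ≤ 2 ^ (j + 1) * K := by gcongr)
    (by
      rw [KTf_iff]
      intro a b w1 w2 x0 y0 h1 h2 h3 T' hT' h4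
      have h5 := card_le_weight (T' := T') (w := w) (j := j)
        fun l hl => (mem_Lev.1 (hT' hl)).2.1.le
      have h6 := hKT a b w1 w2 x0 y0 h1 h2 h3 T' (fun l hl => (mem_Lev.1 (hT' hl)).1) h4
      refine h5.trans ?_
      calc 2 ^ (j + 1) * ∑ l ∈ T', w l ≤ 2 ^ (j + 1) * (K * (w1 * w2)) := by gcongr
        _ = 2 ^ (j + 1) * K * (w1 * w2) := by ring)
    (μ := 2 ^ j * θ) (lam := lam / 4) (by positivity) (by positivity)
    (by
      intro z hz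
      have h1 := (mem_filter.1 hz).2
      refine le_trans ?_ (hcard z)
      gcongr)
    (by
      have h1 : ∑ z ∈ Xj j, 2 ^ j * Sd L Tj w z ≤
          ∑ z ∈ Xj j, (#{l ∈ Tj | pos L l z.2 = z.1} : ℝ) := sum_le_sum fun z _ => hcard z
      rw [← mul_sum] at h1
      refine le_trans ?_ h1
      calc lam / 4 * 2 ^ L * #Tj ≤ lam / 4 * 2 ^ L * (2 ^ (j + 1) * ∑ l ∈ Tj, w l) := by gcongr
        _ = 2 ^ j * (lam / 2 * 2 ^ L * ∑ l ∈ Tj, w l) := by rw [pow_succ]; ring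
        _ ≤ 2 ^ j * ∑ z ∈ Xj j, Sd L Tj w z := by gcongr)
    hTjne
  have h1 : Real.log (2 ^ j * θ) = Real.log (2 ^ j) + Real.log θ :=
    Real.log_mul (by positivity) hθ0.ne'
  have h2 : Real.log (2 ^ (j + 1) * K) = Real.log (2 ^ j) + Real.log 2 + Real.log K := by
    rw [Real.log_mul (by positivity) (by positivity), pow_succ, Real.log_mul (by positivity) (by norm_num)]
  rw [h1, h2] at hmain
  have h3 : Real.log θ ≤ Real.log (2 * K * (lam / 4) ^ (-Np) * (2:ℝ) ^ ((2 * κ + ε / 2) * L)) := by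
    rw [Real.log_mul (by positivity) (by positivity), Real.log_mul (by positivity) (by positivity),
      Real.log_mul (by norm_num) (by positivity), Real.log_rpow (by positivity),
      Real.log_rpow (by norm_num)]
    linarith
  rw [Real.log_le_log_iff hθ0 (by positivity)] at h3
  have h4 : (lam / 4) ^ (-Np) = lam ^ (-Np) * 4 ^ Np := by
    rw [Real.div_rpow hlam.le (by norm_num), Real.rpow_neg (by norm_num : (0:ℝ) ≤ 4), div_inv_eq_mul]
  rw [h4] at h3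
  have h5 : σ = 4 * J * θ := by
    rw [hθ]
    field_simp
  have h6 : (J:ℝ) ≤ 2 * (C1 * (2:ℝ) ^ (ε / 2 * L)) := by
    have := hpoly' L
    rw [hJ]
    push_cast
    linarith
  have h7 : (2:ℝ) ^ ((2 * κ + ε) * L) = (2:ℝ) ^ ((2 * κ + ε / 2) * L) * (2:ℝ) ^ (ε / 2 * L) := by
    rw [← Real.rpow_add (by norm_num)]
    ring_nf
  rw [h5, h7]
  calc 4 * J * θ ≤ 4 * (2 * (C1 * (2:ℝ) ^ (ε / 2 * L))) *
        (2 * K * (lam ^ (-Np) * 4 ^ Np) * (2:ℝ) ^ ((2 * κ + ε / 2) * L)) := by gcongr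
    _ = (16 * C1 * 4 ^ Np) * K * ((2:ℝ) ^ ((2 * κ + ε / 2) * L) * (2:ℝ) ^ (ε / 2 * L)) *
        lam ^ (-Np) := by ring
    _ ≤ (2 ^ (2 * L₀) + 24 * C1 * 4 ^ Np) * K *
        ((2:ℝ) ^ ((2 * κ + ε / 2) * L) * (2:ℝ) ^ (ε / 2 * L)) * lam ^ (-Np) := by
      gcongr
      have h8 : (0:ℝ) ≤ 2 ^ (2 * L₀) := by positivity
      have h9 : (0:ℝ) ≤ C1 * 4 ^ Np := by positivity
      nlinarith

end Vale.Agent.P117.K.Geo
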