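import Vale.Agent.P117.K.DefsKT
import Vale.Agent.P127.M3.FrontF

/-!
# P117 / K : block GEO3, the weighted discrete statement
-/

namespace Vale.Agent.P117.K.Geo

open Finset Vale.Agent.P127 Vale.Agent.P127.Stk

/-- index of a line: position `x` at the time `0` and direction `y`, in units of cells -/
abbrev LI := (Fin 2 → ℤ) × (Fin 2 → ℤ)

lemma KTf_iff {K : ℝ} {T : Finset LI} : KTf K T ↔
    ∀ (a b w1 w2 : ℝ) (x0 y0 : Fin 2 → ℝ), a ^ 2 + b ^ 2 = 1 → 1 ≤ w1 → w1 ≤ w2 →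
    ∀ T' ⊆ T, (∀ l ∈ T', inP a b w1 w2 x0 y0 l) → (#T' : ℝ) ≤ K * (w1 * w2) := by
  classical
  unfold KTf
  constructor
  · intro h a b w1 w2 x0 y0 h1 h2 h3 T' hT' h4
    refine le_trans ?_ (h a b w1 w2 x0 y0 h1 h2 h3)
    have : #T' ≤ #(T.filter fun l => inP a b w1 w2 x0 y0 l) :=
      card_le_card fun l hl => mem_filter.2 ⟨hT' hl, h4 l hl⟩
    exact_mod_cast this
  · intro h a b w1 w2 x0 y0 h1 h2 h3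
    refine le_trans (le_of_eq ?_) (h a b w1 w2 x0 y0 h1 h2 h3
      (T.filter fun l => inP a b w1 w2 x0 y0 l) (filter_subset _ _) fun l hl => (mem_filter.1 hl).2)
    congr

lemma KTf_mono {K : ℝ} {T T' : Finset LI} (h : KTf K T) (hT : T' ⊆ T) : KTf K T' := by
  rw [KTf_iff] at h ⊢
  exact fun a b w1 w2 x0 y0 h1 h2 h3 T'' hT'' h4 => h a b w1 w2 x0 y0 h1 h2 h3 T'' (hT''.trans hT) h4

/-- weight of the lines through the cell `z` -/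
noncomputable def Sd (L : ℕ) (T : Finset LI) (w : LI → ℝ) (z : (Fin 2 → ℤ) × ℕ) : ℝ :=
  ∑ l ∈ T with pos L l z.2 = z.1, w l

/-- the weighted discrete estimate -/
def StG1 (κ Np : ℝ) : Prop :=
  ∀ ε : ℝ, 0 < ε → ∃ C : ℝ, 0 < C ∧ ∀ (L : ℕ) (w : LI → ℝ) (T : Finset LI)
    (X : Finset ((Fin 2 → ℤ) × ℕ)) (K σ lam : ℝ),
    (∀ l ∈ T, ∀ i, (0 ≤ l.1 i ∧ l.1 i < 2 ^ L) ∧ (0 ≤ l.2 i ∧ l.2 i < 2 ^ L)) →
    (∀ l ∈ T, 0 ≤ w l ∧ w l ≤ 1) → 1 ≤ K →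
    (∀ (a b w1 w2 : ℝ) (x0 y0 : Fin 2 → ℝ), a ^ 2 + b ^ 2 = 1 → 1 ≤ w1 → w1 ≤ w2 →
      ∀ T' ⊆ T, (∀ l ∈ T', inP a b w1 w2 x0 y0 l) → ∑ l ∈ T', w l ≤ K * (w1 * w2)) →
    1 ≤ σ → 0 < lam → (∀ z ∈ X, z.2 < 2 ^ L) → (∀ z ∈ X, σ ≤ Sd L T w z) →
    lam * 2 ^ L * ∑ l ∈ T, w l ≤ ∑ z ∈ X, Sd L T w z → 0 < ∑ l ∈ T, w l →
    σ ≤ C * K * (2:ℝ) ^ ((2 * κ + ε) * L) * lam ^ (-Np)

end Vale.Agent.P117.K.Geo
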