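import Vale.Agent.P117.K.GeoB
import Vale.Agent.P117.K.GeoD

/-!
# P117 / K : block GEO3, sums over cells and the choice of a block
-/

namespace Vale.Agent.P117.K.Geo

open Finset MeasureTheory
open scoped ENNReal

/-- index of the cells -/
abbrev CI (L : ℕ) := ℤ × (Fin 2 → ℤ) × Fin (2 ^ L)

section sums

variable {L N M : ℕ} {ν : ℤ × ℤ → E3 → ℝ≥0∞}

lemma iUnion_cell : ⋃ q : CI L, cell L N q.1 q.2.1 q.2.2.val = Set.univ := by
  rw [Set.eq_univ_iff_forall]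
  intro z
  obtain ⟨j, P, t, ht, hz⟩ := exists_cell (L := L) (N := N) z
  exact Set.mem_iUnion.2 ⟨(j, P, ⟨t, ht⟩), hz⟩

lemma disjoint_cell : Pairwise (Function.onFun Disjoint fun q : CI L => cell L N q.1 q.2.1 q.2.2.val) := by
  intro q q' h
  refine Set.disjoint_left.2 fun z hz hz' => h ?_
  obtain ⟨h1, h2, h3⟩ := cell_inj q.2.2.isLt q'.2.2.isLt hz hz'
  exact Prod.ext h1 (Prod.ext h2 (Fin.ext h3))

lemma lintegral_cells (f : E3 → ℝ≥0∞) :
    ∫⁻ z, f z = ∑' q : CI L, ∫⁻ z in cell L N q.1 q.2.1 q.2.2.val, f z := by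
  rw [← lintegral_iUnion (fun q => measurableSet_cell) disjoint_cell, iUnion_cell,
    Measure.restrict_univ]

/-- the cells meeting `X` -/
noncomputable def Ix (L N : ℕ) (X : Set E3) (j : ℤ) (P : Fin 2 → ℤ) (t : ℕ) : ℝ≥0∞ := by
  classical exact if (X ∩ cell L N j P t).Nonempty then 1 else 0

lemma lower_cells (hN : 1 ≤ N) (hL2 : 2 ^ L ≤ 2 * N)
    (hν : ∀ k x y, ν k x ≤ ENNReal.ofReal ((1 + gam N k (x - y)) ^ M) * ν k y) :
    ENNReal.ofReal ((N:ℝ) ^ 3) * ∑' q : CI L, SD ν L N q.1 q.2.1 q.2.2.val ≤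
      ENNReal.ofReal (16 ^ M) * ∫⁻ z, ∑ k ∈ Gk N, ν k z := by
  rw [lintegral_cells (L := L) (N := N), ← ENNReal.tsum_mul_left, ← ENNReal.tsum_mul_left]
  refine ENNReal.tsum_le_tsum fun q => ?_
  rw [← volume_cell (L := L) (j := q.1) (P := q.2.1) (t := q.2.2.val) hN, mul_comm,
    ← setLIntegral_const, ← lintegral_const_mul' _ _ ENNReal.ofReal_ne_top]
  exact setLIntegral_mono' measurableSet_cell fun z hz => cmp2 hN hL2 q.2.2.isLt hν hz

lemma upper_cells (hN : 1 ≤ N) (hL2 : 2 ^ L ≤ 2 * N)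
    (hν : ∀ k x y, ν k x ≤ ENNReal.ofReal ((1 + gam N k (x - y)) ^ M) * ν k y) {X : Set E3}
    (hX : MeasurableSet X) :
    ∫⁻ z in X, ∑ k ∈ Gk N, ν k z ≤
      ENNReal.ofReal (16 ^ M) * ENNReal.ofReal ((N:ℝ) ^ 3) *
        ∑' q : CI L, Ix L N X q.1 q.2.1 q.2.2.val * SD ν L N q.1 q.2.1 q.2.2.val := by
  rw [← lintegral_indicator hX, lintegral_cells (L := L) (N := N), ← ENNReal.tsum_mul_left]
  refine ENNReal.tsum_le_tsum fun q => ?_
  by_cases h : (X ∩ cell L N q.1 q.2.1 q.2.2.val).Nonempty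
  · have h1 : Ix L N X q.1 q.2.1 q.2.2.val = 1 := by
      unfold Ix
      rw [if_pos h]
    rw [h1, one_mul]
    calc ∫⁻ z in cell L N q.1 q.2.1 q.2.2.val, X.indicator (fun z => ∑ k ∈ Gk N, ν k z) z
        ≤ ∫⁻ z in cell L N q.1 q.2.1 q.2.2.val, ENNReal.ofReal (16 ^ M) *
            SD ν L N q.1 q.2.1 q.2.2.val := by
          refine setLIntegral_mono' measurableSet_cell fun z hz => ?_
          refine (Set.indicator_le_self _ _ z).trans ?_
          exact cmp1 hN hL2 q.2.2.isLt hν hz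
      _ = _ := by
          rw [setLIntegral_const, volume_cell hN]
          ring
  · refine le_of_eq_of_le ?_ zero_le
    rw [Set.not_nonempty_iff_eq_empty] at h
    rw [← lintegral_zero (μ := volume.restrict (cell L N q.1 q.2.1 q.2.2.val))]
    refine setLIntegral_congr_fun measurableSet_cell fun z hz => ?_
    refine Set.indicator_of_notMem (fun hzX => ?_) _
    have : z ∈ X ∩ cell L N q.1 q.2.1 q.2.2.val := ⟨hzX, hz⟩
    rw [h] at this
    exact this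

/-- pigeonhole for sums in `[0, ∞]` -/
lemma pigeon_tsum {ι : Type*} {a b : ι → ℝ≥0∞} (hab : ∑' i, b i ≤ ∑' i, a i)
    (ha : ∑' i, a i ≠ ∞) (h0 : ∑' i, a i ≠ 0) : ∃ i, b i ≤ a i ∧ a i ≠ 0 := by
  by_contra hcon
  push Not at hcon
  have h1 : ∀ i, a i ≤ b i := by
    intro i
    by_contra h
    rw [not_le] at h
    have h2 := hcon i h.le
    rw [h2] at h
    exact absurd h not_lt_zero
  have h2 : ∃ i, a i ≠ 0 := by
    by_contra h
    push Not at h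
    exact h0 (by simp [h])
  obtain ⟨i, hi⟩ := h2
  have h3 : a i < b i := by
    by_contra h
    exact hi (hcon i (not_lt.1 h))
  exact absurd hab (not_le.2 (ENNReal.tsum_lt_tsum ha h1 h3))

/-- the truncated block sums -/
noncomputable def TB (ν : ℤ × ℤ → E3 → ℝ≥0∞) (L N : ℕ) (θ : ℝ) (j : ℤ) (c P : Fin 2 → ℤ) (t : ℕ) :
    ℝ≥0∞ := by
  classical exact if ENNReal.ofReal θ ≤ SB ν L N j c P t then SB ν L N j c P t else 0

lemma TB_le {θ : ℝ} {j : ℤ} {c P : Fin 2 → ℤ} {t : ℕ} : TB ν L N θ j c P t ≤ SB ν L N j c P t := by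
  unfold TB
  split_ifs
  · exact le_rfl
  · exact zero_le

/-- a cell carrying `σ` is carried by large blocks -/
lemma SD_le_TB (h3 : StG3A) (hN : 1 ≤ N) (hL2 : 2 ^ L ≤ 2 * N)
    (hν : ∀ k x y, ν k x ≤ ENNReal.ofReal ((1 + gam N k (x - y)) ^ M) * ν k y)
    (hfin : ∀ k x, ν k x ≠ ∞) {X : Set E3} {σ : ℝ} (hσ : 0 < σ)
    (hX : ∀ z ∈ X, ENNReal.ofReal σ ≤ ∑ k ∈ Gk N, ν k z)
    (j : ℤ) (P : Fin 2 → ℤ) {t : ℕ} (ht : t < 2 ^ L) :
    Ix L N X j P t * SD ν L N j P t ≤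
      2 * ∑' c : Fin 2 → ℤ, Ix L N X j P t *
        TB ν L N (σ / (8 * 16 ^ M)) j c (fun i => P i - 2 ^ L * c i) t := by
  classical
  by_cases h : (X ∩ cell L N j P t).Nonempty
  swap
  · have h1 : Ix L N X j P t = 0 := by
      unfold Ix
      rw [if_neg h]
    rw [h1, zero_mul]
    exact zero_le
  have h1 : Ix L N X j P t = 1 := by
    unfold Ix
    rw [if_pos h]
  simp only [h1, one_mul]
  obtain ⟨F, hF4, hF0, hF⟩ := h3 ν L N j P t ht
  set θ : ℝ := σ / (8 * 16 ^ M) with hθ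
  have hθ0 : 0 < θ := by rw [hθ]; positivity
  have hSDfin : SD ν L N j P t ≠ ∞ := by
    unfold SD
    rw [ENNReal.sum_ne_top]
    exact fun k _ => hfin k _
  obtain ⟨z, hzX, hz⟩ := h
  have h4 : ENNReal.ofReal σ ≤ ENNReal.ofReal (16 ^ M) * SD ν L N j P t :=
    (hX z hzX).trans (cmp1 hN hL2 ht hν hz)
  have h5 : ENNReal.ofReal (8 * θ) ≤ SD ν L N j P t := by
    have h6 : ENNReal.ofReal σ = ENNReal.ofReal (16 ^ M) * ENNReal.ofReal (8 * θ) := by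
      rw [← ENNReal.ofReal_mul (by positivity)]
      congr 1
      rw [hθ]
      field_simp
    rw [h6] at h4
    exact (ENNReal.mul_le_mul_iff_right (by positivity) ENNReal.ofReal_ne_top).1 h4
  have h6 : SD ν L N j P t ≤ ∑ c ∈ F, (TB ν L N θ j c (fun i => P i - 2 ^ L * c i) t +
      ENNReal.ofReal θ) := by
    rw [hF]
    refine sum_le_sum fun c _ => ?_
    unfold TB
    split_ifs with h7
    · exact le_self_add
    · rw [zero_add]
      exact (not_le.1 h7).le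
  rw [sum_add_distrib, sum_const, nsmul_eq_mul] at h6
  have h7 : (#F : ℝ≥0∞) * ENNReal.ofReal θ ≤ ENNReal.ofReal (4 * θ) := by
    rw [ENNReal.ofReal_mul (by norm_num)]
    gcongr
    rw [show ENNReal.ofReal 4 = (4:ℕ) by simp]
    exact_mod_cast hF4
  have h8 : SD ν L N j P t + SD ν L N j P t ≤
      2 * ∑ c ∈ F, TB ν L N θ j c (fun i => P i - 2 ^ L * c i) t + SD ν L N j P t := by
    calc SD ν L N j P t + SD ν L N j P t ≤
        (∑ c ∈ F, TB ν L N θ j c (fun i => P i - 2 ^ L * c i) t + ENNReal.ofReal (4 * θ)) +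
        (∑ c ∈ F, TB ν L N θ j c (fun i => P i - 2 ^ L * c i) t + ENNReal.ofReal (4 * θ)) := by
          gcongr <;> exact h6.trans (by gcongr)
      _ = 2 * ∑ c ∈ F, TB ν L N θ j c (fun i => P i - 2 ^ L * c i) t + ENNReal.ofReal (8 * θ) := by
          rw [show (8:ℝ) * θ = 4 * θ + 4 * θ by ring, ENNReal.ofReal_add (by positivity) (by positivity)]
          ring
      _ ≤ _ := by gcongr
  have h9 := (ENNReal.add_le_add_iff_right hSDfin).1 h8
  refine h9.trans ?_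
  gcongr
  exact ENNReal.sum_le_tsum F

/-- change of variables from cells to blocks -/
lemma tsum_blocks (G : ℤ → (Fin 2 → ℤ) → (Fin 2 → ℤ) → ℕ → ℝ≥0∞) :
    ∑' q : CI L, ∑' c : Fin 2 → ℤ, G q.1 c (fun i => q.2.1 i - 2 ^ L * c i) q.2.2.val =
      ∑' r : ℤ × (Fin 2 → ℤ), ∑ t ∈ range (2 ^ L), ∑' P : Fin 2 → ℤ, G r.1 r.2 P t := by
  rw [ENNReal.tsum_prod (f := fun (j : ℤ) (p : (Fin 2 → ℤ) × Fin (2 ^ L)) =>
      ∑' c : Fin 2 → ℤ, G j c (fun i => p.1 i - 2 ^ L * c i) p.2.val),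
    ENNReal.tsum_prod (f := fun (j : ℤ) (c : Fin 2 → ℤ) =>
      ∑ t ∈ range (2 ^ L), ∑' P : Fin 2 → ℤ, G j c P t)]
  refine tsum_congr fun j => ?_
  rw [ENNReal.tsum_prod (f := fun (P : Fin 2 → ℤ) (t : Fin (2 ^ L)) =>
      ∑' c : Fin 2 → ℤ, G j c (fun i => P i - 2 ^ L * c i) t.val)]
  calc ∑' (P : Fin 2 → ℤ) (t : Fin (2 ^ L)) (c : Fin 2 → ℤ), G j c (fun i => P i - 2 ^ L * c i) t.val
      = ∑' (P : Fin 2 → ℤ) (c : Fin 2 → ℤ) (t : Fin (2 ^ L)), G j c (fun i => P i - 2 ^ L * c i) t.val :=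
        tsum_congr fun P => ENNReal.tsum_comm
    _ = ∑' (c : Fin 2 → ℤ) (P : Fin 2 → ℤ) (t : Fin (2 ^ L)), G j c (fun i => P i - 2 ^ L * c i) t.val :=
        ENNReal.tsum_comm
    _ = ∑' (c : Fin 2 → ℤ), ∑ t ∈ range (2 ^ L), ∑' P : Fin 2 → ℤ, G j c P t := by
        refine tsum_congr fun c => ?_
        rw [ENNReal.tsum_comm, tsum_fintype, ← Fin.sum_univ_eq_sum_range (fun t => ∑' P : Fin 2 → ℤ, G j c P t)]
        refine sum_congr rfl fun t _ => ?_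
        exact (Equiv.subRight (fun i => 2 ^ L * c i : Fin 2 → ℤ)).tsum_eq (fun P => G j c P t.val)

lemma SD_eq_tsum (h3 : StG3A) (j : ℤ) (P : Fin 2 → ℤ) {t : ℕ} (ht : t < 2 ^ L) :
    ∑' c : Fin 2 → ℤ, SB ν L N j c (fun i => P i - 2 ^ L * c i) t = SD ν L N j P t := by
  obtain ⟨F, hF4, hF0, hF⟩ := h3 ν L N j P t ht
  rw [hF]
  exact tsum_eq_sum fun c hc => hF0 c hc

/-- mass of a block -/
noncomputable def WB (ν : ℤ × ℤ → E3 → ℝ≥0∞) (L N : ℕ) (j : ℤ) (c : Fin 2 → ℤ) : ℝ≥0∞ :=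
  ∑ l ∈ TL L, wgt ν L N j c l

lemma tsum_SB (j : ℤ) (c : Fin 2 → ℤ) (t : ℕ) :
    ∑' P : Fin 2 → ℤ, SB ν L N j c P t = WB ν L N j c := by
  classical
  unfold SB WB
  simp_rw [sum_filter]
  rw [Summable.tsum_finsetSum fun _ _ => ENNReal.summable]
  refine sum_congr rfl fun l _ => ?_
  rw [tsum_eq_single (pos L l t)]
  · rw [if_pos rfl]
  · intro P hP
    rw [if_neg (Ne.symm hP)]

lemma mass_blocks (h3 : StG3A) :
    ∑' r : ℤ × (Fin 2 → ℤ), (2:ℝ≥0∞) ^ L * WB ν L N r.1 r.2 =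
      ∑' q : CI L, SD ν L N q.1 q.2.1 q.2.2.val := by
  have h := tsum_blocks (L := L) (fun j c P t => SB ν L N j c P t)
  have h1 : ∑' q : CI L, ∑' c : Fin 2 → ℤ, SB ν L N q.1 c (fun i => q.2.1 i - 2 ^ L * c i) q.2.2.val =
      ∑' q : CI L, SD ν L N q.1 q.2.1 q.2.2.val :=
    tsum_congr fun q => SD_eq_tsum h3 _ _ q.2.2.isLt
  rw [← h1, h]
  refine tsum_congr fun r => ?_
  simp_rw [tsum_SB]
  rw [sum_const, card_range, nsmul_eq_mul]
  push_cast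
  rfl

/-- box containing all positions of the lines -/
noncomputable def BX (L : ℕ) : Finset ((Fin 2 → ℤ) × ℕ) :=
  (Fintype.piFinset fun _ : Fin 2 => Finset.Ico (0:ℤ) (2 * 2 ^ L)) ×ˢ range (2 ^ L)

lemma pos_mem {l : LI} (hl : l ∈ TL L) {t : ℕ} (ht : t < 2 ^ L) : (pos L l t, t) ∈ BX L := by
  unfold BX
  rw [mem_product, Fintype.mem_piFinset, mem_range]
  refine ⟨fun i => ?_, ht⟩
  obtain ⟨⟨h1, h2⟩, h3, h4⟩ := mem_TL.1 hl i
  rw [Finset.mem_Ico]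
  have hp : (0:ℤ) < 2 ^ L := by positivity
  have h5 : 0 ≤ (t:ℤ) * l.2 i / 2 ^ L := Int.ediv_nonneg (by positivity) hp.le
  have h6 : (t:ℤ) * l.2 i / 2 ^ L < 2 ^ L := by
    rw [Int.ediv_lt_iff_lt_mul hp]
    have h7 : (t:ℤ) < 2 ^ L := by exact_mod_cast ht
    have h8 : (0:ℤ) ≤ t := by positivity
    nlinarith
  show 0 ≤ l.1 i + t * l.2 i / 2 ^ L ∧ l.1 i + t * l.2 i / 2 ^ L < 2 * 2 ^ L
  constructor <;> linarith

lemma SB_zero {j : ℤ} {c P : Fin 2 → ℤ} {t : ℕ} (ht : t < 2 ^ L) (h : (P, t) ∉ BX L) :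
    SB ν L N j c P t = 0 := by
  unfold SB
  have : ({l ∈ TL L | pos L l t = P} : Finset LI) = ∅ := by
    rw [filter_eq_empty_iff]
    intro l hl hP
    exact h (hP ▸ pos_mem hl ht)
  rw [this, sum_empty]

/-- the large cells of a block -/
noncomputable def XB (ν : ℤ × ℤ → E3 → ℝ≥0∞) (L N : ℕ) (X : Set E3) (θ : ℝ) (j : ℤ) (c : Fin 2 → ℤ) :
    Finset ((Fin 2 → ℤ) × ℕ) := by
  classical exact {z ∈ BX L | ENNReal.ofReal θ ≤ SB ν L N j c z.1 z.2 ∧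
    (X ∩ cell L N j (fun i => z.1 i + 2 ^ L * c i) z.2).Nonempty}

lemma sum_XB {X : Set E3} {θ : ℝ} (j : ℤ) (c : Fin 2 → ℤ) :
    ∑ t ∈ range (2 ^ L), ∑' P : Fin 2 → ℤ, Ix L N X j (fun i => P i + 2 ^ L * c i) t *
      TB ν L N θ j c P t = ∑ z ∈ XB ν L N X θ j c, SB ν L N j c z.1 z.2 := by
  classical
  have h1 : ∀ t ∈ range (2 ^ L), ∑' P : Fin 2 → ℤ, Ix L N X j (fun i => P i + 2 ^ L * c i) t *
      TB ν L N θ j c P t = ∑ P ∈ Fintype.piFinset fun _ : Fin 2 => Finset.Ico (0:ℤ) (2 * 2 ^ L),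
        Ix L N X j (fun i => P i + 2 ^ L * c i) t * TB ν L N θ j c P t := by
    intro t ht
    refine tsum_eq_sum fun P hP => ?_
    have h2 : SB ν L N j c P t = 0 := by
      refine SB_zero (mem_range.1 ht) fun h3 => hP ?_
      unfold BX at h3
      exact (mem_product.1 h3).1
    have h3 : TB ν L N θ j c P t = 0 := le_antisymm (TB_le.trans h2.le) zero_le
    rw [h3, mul_zero]
  rw [sum_congr rfl h1]
  unfold XB
  rw [sum_filter]
  unfold BX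
  rw [sum_product_right]
  refine sum_congr rfl fun t _ => sum_congr rfl fun P _ => ?_
  unfold Ix TB
  by_cases h2 : (X ∩ cell L N j (fun i => P i + 2 ^ L * c i) t).Nonempty
  · by_cases h3 : ENNReal.ofReal θ ≤ SB ν L N j c P t
    · rw [if_pos h2, if_pos h3, if_pos ⟨h3, h2⟩, one_mul]
    · rw [if_pos h2, if_neg h3, if_neg (fun h => h3 h.1), one_mul]
  · rw [if_neg h2, zero_mul]
    symm
    apply if_neg
    rintro ⟨-, h⟩
    exact h2 h

/-- **Choice of a block.** -/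
theorem block (h3 : StG3A) (hN : 1 ≤ N) (hL2 : 2 ^ L ≤ 2 * N)
    (hν : ∀ k x y, ν k x ≤ ENNReal.ofReal ((1 + gam N k (x - y)) ^ M) * ν k y)
    (hfin : ∀ k x, ν k x ≠ ∞) {X : Set E3} (hXm : MeasurableSet X) {σ : ℝ} (hσ : 0 < σ)
    (hX : ∀ z ∈ X, ENNReal.ofReal σ ≤ ∑ k ∈ Gk N, ν k z) {lam : ℝ} (hlam : 0 < lam)
    (hmass : ENNReal.ofReal lam * ∫⁻ z, ∑ k ∈ Gk N, ν k z ≤ ∫⁻ z in X, ∑ k ∈ Gk N, ν k z)
    (hpos : ∫⁻ z in X, ∑ k ∈ Gk N, ν k z ≠ 0) (hfin2 : ∫⁻ z, ∑ k ∈ Gk N, ν k z ≠ ∞) :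
    ∃ (j : ℤ) (c : Fin 2 → ℤ),
      ENNReal.ofReal (lam / (2 * (16 ^ M) ^ 2)) * (2 ^ L * WB ν L N j c) ≤
        ∑ z ∈ XB ν L N X (σ / (8 * 16 ^ M)) j c, SB ν L N j c z.1 z.2 ∧
      ∑ z ∈ XB ν L N X (σ / (8 * 16 ^ M)) j c, SB ν L N j c z.1 z.2 ≠ 0 := by
  have hN0 : (0:ℝ) < N := by exact_mod_cast hN
  set θ : ℝ := σ / (8 * 16 ^ M) with hθ
  set a : ℤ × (Fin 2 → ℤ) → ℝ≥0∞ := fun r => ∑ z ∈ XB ν L N X θ r.1 r.2, SB ν L N r.1 r.2 z.1 z.2 with ha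
  have hlow := lower_cells (L := L) (N := N) (M := M) (ν := ν) hN hL2 hν
  have hup := upper_cells (L := L) (N := N) (M := M) (ν := ν) hN hL2 hν hXm
  set B : ℝ≥0∞ := ∑' q : CI L, SD ν L N q.1 q.2.1 q.2.2.val with hB
  set A : ℝ≥0∞ := ∑' q : CI L, Ix L N X q.1 q.2.1 q.2.2.val * SD ν L N q.1 q.2.1 q.2.2.val with hA
  have hN3 : ENNReal.ofReal ((N:ℝ) ^ 3) ≠ 0 := by
    rw [Ne, ENNReal.ofReal_eq_zero, not_le]
    positivity
  have h16 : ENNReal.ofReal ((16:ℝ) ^ M) ≠ 0 := by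
    rw [Ne, ENNReal.ofReal_eq_zero, not_le]
    positivity
  have hBfin : B ≠ ∞ := by
    intro h
    rw [h, ENNReal.mul_top hN3, top_le_iff] at hlow
    exact (ENNReal.mul_ne_top ENNReal.ofReal_ne_top hfin2) hlow
  -- the truncated sums
  have hAa : A ≤ 2 * ∑' r, a r := by
    have h4 : A ≤ ∑' q : CI L, 2 * ∑' c : Fin 2 → ℤ, Ix L N X q.1 q.2.1 q.2.2.val *
        TB ν L N θ q.1 c (fun i => q.2.1 i - 2 ^ L * c i) q.2.2.val :=
      ENNReal.tsum_le_tsum fun q => SD_le_TB h3 hN hL2 hν hfin hσ hX q.1 q.2.1 q.2.2.isLt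
    refine h4.trans (le_of_eq ?_)
    rw [ENNReal.tsum_mul_left]
    congr 1
    have h5 := tsum_blocks (L := L) (fun j c P t => Ix L N X j (fun i => P i + 2 ^ L * c i) t *
      TB ν L N θ j c P t)
    rw [ha]
    simp only [sum_XB] at h5
    rw [← h5]
    refine tsum_congr fun q => tsum_congr fun c => ?_
    congr 2
    funext i
    ring
  have haB : ∑' r, a r ≤ B := by
    rw [hB, ← mass_blocks h3]
    refine ENNReal.tsum_le_tsum fun r => ?_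
    rw [ha]
    simp only
    rw [← sum_XB]
    calc ∑ t ∈ range (2 ^ L), ∑' P : Fin 2 → ℤ, Ix L N X r.1 (fun i => P i + 2 ^ L * r.2 i) t *
          TB ν L N θ r.1 r.2 P t
        ≤ ∑ t ∈ range (2 ^ L), WB ν L N r.1 r.2 := by
          refine sum_le_sum fun t _ => ?_
          rw [← tsum_SB (L := L) (N := N) (ν := ν) r.1 r.2 t]
          refine ENNReal.tsum_le_tsum fun P => ?_
          refine le_trans ?_ (TB_le (θ := θ))
          have : Ix L N X r.1 (fun i => P i + 2 ^ L * r.2 i) t ≤ 1 := by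
            unfold Ix
            split_ifs <;> simp
          calc _ ≤ 1 * TB ν L N θ r.1 r.2 P t := by gcongr
            _ = _ := one_mul _
      _ = _ := by
          rw [sum_const, card_range, nsmul_eq_mul]
          push_cast
          rfl
  have hkey : ENNReal.ofReal lam * (ENNReal.ofReal ((N:ℝ) ^ 3) * B) ≤
      ENNReal.ofReal (16 ^ M) * (ENNReal.ofReal (16 ^ M) * ENNReal.ofReal ((N:ℝ) ^ 3) * A) := by
    calc ENNReal.ofReal lam * (ENNReal.ofReal ((N:ℝ) ^ 3) * B)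
        ≤ ENNReal.ofReal lam * (ENNReal.ofReal (16 ^ M) * ∫⁻ z, ∑ k ∈ Gk N, ν k z) := by gcongr
      _ = ENNReal.ofReal (16 ^ M) * (ENNReal.ofReal lam * ∫⁻ z, ∑ k ∈ Gk N, ν k z) := by ring
      _ ≤ ENNReal.ofReal (16 ^ M) * ∫⁻ z in X, ∑ k ∈ Gk N, ν k z := by gcongr
      _ ≤ _ := by gcongr
  have hkey2 : ENNReal.ofReal (lam / (2 * (16 ^ M) ^ 2)) * B ≤ ∑' r, a r := by
    have h4 : ENNReal.ofReal ((N:ℝ) ^ 3) * (ENNReal.ofReal lam * B) ≤ ENNReal.ofReal ((N:ℝ) ^ 3) *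
        (ENNReal.ofReal ((16 ^ M) ^ 2) * A) := by
      rw [pow_two, ENNReal.ofReal_mul (by positivity)]
      calc _ = ENNReal.ofReal lam * (ENNReal.ofReal ((N:ℝ) ^ 3) * B) := by ring
        _ ≤ _ := hkey
        _ = _ := by ring
    have h5 := (ENNReal.mul_le_mul_iff_right hN3 ENNReal.ofReal_ne_top).1 h4
    have h6 : ENNReal.ofReal lam * B ≤ ENNReal.ofReal (2 * (16 ^ M) ^ 2) * ∑' r, a r := by
      rw [ENNReal.ofReal_mul (by norm_num)]
      calc _ ≤ _ := h5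
        _ ≤ ENNReal.ofReal ((16 ^ M) ^ 2) * (2 * ∑' r, a r) := by gcongr
        _ = _ := by
          rw [show ENNReal.ofReal 2 = 2 by simp]
          ring
    have h7 : ENNReal.ofReal lam = ENNReal.ofReal (2 * (16 ^ M) ^ 2) *
        ENNReal.ofReal (lam / (2 * (16 ^ M) ^ 2)) := by
      rw [← ENNReal.ofReal_mul (by positivity)]
      congr 1
      field_simp
    rw [h7, mul_assoc] at h6
    refine (ENNReal.mul_le_mul_iff_right ?_ ENNReal.ofReal_ne_top).1 h6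
    rw [Ne, ENNReal.ofReal_eq_zero, not_le]
    positivity
  have ha0 : ∑' r, a r ≠ 0 := by
    intro h
    rw [h, mul_zero] at hAa
    have hA0 : A = 0 := le_antisymm hAa zero_le
    rw [hA0, mul_zero] at hup
    exact hpos (le_antisymm hup zero_le)
  obtain ⟨r, hr1, hr2⟩ := pigeon_tsum (a := a)
    (b := fun r => ENNReal.ofReal (lam / (2 * (16 ^ M) ^ 2)) * (2 ^ L * WB ν L N r.1 r.2)) (by
      rw [ENNReal.tsum_mul_left, mass_blocks h3]
      exact hkey2) (ne_top_of_le_ne_top hBfin haB) ha0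
  exact ⟨r.1, r.2, hr1, hr2⟩

end sums

end Vale.Agent.P117.K.Geo
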