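import Vale.Agent.P117.K.GeoDefs2

/-!
# P117 / K : block GEO3, statement [G2]: the weights of the lines are Katz-Tao

For the cap `k` and the base point `b` the tube `Tb N L k b` consists of the points
`b + (d + τ s_k, τ)`, `d ∈ [0,N)²`, `τ ∈ [0, N 2^L)`.  The gauge `gam N k` is bounded on it, so the
density at `b` is at most a constant times its average over the tube; the tubes of different lateral
cells are disjoint, and those of a plank of lines lie in a box of `k4`.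
-/

namespace Vale.Agent.P117.K

open Finset MeasureTheory Set Vale.Agent.P127 Vale.Agent.P127.Stk Vale.Agent.P127.M3
open scoped ENNReal

/-- sheared box -/
def Shb (s0 s1 r h : ℝ) (b : V3) : Set V3 :=
  {z | z 0 - b 0 - (z 2 - b 2) * s0 ∈ Ico 0 r ∧ z 1 - b 1 - (z 2 - b 2) * s1 ∈ Ico 0 r ∧
    z 2 - b 2 ∈ Ico 0 h}

theorem meas_Shb (s0 s1 r h : ℝ) (b : V3) : MeasurableSet (Shb s0 s1 r h b) := by
  unfold Shb
  have h0 : Measurable (fun z : V3 => z 0) := by fun_prop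
  have h1 : Measurable (fun z : V3 => z 1) := by fun_prop
  have h2 : Measurable (fun z : V3 => z 2) := by fun_prop
  have e0 : MeasurableSet ((fun z : V3 => z 0 - b 0 - (z 2 - b 2) * s0) ⁻¹' Ico 0 r) :=
    ((h0.sub_const _).sub ((h2.sub_const _).mul_const _)) measurableSet_Ico
  have e1 : MeasurableSet ((fun z : V3 => z 1 - b 1 - (z 2 - b 2) * s1) ⁻¹' Ico 0 r) :=
    ((h1.sub_const _).sub ((h2.sub_const _).mul_const _)) measurableSet_Ico
  have e2 : MeasurableSet ((fun z : V3 => z 2 - b 2) ⁻¹' Ico 0 h) :=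
    (h2.sub_const _) measurableSet_Ico
  exact e0.inter (e1.inter e2)

theorem vol_Shb (s0 s1 r h : ℝ) (hr : 0 ≤ r) (b : V3) :
    volume (Shb s0 s1 r h b) = ENNReal.ofReal (r * r * h) := by
  set T0 : Set V3 := {z | z 0 - z 2 * s0 ∈ Ico 0 r ∧ z 1 - z 2 * s1 ∈ Ico 0 r ∧ z 2 ∈ Ico 0 h} with hT0
  have e1 : Shb s0 s1 r h b = (fun z => z - b) ⁻¹' T0 := by
    ext z; simp [Shb, hT0]
  set f : (Fin 3 → ℝ) →ₗ[ℝ] (Fin 3 → ℝ) :=
    Matrix.toLin' !![1, 0, -s0; 0, 1, -s1; 0, 0, 1] with hf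
  have hdet : LinearMap.det f = 1 := by
    rw [hf, LinearMap.det_toLin', Matrix.det_fin_three]; simp
  set T1 : Set (Fin 3 → ℝ) := f ⁻¹' (Set.pi univ fun i => Ico ((0 : Fin 3 → ℝ) i) (![r, r, h] i)) with hT1
  have e2 : T0 = (WithLp.ofLp) ⁻¹' T1 := by
    ext z
    simp only [hT0, hT1, hf, Set.mem_ofPred_eq, Set.mem_preimage, Set.mem_pi, Set.mem_univ, true_imp_iff,
      Fin.forall_fin_succ, Matrix.toLin'_apply, Matrix.mulVec, dotProduct, Fin.sum_univ_three]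
    simp
    constructor
    · rintro ⟨⟨h1, h2⟩, ⟨h3, h4⟩, h5, h6⟩
      exact ⟨⟨by linarith, by linarith⟩, ⟨by linarith, by linarith⟩, h5, h6⟩
    · rintro ⟨⟨h1, h2⟩, ⟨h3, h4⟩, h5, h6⟩
      exact ⟨⟨by linarith, by linarith⟩, ⟨by linarith, by linarith⟩, h5, h6⟩
  have hm1 : MeasurableSet (Set.pi univ fun i => Ico ((0 : Fin 3 → ℝ) i) (![r, r, h] i)) :=
    MeasurableSet.univ_pi fun i => measurableSet_Ico
  have hfm : Measurable f := f.continuous_of_finiteDimensional.measurable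
  have hm2 : MeasurableSet T1 := hfm hm1
  rw [e1, show (fun z : V3 => z - b) = (fun z => z + (-b)) from by ext1 z; rw [sub_eq_add_neg],
    measure_preimage_add_right, e2,
    (PiLp.volume_preserving_ofLp (Fin 3)).measure_preimage hm2.nullMeasurableSet, hT1,
    Measure.addHaar_preimage_linearMap volume (by rw [hdet]; exact one_ne_zero), hdet,
    Real.volume_pi_Ico]
  simp [Fin.prod_univ_three]
  rw [← ENNReal.ofReal_mul hr, ← ENNReal.ofReal_mul (mul_nonneg hr hr)]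

theorem vv_nonneg (N : ℕ) (k : ℤ × ℤ) : 0 ≤ vv N k := by unfold vv; positivity

theorem vv_le {N : ℕ} (hN : 1 ≤ N) {k : ℤ × ℤ} (hk : k ∈ Gk N) : vv N k ≤ 1 / 8 := by
  simp only [Gk, Finset.mem_filter] at hk
  obtain ⟨-, h1, h2⟩ := hk
  have hN0 : (0:ℝ) < N := by exact_mod_cast hN
  have key : ∀ m : ℤ, 4 * |m| ≤ N → ((m:ℝ) / N) ^ 2 ≤ 1 / 16 := by
    intro m hm
    have h3 : (4:ℝ) * |(m:ℝ)| ≤ N := by exact_mod_cast hm
    have h4 : |(m:ℝ) / N| ≤ 1 / 4 := by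
      rw [abs_div, abs_of_pos hN0, div_le_iff₀ hN0]; linarith
    have h5 := abs_le.1 h4
    nlinarith [h5.1, h5.2]
  have := key _ h1
  have := key _ h2
  unfold vv; linarith

theorem norm_wk (N : ℕ) (k : ℤ × ℤ) : ‖wk N k‖ = 1 := by
  have h := vv_nonneg N k
  have h1 : (1 + vv N k) ≠ 0 := by positivity
  rw [← sq_eq_sq₀ (norm_nonneg _) zero_le_one, EuclideanSpace.norm_sq_eq, Fin.sum_univ_three]
  simp only [wk, Real.norm_eq_abs, sq_abs]
  simp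
  field_simp
  unfold vv
  ring

theorem norm_flat {d0 d1 r : ℝ} (h0 : |d0| ≤ r) (h1 : |d1| ≤ r) :
    ‖(!₂[d0, d1, 0] : V3)‖ ≤ 2 * r := by
  have hr : 0 ≤ r := (abs_nonneg _).trans h0
  rw [EuclideanSpace.norm_eq, Fin.sum_univ_three]
  apply Real.sqrt_le_iff.2
  refine ⟨by positivity, ?_⟩
  simp only [Real.norm_eq_abs, sq_abs]
  simp
  have a0 : d0 ^ 2 ≤ r ^ 2 := sq_le_sq' (by linarith [(abs_le.1 h0).1]) (abs_le.1 h0).2
  have a1 : d1 ^ 2 ≤ r ^ 2 := sq_le_sq' (by linarith [(abs_le.1 h1).1]) (abs_le.1 h1).2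
  nlinarith

/-- the vector `(s_k, 1)` is a multiple of `wk` -/
theorem sk_vec {N : ℕ} (hN : 1 ≤ N) {k : ℤ × ℤ} (hk : k ∈ Gk N) :
    (!₂[sk N k 0, sk N k 1, 1] : V3) = ((1 + vv N k) / (1 - vv N k)) • wk N k := by
  have h := vv_nonneg N k
  have h8 := vv_le hN hk
  have h1 : (1 + vv N k) ≠ 0 := by positivity
  have h2 : (1 - vv N k) ≠ 0 := by linarith
  ext i
  fin_cases i
  · simp [wk, sk]; field_simp
  · simp [wk, sk]; field_simp
  · simp [wk, sk]; field_simp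

theorem gam_le_of_shb {N L : ℕ} (hN : 1 ≤ N) (hL : 2 ^ L ≤ 2 * N) {k : ℤ × ℤ} (hk : k ∈ Gk N)
    {b z : V3} (hz : z ∈ Shb (sk N k 0) (sk N k 1) N (N * 2 ^ L) b) : gam N k (b - z) ≤ 9 := by
  have h := vv_nonneg N k
  have h8 := vv_le hN hk
  have hN1 : (1:ℝ) ≤ N := by exact_mod_cast hN
  have hN0 : (0:ℝ) < N := by linarith
  have hL' : (2:ℝ) ^ L ≤ 2 * N := by exact_mod_cast hL
  obtain ⟨⟨a1, a2⟩, ⟨a3, a4⟩, a5, a6⟩ := hz
  set τ := z 2 - b 2 with hτ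
  set c := (1 + vv N k) / (1 - vv N k) with hc
  have hc0 : 0 ≤ c := by rw [hc]; apply div_nonneg <;> linarith
  have hc1 : c ≤ 9 / 7 := by rw [hc, div_le_iff₀ (by linarith)]; linarith
  set δ : V3 := !₂[z 0 - b 0 - τ * sk N k 0, z 1 - b 1 - τ * sk N k 1, 0] with hδ
  have hδn : ‖δ‖ ≤ 2 * N := by
    apply norm_flat
    · rw [abs_of_nonneg a1]; exact a2.le
    · rw [abs_of_nonneg a3]; exact a4.le
  have hw := norm_wk N k
  have hdec : b - z = (-(τ * c)) • wk N k - δ := by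
    have e : (-(τ * c)) • wk N k = (-τ) • (!₂[sk N k 0, sk N k 1, 1] : V3) := by
      rw [sk_vec hN hk, smul_smul]; congr 1; ring
    rw [e, hδ]
    ext i
    fin_cases i
    · simp; ring
    · simp; ring
    · simp [hτ]
  have hin : |inner ℝ δ (wk N k)| ≤ 2 * N := by
    have := abs_real_inner_le_norm δ (wk N k)
    rw [hw, mul_one] at this
    exact this.trans hδn
  have hww : inner ℝ (wk N k) (wk N k) = (1:ℝ) := by
    rw [real_inner_self_eq_norm_sq, hw]; norm_num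
  have hx : inner ℝ (b - z) (wk N k) = -(τ * c) - inner ℝ δ (wk N k) := by
    rw [hdec, inner_sub_left, real_inner_smul_left, hww, mul_one]
  have hτc : τ * c ≤ 18 / 7 * (N:ℝ) ^ 2 := by
    calc τ * c ≤ (N * 2 ^ L) * (9 / 7) := mul_le_mul a6.le hc1 hc0 (by positivity)
      _ ≤ (N * (2 * N)) * (9 / 7) := by gcongr
      _ = _ := by ring
  have hNN : (N:ℝ) ≤ (N:ℝ) ^ 2 := by nlinarith
  have h1 : |inner ℝ (b - z) (wk N k)| ≤ 5 * (N:ℝ) ^ 2 := by
    rw [hx]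
    have t1 := abs_le.1 hin
    have t2 : 0 ≤ τ * c := mul_nonneg a5 hc0
    rw [abs_le]; constructor <;> nlinarith [t1.1, t1.2]
  have h2 : ‖b - z - (inner ℝ (b - z) (wk N k)) • wk N k‖ ≤ 4 * N := by
    have e : b - z - (inner ℝ (b - z) (wk N k)) • wk N k = (inner ℝ δ (wk N k) : ℝ) • wk N k - δ := by
      rw [hx, hdec, sub_smul]; abel
    rw [e]
    calc _ ≤ ‖(inner ℝ δ (wk N k) : ℝ) • wk N k‖ + ‖δ‖ := norm_sub_le _ _
      _ = |inner ℝ δ (wk N k)| + ‖δ‖ := by rw [norm_smul, hw, mul_one, Real.norm_eq_abs]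
      _ ≤ 2 * N + 2 * N := add_le_add hin hδn
      _ = _ := by ring
  unfold gam
  have h3 : ‖b - z - (inner ℝ (b - z) (wk N k)) • wk N k‖ / N ≤ 4 := by
    rw [div_le_iff₀ hN0]; exact h2
  have h4 : |inner ℝ (b - z) (wk N k)| / (N:ℝ) ^ 2 ≤ 5 := by
    rw [div_le_iff₀ (by positivity)]; exact h1
  linarith

theorem point_le {N L : ℕ} {C2 A K : ℝ} {M : ℕ} {n : ℤ × ℤ → V3 → ℝ≥0∞} (hD : Dens N C2 M A K n)
    (hC2 : 0 ≤ C2) (hN : 1 ≤ N) (hL1 : N ≤ 2 ^ L) (hL : 2 ^ L ≤ 2 * N) {k : ℤ × ℤ} (hk : k ∈ Gk N)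
    (b : V3) :
    n k b * ENNReal.ofReal ((N:ℝ) ^ 4) ≤ ENNReal.ofReal (C2 * 10 ^ M) *
      ∫⁻ z in Shb (sk N k 0) (sk N k 1) N (N * 2 ^ L) b, n k z := by
  have hN1 : (1:ℝ) ≤ N := by exact_mod_cast hN
  have hL1' : (N:ℝ) ≤ (2:ℝ) ^ L := by exact_mod_cast hL1
  have hv : ENNReal.ofReal ((N:ℝ) ^ 4) ≤ volume (Shb (sk N k 0) (sk N k 1) N (N * 2 ^ L) b) := by
    rw [vol_Shb _ _ _ _ (by positivity)]
    apply ENNReal.ofReal_le_ofReal
    calc (N:ℝ) ^ 4 = N * N * (N * N) := by ring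
      _ ≤ N * N * (N * 2 ^ L) := by gcongr
  calc n k b * ENNReal.ofReal ((N:ℝ) ^ 4)
      ≤ n k b * volume (Shb (sk N k 0) (sk N k 1) N (N * 2 ^ L) b) := by gcongr
    _ = ∫⁻ z in Shb (sk N k 0) (sk N k 1) N (N * 2 ^ L) b, n k b := by
        rw [setLIntegral_const]
    _ ≤ ∫⁻ z in Shb (sk N k 0) (sk N k 1) N (N * 2 ^ L) b, ENNReal.ofReal (C2 * 10 ^ M) * n k z := by
        apply setLIntegral_mono' (meas_Shb _ _ _ _ _)
        intro z hz
        refine (hD.k2 k hk b z).trans ?_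
        have hg := gam_le_of_shb hN hL hk hz
        have hg0 : 0 ≤ gam N k (b - z) := by unfold gam; positivity
        gcongr
        linarith
    _ = _ := lintegral_const_mul _ (hD.meas k)

/-! ### the frame of a plank -/

noncomputable def fu0 (n s : Fin 2 → ℝ) : V3 := !₂[n 0, n 1, -(n 0 * s 0 + n 1 * s 1)]
noncomputable def fu1 (n s : Fin 2 → ℝ) : V3 :=
  !₂[-(s 1 * (n 0 * s 0 + n 1 * s 1)) - n 1, n 0 + s 0 * (n 0 * s 0 + n 1 * s 1), s 0 * n 1 - s 1 * n 0]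
noncomputable def fu2 (s : Fin 2 → ℝ) : V3 := !₂[s 0, s 1, 1]

noncomputable def frm (n s : Fin 2 → ℝ) : Fin 3 → V3 :=
  ![‖fu0 n s‖⁻¹ • fu0 n s, ‖fu1 n s‖⁻¹ • fu1 n s, ‖fu2 s‖⁻¹ • fu2 s]

theorem inner3 (x y : V3) : inner ℝ x y = x 0 * y 0 + x 1 * y 1 + x 2 * y 2 := by
  rw [EuclideanSpace.inner_eq_star_dotProduct]
  simp [dotProduct, Fin.sum_univ_three]
  ring

theorem norm_fu2 (s : Fin 2 → ℝ) : 1 ≤ ‖fu2 s‖ := by
  have h : ‖fu2 s‖ ^ 2 = 1 + s 0 ^ 2 + s 1 ^ 2 := by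
    rw [← real_inner_self_eq_norm_sq, inner3]; simp [fu2]; ring
  by_contra hc
  push Not at hc
  nlinarith [norm_nonneg (fu2 s), sq_nonneg (s 0), sq_nonneg (s 1)]

theorem norm_fu0 {n : Fin 2 → ℝ} (hn : n 0 ^ 2 + n 1 ^ 2 = 1) (s : Fin 2 → ℝ) : 1 ≤ ‖fu0 n s‖ := by
  have h : ‖fu0 n s‖ ^ 2 = 1 + (n 0 * s 0 + n 1 * s 1) ^ 2 := by
    rw [← real_inner_self_eq_norm_sq, inner3, ← hn]; simp [fu0]; ring
  by_contra hc
  push Not at hc
  nlinarith [norm_nonneg (fu0 n s), sq_nonneg (n 0 * s 0 + n 1 * s 1)]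

theorem norm_fu1 {n : Fin 2 → ℝ} (hn : n 0 ^ 2 + n 1 ^ 2 = 1) (s : Fin 2 → ℝ) : 1 ≤ ‖fu1 n s‖ := by
  have h : ‖fu1 n s‖ ^ 2 = (1 + s 0 ^ 2 + s 1 ^ 2) * (n 0 ^ 2 + n 1 ^ 2 + (n 0 * s 0 + n 1 * s 1) ^ 2) := by
    rw [← real_inner_self_eq_norm_sq, inner3]
    simp [fu1]
    ring
  rw [hn] at h
  by_contra hc
  push Not at hc
  nlinarith [norm_nonneg (fu1 n s), sq_nonneg (n 0 * s 0 + n 1 * s 1), sq_nonneg (s 0), sq_nonneg (s 1),
    mul_nonneg (add_nonneg (sq_nonneg (s 0)) (sq_nonneg (s 1))) (sq_nonneg (n 0 * s 0 + n 1 * s 1))]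

theorem orthonormal_frm {n : Fin 2 → ℝ} (hn : n 0 ^ 2 + n 1 ^ 2 = 1) (s : Fin 2 → ℝ) :
    Orthonormal ℝ (frm n s) := by
  have h0 := norm_fu0 hn s
  have h1 := norm_fu1 hn s
  have h2 := norm_fu2 s
  have i01 : inner ℝ (fu0 n s) (fu1 n s) = (0:ℝ) := by rw [inner3]; simp [fu0, fu1]; ring
  have i02 : inner ℝ (fu0 n s) (fu2 s) = (0:ℝ) := by rw [inner3]; simp [fu0, fu2]
  have i12 : inner ℝ (fu1 n s) (fu2 s) = (0:ℝ) := by rw [inner3]; simp [fu1, fu2]; ring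
  have i10 : inner ℝ (fu1 n s) (fu0 n s) = (0:ℝ) := by rw [real_inner_comm]; exact i01
  have i20 : inner ℝ (fu2 s) (fu0 n s) = (0:ℝ) := by rw [real_inner_comm]; exact i02
  have i21 : inner ℝ (fu2 s) (fu1 n s) = (0:ℝ) := by rw [real_inner_comm]; exact i12
  have nn : ∀ u : V3, 1 ≤ ‖u‖ → ‖‖u‖⁻¹ • u‖ = 1 := by
    intro u hu
    rw [norm_smul, norm_inv, norm_norm, inv_mul_cancel₀ (by linarith)]
  constructor
  · intro i
    fin_cases i
    · exact nn _ h0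
    · exact nn _ h1
    · exact nn _ h2
  · intro i j hij
    fin_cases i <;> fin_cases j <;>
      simp_all [frm, real_inner_smul_left, real_inner_smul_right]

/-- components of a vector `(p, 0) + τ (s, 1)` in the frame -/
theorem frm_bounds {n : Fin 2 → ℝ} (hn : n 0 ^ 2 + n 1 ^ 2 = 1) {s : Fin 2 → ℝ} (hs : ∀ i, |s i| ≤ 1)
    {p : Fin 2 → ℝ} {τ B1 B2 : ℝ} (h1 : |n 0 * p 0 + n 1 * p 1| ≤ B1)
    (h2 : |-(n 1) * p 0 + n 0 * p 1| ≤ B2) (h12 : B1 ≤ B2) {v : V3}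
    (hv : v = !₂[p 0, p 1, 0] + τ • fu2 s) :
    |inner ℝ v (frm n s 0)| ≤ B1 ∧ |inner ℝ v (frm n s 1)| ≤ 9 * B2 ∧ ‖v‖ ≤ 4 * B2 + 3 * |τ| := by
  have hB1 : 0 ≤ B1 := (abs_nonneg _).trans h1
  have hB2 : 0 ≤ B2 := (abs_nonneg _).trans h2
  have g0 := norm_fu0 hn s
  have g1 := norm_fu1 hn s
  have key : ∀ u : V3, 1 ≤ ‖u‖ → ∀ B : ℝ, |inner ℝ v u| ≤ B → |inner ℝ v (‖u‖⁻¹ • u)| ≤ B := by
    intro u hu B hB
    rw [real_inner_smul_right, abs_mul, abs_inv, abs_of_pos (by linarith)]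
    calc ‖u‖⁻¹ * |inner ℝ v u| ≤ 1 * |inner ℝ v u| := by
          gcongr
          exact inv_le_one_of_one_le₀ hu
      _ ≤ B := by rw [one_mul]; exact hB
  have n0 : |n 0| ≤ 1 := by
    rw [← sq_le_one_iff_abs_le_one]; nlinarith [sq_nonneg (n 1)]
  have n1 : |n 1| ≤ 1 := by
    rw [← sq_le_one_iff_abs_le_one]; nlinarith [sq_nonneg (n 0)]
  have mb : ∀ x y : ℝ, |x| ≤ 1 → |y| ≤ 1 → |x * s 0 + y * s 1| ≤ 2 := by
    intro x y hx hy
    calc |x * s 0 + y * s 1| ≤ |x * s 0| + |y * s 1| := abs_add_le _ _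
      _ = |x| * |s 0| + |y| * |s 1| := by rw [abs_mul, abs_mul]
      _ ≤ 1 * 1 + 1 * 1 := by
        have := hs 0
        have := hs 1
        gcongr
      _ = 2 := by norm_num
  refine ⟨?_, ?_, ?_⟩
  · apply key _ g0
    have e : inner ℝ v (fu0 n s) = n 0 * p 0 + n 1 * p 1 := by
      rw [hv, inner3]; simp [fu0, fu2]; ring
    rw [e]; exact h1
  · apply key _ g1
    set α := n 0 * p 0 + n 1 * p 1 with hα
    set β := -(n 1) * p 0 + n 0 * p 1 with hβ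
    have e : inner ℝ v (fu1 n s) = β + (n 0 * s 0 + n 1 * s 1) * ((n 0 * s 0 + n 1 * s 1) * β -
        (-(n 1) * s 0 + n 0 * s 1) * α) := by
      rw [hv, inner3]; simp [fu1, fu2]
      rw [hα, hβ]
      linear_combination (s 0 * p 1 - s 1 * p 0) * (n 0 * s 0 + n 1 * s 1) * (-1) * hn
    rw [e]
    have m1 := mb _ _ n0 n1
    have m2 := mb (-(n 1)) (n 0) (by rwa [abs_neg]) n0
    calc _ ≤ |β| + |(n 0 * s 0 + n 1 * s 1) * ((n 0 * s 0 + n 1 * s 1) * β -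
        (-(n 1) * s 0 + n 0 * s 1) * α)| := abs_add_le _ _
      _ = |β| + |n 0 * s 0 + n 1 * s 1| * |(n 0 * s 0 + n 1 * s 1) * β -
        (-(n 1) * s 0 + n 0 * s 1) * α| := by rw [abs_mul]
      _ ≤ |β| + |n 0 * s 0 + n 1 * s 1| * (|(n 0 * s 0 + n 1 * s 1) * β| +
        |(-(n 1) * s 0 + n 0 * s 1) * α|) := by
          gcongr; exact abs_sub _ _
      _ = |β| + |n 0 * s 0 + n 1 * s 1| * (|(n 0 * s 0 + n 1 * s 1)| * |β| +
        |(-(n 1) * s 0 + n 0 * s 1)| * |α|) := by rw [abs_mul, abs_mul]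
      _ ≤ B2 + 2 * (2 * B2 + 2 * B2) := by
          gcongr
          exact h1.trans h12
      _ = 9 * B2 := by ring
  · have hp0 : |p 0| ≤ 2 * B2 := by
      have e : p 0 = n 0 * (n 0 * p 0 + n 1 * p 1) + (-(n 1)) * (-(n 1) * p 0 + n 0 * p 1) := by
        linear_combination (-p 0) * hn
      rw [e]
      calc _ ≤ |n 0 * (n 0 * p 0 + n 1 * p 1)| + |(-(n 1)) * (-(n 1) * p 0 + n 0 * p 1)| := abs_add_le _ _
        _ = |n 0| * |n 0 * p 0 + n 1 * p 1| + |n 1| * |-(n 1) * p 0 + n 0 * p 1| := by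
            rw [abs_mul, abs_mul, abs_neg]
        _ ≤ 1 * B2 + 1 * B2 := by
            gcongr; exact h1.trans h12
        _ = _ := by ring
    have hp1 : |p 1| ≤ 2 * B2 := by
      have e : p 1 = n 1 * (n 0 * p 0 + n 1 * p 1) + n 0 * (-(n 1) * p 0 + n 0 * p 1) := by
        linear_combination (-p 1) * hn
      rw [e]
      calc _ ≤ |n 1 * (n 0 * p 0 + n 1 * p 1)| + |n 0 * (-(n 1) * p 0 + n 0 * p 1)| := abs_add_le _ _
        _ = |n 1| * |n 0 * p 0 + n 1 * p 1| + |n 0| * |-(n 1) * p 0 + n 0 * p 1| := by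
            rw [abs_mul, abs_mul]
        _ ≤ 1 * B2 + 1 * B2 := by
            gcongr; exact h1.trans h12
        _ = _ := by ring
    have hσ : ‖fu2 s‖ ≤ 3 := by
      have e : fu2 s = !₂[s 0, s 1, 0] + !₂[0, 0, 1] := by
        ext i; fin_cases i <;> simp [fu2]
      have t1 := norm_flat (hs 0) (hs 1)
      have t2 : ‖(!₂[0, 0, 1] : V3)‖ ≤ 1 := by
        rw [EuclideanSpace.norm_eq, Fin.sum_univ_three]; simp
      rw [e]
      linarith [norm_add_le (!₂[s 0, s 1, 0] : V3) !₂[0, 0, 1]]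
    rw [hv]
    calc _ ≤ ‖(!₂[p 0, p 1, 0] : V3)‖ + ‖τ • fu2 s‖ := norm_add_le _ _
      _ = ‖(!₂[p 0, p 1, 0] : V3)‖ + |τ| * ‖fu2 s‖ := by rw [norm_smul, Real.norm_eq_abs]
      _ ≤ 2 * (2 * B2) + |τ| * 3 := by
          have := norm_flat hp0 hp1
          gcongr
      _ = _ := by ring

/-- the tube of the line `l` and the cap `k` in the slab `j` -/
noncomputable def TbG (L N : ℕ) (j : ℤ) (c : Fin 2 → ℤ) (k : ℤ × ℤ) (l : LI) : Set V3 :=
  Shb (sk N k 0) (sk N k 1) N (N * 2 ^ L) (bpt L N j (fun i => 2 ^ L * c i + l.1 i))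

theorem TbG_disj {L N : ℕ} (hN : 1 ≤ N) (j : ℤ) (c : Fin 2 → ℤ) (k : ℤ × ℤ) {l l' : LI}
    (h2 : l.2 = l'.2) (hne : l ≠ l') : Disjoint (TbG L N j c k l) (TbG L N j c k l') := by
  have hN1 : (1:ℝ) ≤ N := by exact_mod_cast hN
  rw [Set.disjoint_left]
  intro z hz hz'
  apply hne
  have key : ∀ (x y : ℤ) (u c0 : ℝ), u - 2 * N * ((2:ℝ) ^ L * c0 + x) ∈ Set.Ico (0:ℝ) N →
      u - 2 * N * ((2:ℝ) ^ L * c0 + y) ∈ Set.Ico (0:ℝ) N → x = y := by
    intro x y u c0 h3 h4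
    obtain ⟨h5, h6⟩ := h3
    obtain ⟨h7, h8⟩ := h4
    by_contra hxy
    rcases lt_or_gt_of_ne hxy with h | h
    · have h9 : (x:ℝ) + 1 ≤ y := by exact_mod_cast h
      nlinarith
    · have h9 : (y:ℝ) + 1 ≤ x := by exact_mod_cast h
      nlinarith
  obtain ⟨a0, a1, -⟩ := hz
  obtain ⟨b0, b1, -⟩ := hz'
  simp [bpt] at a0 a1 b0 b1
  have f0 : l.1 0 = l'.1 0 := by
    apply key _ _ (z 0 - (z 2 - N * 2 ^ L * j) * sk N k 0) (c 0)
    · constructor
      · linarith [a0.1]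
      · linarith [a0.2]
    · constructor
      · linarith [b0.1]
      · linarith [b0.2]
  have f1 : l.1 1 = l'.1 1 := by
    apply key _ _ (z 1 - (z 2 - N * 2 ^ L * j) * sk N k 1) (c 1)
    · constructor
      · linarith [a1.1]
      · linarith [a1.2]
    · constructor
      · linarith [b1.1]
      · linarith [b1.2]
  apply Prod.ext _ h2
  funext i
  fin_cases i
  · exact f0
  · exact f1

theorem abs_comb {a b x y B : ℝ} (ha : |a| ≤ 1) (hb : |b| ≤ 1) (hx : |x| ≤ B) (hy : |y| ≤ B) :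
    |a * x + b * y| ≤ 2 * B := by
  have hB : 0 ≤ B := (abs_nonneg _).trans hx
  calc _ ≤ |a * x| + |b * y| := abs_add_le _ _
    _ = |a| * |x| + |b| * |y| := by rw [abs_mul, abs_mul]
    _ ≤ 1 * B + 1 * B := by gcongr
    _ = _ := by ring

/-- combination of position, error and slope in one component -/
theorem comp_bd {a b : ℝ} (ha : |a| ≤ 1) (hb : |b| ≤ 1) {P B X : ℝ} (hP : 1 ≤ P) (hB : 1 ≤ B)
    (hX : 1 ≤ X) {dx0 dx1 dy0 dy1 th0 th1 q0 q1 e0 e1 τ : ℝ}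
    (hdx : |a * dx0 + b * dx1| ≤ B) (hdy : |a * dy0 + b * dy1| ≤ B)
    (ht0 : |th0| ≤ 1) (ht1 : |th1| ≤ 1) (he0 : |e0| ≤ X) (he1 : |e1| ≤ X)
    (hq0 : q0 = 2 * (dy0 + th0) / P) (hq1 : q1 = 2 * (dy1 + th1) / P) (hτ0 : 0 ≤ τ)
    (hτ : τ ≤ X * P) :
    |a * q0 + b * q1| ≤ 6 * B / P ∧
    |a * (e0 + 2 * X * dx0 + τ * q0) + b * (e1 + 2 * X * dx1 + τ * q1)| ≤ 10 * (X * B) := by
  have h1 : |a * q0 + b * q1| ≤ 6 * B / P := by
    have e : a * q0 + b * q1 = 2 * ((a * dy0 + b * dy1) + (a * th0 + b * th1)) / P := by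
      rw [hq0, hq1]; ring
    rw [e, abs_div, abs_of_pos (by linarith : 0 < P), abs_mul, abs_two]
    have := abs_comb ha hb ht0 ht1
    apply div_le_div_of_nonneg_right _ (by linarith : (0:ℝ) ≤ P)
    have := abs_add_le (a * dy0 + b * dy1) (a * th0 + b * th1)
    nlinarith
  refine ⟨h1, ?_⟩
  have e : a * (e0 + 2 * X * dx0 + τ * q0) + b * (e1 + 2 * X * dx1 + τ * q1) =
      (a * e0 + b * e1) + 2 * X * (a * dx0 + b * dx1) + τ * (a * q0 + b * q1) := by ring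
  rw [e]
  have h2 := abs_comb ha hb he0 he1
  have h3 : |2 * X * (a * dx0 + b * dx1)| ≤ 2 * X * B := by
    rw [abs_mul, abs_of_pos (by linarith : 0 < 2 * X)]; gcongr
  have h4 : |τ * (a * q0 + b * q1)| ≤ (X * P) * (6 * B / P) := by
    rw [abs_mul, abs_of_nonneg hτ0]; gcongr
  have h5 : (X * P) * (6 * B / P) = 6 * (X * B) := by field_simp
  rw [h5] at h4
  have h6 := abs_add_le ((a * e0 + b * e1) + 2 * X * (a * dx0 + b * dx1)) (τ * (a * q0 + b * q1))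
  have h7 := abs_add_le (a * e0 + b * e1) (2 * X * (a * dx0 + b * dx1))
  nlinarith

/-- the boxes of the planks of lines -/
theorem plank_geo {N L : ℕ} (hN : 1 ≤ N) (hL1 : N ≤ 2 ^ L) (hL : 2 ^ L ≤ 2 * N) (j : ℤ)
    (c : Fin 2 → ℤ) {nn : Fin 2 → ℝ} (hn : nn 0 ^ 2 + nn 1 ^ 2 = 1) {a b : ℝ} (hb : 1 ≤ b)
    (hba : b ≤ a) (ha : a ≤ 2 * 2 ^ L) (ls l : LI) 
    (hls : ∀ i, 0 ≤ ls.2 i ∧ ls.2 i < 2 ^ L)
    (hx1 : |nn 0 * (l.1 0 - ls.1 0) + nn 1 * (l.1 1 - ls.1 1)| ≤ b)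
    (hy1 : |nn 0 * (l.2 0 - ls.2 0) + nn 1 * (l.2 1 - ls.2 1)| ≤ b)
    (hx2 : |-(nn 1) * (l.1 0 - ls.1 0) + nn 0 * (l.1 1 - ls.1 1)| ≤ a)
    (hy2 : |-(nn 1) * (l.2 0 - ls.2 0) + nn 0 * (l.2 1 - ls.2 1)| ≤ a)
    {k : ℤ × ℤ} (hk : k ∈ Gk N) (hkl : yk L N k = l.2) :
    (|inner ℝ (wk N k) (frm nn (fun i => 2 * (ls.2 i : ℝ) / 2 ^ L - 1) 0)| ≤
        1000 * (100 * (N * b)) / (N:ℝ) ^ 2 ∧
      |inner ℝ (wk N k) (frm nn (fun i => 2 * (ls.2 i : ℝ) / 2 ^ L - 1) 1)| ≤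
        1000 * (100 * (N * a)) / (N:ℝ) ^ 2) ∧
    TbG L N j c k l ⊆ Box (frm nn (fun i => 2 * (ls.2 i : ℝ) / 2 ^ L - 1))
      (bpt L N j (fun i => 2 ^ L * c i + ls.1 i)) (100 * (N * b)) (100 * (N * a))
        (1000 * (N:ℝ) ^ 2) := by
  set s : Fin 2 → ℝ := fun i => 2 * (ls.2 i : ℝ) / 2 ^ L - 1 with hs
  have hN1 : (1:ℝ) ≤ N := by exact_mod_cast hN
  have hN0 : (0:ℝ) < N := by linarith
  have hL1' : (N:ℝ) ≤ (2:ℝ) ^ L := by exact_mod_cast hL1
  have hL' : (2:ℝ) ^ L ≤ 2 * N := by exact_mod_cast hL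
  have hP1 : (1:ℝ) ≤ 2 ^ L := hN1.trans hL1'
  have hP0 : (0:ℝ) < 2 ^ L := by linarith
  have hs1 : ∀ i, |s i| ≤ 1 := by
    intro i
    have h1 : (0:ℝ) ≤ ls.2 i := by exact_mod_cast (hls i).1
    have h2 : (ls.2 i : ℝ) ≤ 2 ^ L := by exact_mod_cast (hls i).2.le
    have h3 : 2 * (ls.2 i : ℝ) / 2 ^ L ≤ 2 := by rw [div_le_iff₀ hP0]; linarith
    have h4 : 0 ≤ 2 * (ls.2 i : ℝ) / 2 ^ L := by positivity
    rw [hs, abs_le]; constructor <;> simp only <;> linarith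
  -- the error terms of the slopes
  have hth : ∀ i, ∃ θ : ℝ, |θ| ≤ 1 ∧ sk N k i - s i = 2 * ((l.2 i - ls.2 i) + θ) / 2 ^ L := by
    intro i
    refine ⟨Int.fract ((2:ℝ) ^ L * (sk N k i / 2 + 1 / 2)), ?_, ?_⟩
    · rw [abs_of_nonneg (Int.fract_nonneg _)]; exact (Int.fract_lt_one _).le
    · have h1 : (l.2 i : ℝ) = ⌊(2:ℝ) ^ L * (sk N k i / 2 + 1 / 2)⌋ := by
        rw [← hkl]; rfl
      rw [h1, hs]
      have h2 := Int.floor_add_fract ((2:ℝ) ^ L * (sk N k i / 2 + 1 / 2))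
      rw [eq_div_iff hP0.ne']
      have h3 : (sk N k i - (2 * (ls.2 i : ℝ) / 2 ^ L - 1)) * 2 ^ L =
          (2:ℝ) ^ L * (sk N k i + 1) - 2 * ls.2 i := by
        field_simp; ring
      rw [h3]; linarith
  obtain ⟨θ0, ht0, hq0⟩ := hth 0
  obtain ⟨θ1, ht1, hq1⟩ := hth 1
  have n0 : |nn 0| ≤ 1 := by
    rw [← sq_le_one_iff_abs_le_one]; nlinarith [sq_nonneg (nn 1)]
  have n1 : |nn 1| ≤ 1 := by
    rw [← sq_le_one_iff_abs_le_one]; nlinarith [sq_nonneg (nn 0)]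
  have n1' : |-(nn 1)| ≤ 1 := by rwa [abs_neg]
  have ha1 : 1 ≤ a := hb.trans hba
  have hv8 := vv_le hN hk
  have hv0 := vv_nonneg N k
  have onn := orthonormal_frm hn s
  constructor
  · -- directions
    have b1 := (comp_bd n0 n1 hP1 hb hN1 hx1 hy1 ht0 ht1 (e0 := 0) (e1 := 0) (by simp)
      (by simp) hq0 hq1 le_rfl (by positivity)).1
    have b2 := (comp_bd n1' n0 hP1 ha1 hN1 hx2 hy2 ht0 ht1 (e0 := 0) (e1 := 0) (by simp)
      (by simp) hq0 hq1 le_rfl (by positivity)).1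
    have fb := frm_bounds hn hs1 (p := fun i => sk N k i - s i) (τ := 1) b1 b2 (by gcongr)
      (v := !₂[sk N k 0, sk N k 1, 1]) (by
        ext i; fin_cases i <;> simp [fu2])
    have hc : wk N k = ((1 - vv N k) / (1 + vv N k)) • (!₂[sk N k 0, sk N k 1, 1] : V3) := by
      rw [sk_vec hN hk, smul_smul]
      have e1 : (1 - vv N k) ≠ 0 := by linarith
      have e2 : (1 + vv N k) ≠ 0 := by linarith
      rw [show (1 - vv N k) / (1 + vv N k) * ((1 + vv N k) / (1 - vv N k)) = 1 by field_simp, one_smul]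
    have hc1 : |(1 - vv N k) / (1 + vv N k)| ≤ 1 := by
      rw [abs_of_nonneg (div_nonneg (by linarith) (by linarith)), div_le_one (by linarith)]; linarith
    have gen : ∀ (u : V3) (B : ℝ), |inner ℝ (!₂[sk N k 0, sk N k 1, 1] : V3) u| ≤ B →
        |inner ℝ (wk N k) u| ≤ B := by
      intro u B hB
      rw [hc, real_inner_smul_left, abs_mul]
      calc _ ≤ 1 * |inner ℝ (!₂[sk N k 0, sk N k 1, 1] : V3) u| := by gcongr
        _ ≤ B := by rw [one_mul]; exact hB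
    have red : ∀ B : ℝ, 0 ≤ B → 9 * (6 * B / 2 ^ L) ≤ 1000 * (100 * (N * B)) / (N:ℝ) ^ 2 := by
      intro B hB
      have e : 1000 * (100 * (N * B)) / (N:ℝ) ^ 2 = 100000 * B / N := by field_simp; norm_num; ring
      rw [e]
      calc 9 * (6 * B / 2 ^ L) ≤ 9 * (6 * B / N) := by gcongr
        _ = 54 * B / N := by ring
        _ ≤ _ := by gcongr; norm_num
    constructor
    · refine gen _ _ (fb.1.trans (le_trans ?_ (red b (by linarith))))
      have : 0 ≤ 6 * b / 2 ^ L := by positivity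
      linarith
    · exact gen _ _ (fb.2.1.trans (red a (by linarith)))
  · -- positions
    intro z hz
    obtain ⟨⟨a1, a2⟩, ⟨a3, a4⟩, a5, a6⟩ := hz
    set τ := z 2 - (bpt L N j (fun i => 2 ^ L * c i + l.1 i)) 2 with hτ
    have b0 : (bpt L N j (fun i => 2 ^ L * c i + l.1 i)) 0 = 2 * N * ((2:ℝ) ^ L * c 0 + l.1 0) := by
      simp [bpt]
    have b1 : (bpt L N j (fun i => 2 ^ L * c i + l.1 i)) 1 = 2 * N * ((2:ℝ) ^ L * c 1 + l.1 1) := by
      simp [bpt]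
    have c0 : (bpt L N j (fun i => 2 ^ L * c i + ls.1 i)) 0 = 2 * N * ((2:ℝ) ^ L * c 0 + ls.1 0) := by
      simp [bpt]
    have c1 : (bpt L N j (fun i => 2 ^ L * c i + ls.1 i)) 1 = 2 * N * ((2:ℝ) ^ L * c 1 + ls.1 1) := by
      simp [bpt]
    have c2 : (bpt L N j (fun i => 2 ^ L * c i + ls.1 i)) 2 =
      (bpt L N j (fun i => 2 ^ L * c i + l.1 i)) 2 := by simp [bpt]
    set E0 := z 0 - (bpt L N j (fun i => 2 ^ L * c i + l.1 i)) 0 - τ * sk N k 0 with hE0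
    set E1 := z 1 - (bpt L N j (fun i => 2 ^ L * c i + l.1 i)) 1 - τ * sk N k 1 with hE1
    have he0 : |E0| ≤ N := by rw [abs_of_nonneg a1]; exact a2.le
    have he1 : |E1| ≤ N := by rw [abs_of_nonneg a3]; exact a4.le
    have b1' := (comp_bd n0 n1 hP1 hb hN1 hx1 hy1 ht0 ht1 he0 he1 hq0 hq1 a5 a6.le).2
    have b2' := (comp_bd n1' n0 hP1 ha1 hN1 hx2 hy2 ht0 ht1 he0 he1 hq0 hq1 a5 a6.le).2
    have fb := frm_bounds hn hs1
      (p := ![E0 + 2 * N * (l.1 0 - ls.1 0) + τ * (sk N k 0 - s 0),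
        E1 + 2 * N * (l.1 1 - ls.1 1) + τ * (sk N k 1 - s 1)]) (τ := τ) b1' b2' (by gcongr)
      (v := z - bpt L N j (fun i => 2 ^ L * c i + ls.1 i)) (by
        ext i; fin_cases i
        · simp only [hE0, b0]
          simp [fu2, c0]; ring
        · simp only [hE1, b1]
          simp [fu2, c1]; ring
        · simp [fu2]
          rw [c2])
    have hab : N * b ≤ N * a := by gcongr
    have hNa : 0 ≤ N * a := by positivity
    have hNb : 0 ≤ N * b := by positivity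
    refine ⟨fb.1.trans (by linarith), fb.2.1.trans (by linarith), ?_⟩
    have h2 : |inner ℝ (z - bpt L N j (fun i => 2 ^ L * c i + ls.1 i)) (frm nn s 2)| ≤
        ‖z - bpt L N j (fun i => 2 ^ L * c i + ls.1 i)‖ := by
      have := abs_real_inner_le_norm (z - bpt L N j (fun i => 2 ^ L * c i + ls.1 i)) (frm nn s 2)
      rwa [onn.1 2, mul_one] at this
    refine h2.trans (fb.2.2.trans ?_)
    rw [abs_of_nonneg a5]
    have h3 : N * a ≤ 4 * (N:ℝ) ^ 2 := by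
      calc N * a ≤ N * (2 * 2 ^ L) := by gcongr
        _ ≤ N * (2 * (2 * N)) := by gcongr
        _ = _ := by ring
    have h4 : (N:ℝ) * 2 ^ L ≤ 2 * (N:ℝ) ^ 2 := by
      calc (N:ℝ) * 2 ^ L ≤ N * (2 * N) := by gcongr
        _ = _ := by ring
    have h5 := sq_nonneg (N:ℝ)
    linarith [h3, h4, a6.le, h5]

/-- difference of two members of a plank, and the trivial bound of the cube -/
theorem diff_bd {a b x0 x1 x0' x1' c0 c1 B P : ℝ} (ha : |a| ≤ 1) (hb : |b| ≤ 1)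
    (h : |a * (x0 - c0) + b * (x1 - c1)| ≤ B) (h' : |a * (x0' - c0) + b * (x1' - c1)| ≤ B)
    (h0 : |x0 - x0'| ≤ P) (h1 : |x1 - x1'| ≤ P) :
    |a * (x0 - x0') + b * (x1 - x1')| ≤ min (2 * B) (2 * P) := by
  apply le_min
  · have e : a * (x0 - x0') + b * (x1 - x1') =
        (a * (x0 - c0) + b * (x1 - c1)) - (a * (x0' - c0) + b * (x1' - c1)) := by ring
    rw [e]
    have := abs_sub (a * (x0 - c0) + b * (x1 - c1)) (a * (x0' - c0) + b * (x1' - c1))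
    linarith
  · exact abs_comb ha hb h0 h1

theorem stG2 : StG2 := by
  refine ⟨1000, by norm_num, fun C2 M hC2 => ⟨C2 * 10 ^ M * 40000, by positivity, ?_⟩⟩
  intro N L K n hN hL1 hL hD j c nn x0 y0 b a hn hb hba T' hT hP
  rcases T'.eq_empty_or_nonempty with h0 | ⟨ls, hls⟩
  · subst h0; simp
  have hN1 : (1:ℝ) ≤ N := by exact_mod_cast hN
  have hN0 : (0:ℝ) < N := by linarith
  have hL1' : (N:ℝ) ≤ (2:ℝ) ^ L := by exact_mod_cast hL1
  have hL' : (2:ℝ) ^ L ≤ 2 * N := by exact_mod_cast hL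
  have hP1 : (1:ℝ) ≤ 2 ^ L := hN1.trans hL1'
  have n0 : |nn 0| ≤ 1 := by
    rw [← sq_le_one_iff_abs_le_one]; nlinarith [sq_nonneg (nn 1)]
  have n1 : |nn 1| ≤ 1 := by
    rw [← sq_le_one_iff_abs_le_one]; nlinarith [sq_nonneg (nn 0)]
  have n1' : |-(nn 1)| ≤ 1 := by rwa [abs_neg]
  set a' : ℝ := min (2 * a) (2 * 2 ^ L) with ha'
  set b' : ℝ := min (2 * b) (2 * 2 ^ L) with hb'
  have hb1 : 1 ≤ b' := le_min (by linarith) (by linarith)
  have hba' : b' ≤ a' := min_le_min_right _ (by linarith)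
  have haP : a' ≤ 2 * 2 ^ L := min_le_right _ _
  have hC20 : 0 < C2 := by linarith
  have hb00 : 0 < b := by linarith
  have ha00 : 0 < a := by linarith
  have ha0 : 0 < a' := by linarith
  have hb0 : 0 < b' := by linarith
  set s : Fin 2 → ℝ := fun i => 2 * (ls.2 i : ℝ) / 2 ^ L - 1 with hs
  have hrange : ∀ l ∈ T', (∀ i, |(l.1 i : ℝ) - ls.1 i| ≤ 2 ^ L) ∧ ∀ i, |(l.2 i : ℝ) - ls.2 i| ≤ 2 ^ L := by
    intro l hl
    have key : ∀ x y : ℤ, 0 ≤ x ∧ x < 2 ^ L → 0 ≤ y ∧ y < 2 ^ L → |(x:ℝ) - y| ≤ 2 ^ L := by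
      intro x y hx hy
      have h1 : (0:ℝ) ≤ x := by exact_mod_cast hx.1
      have h2 : (x:ℝ) < 2 ^ L := by exact_mod_cast hx.2
      have h3 : (0:ℝ) ≤ y := by exact_mod_cast hy.1
      have h4 : (y:ℝ) < 2 ^ L := by exact_mod_cast hy.2
      rw [abs_le]; constructor <;> linarith
    exact ⟨fun i => key _ _ (hT l hl i).1 (hT ls hls i).1, fun i => key _ _ (hT l hl i).2 (hT ls hls i).2⟩
  -- geometry for every member
  have geo : ∀ l ∈ T', ∀ k ∈ Gk N, yk L N k = l.2 →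
      (|inner ℝ (wk N k) (frm nn s 0)| ≤ 1000 * (100 * (N * b')) / (N:ℝ) ^ 2 ∧
        |inner ℝ (wk N k) (frm nn s 1)| ≤ 1000 * (100 * (N * a')) / (N:ℝ) ^ 2) ∧
      TbG L N j c k l ⊆ Box (frm nn s) (bpt L N j (fun i => 2 ^ L * c i + ls.1 i))
        (100 * (N * b')) (100 * (N * a')) (1000 * (N:ℝ) ^ 2) := by
    intro l hl k hk hkl
    obtain ⟨⟨p1, p2⟩, p3, p4⟩ := hP l hl
    obtain ⟨⟨q1, q2⟩, q3, q4⟩ := hP ls hls
    obtain ⟨r1, r2⟩ := hrange l hl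
    exact plank_geo hN hL1 hL j c hn hb1 hba' haP ls l (fun i => (hT ls hls i).2)
      (diff_bd n0 n1 p1 q1 (r1 0) (r1 1)) (diff_bd n0 n1 p2 q2 (r2 0) (r2 1))
      (diff_bd n1' n0 p3 q3 (r1 0) (r1 1)) (diff_bd n1' n0 p4 q4 (r2 0) (r2 1)) hk hkl
  set B : Set V3 := Box (frm nn s) (bpt L N j (fun i => 2 ^ L * c i + ls.1 i))
        (100 * (N * b')) (100 * (N * a')) (1000 * (N:ℝ) ^ 2) with hB
  set D : Finset (ℤ × ℤ) := {k ∈ Gk N | ∃ l ∈ T', yk L N k = l.2} with hDdef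
  have hk4 : ∑ k ∈ D, ∫⁻ x in B, n k x ≤
      ENNReal.ofReal (K * (100 * (N * b')) * (100 * (N * a')) * (N:ℝ) ^ 2) := by
    apply hD.k4 (frm nn s) _ (100 * (N * b')) (100 * (N * a')) (orthonormal_frm hn s)
    · nlinarith
    · gcongr
    · calc 100 * (N * a') ≤ 100 * (N * (2 * (2 * N))) := by gcongr; exact haP.trans (by linarith)
        _ ≤ 1000 * (N:ℝ) ^ 2 := by nlinarith [sq_nonneg (N:ℝ)]
    · exact Finset.filter_subset _ _
    · intro k hk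
      rw [hDdef, Finset.mem_filter] at hk
      obtain ⟨hk1, l, hl, hkl⟩ := hk
      exact (geo l hl k hk1 hkl).1
  -- comparison of the sum with the integral over the box
  have hswap : (∑ l ∈ T', wgt n L N j c l) * ENNReal.ofReal ((N:ℝ) ^ 4) ≤
      ENNReal.ofReal (C2 * 10 ^ M) * ∑ k ∈ D, ∫⁻ x in B, n k x := by
    calc (∑ l ∈ T', wgt n L N j c l) * ENNReal.ofReal ((N:ℝ) ^ 4)
        = ∑ l ∈ T', ∑ k ∈ Gk N with yk L N k = l.2,
            n k (bpt L N j (fun i => 2 ^ L * c i + l.1 i)) * ENNReal.ofReal ((N:ℝ) ^ 4) := by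
          rw [Finset.sum_mul]
          apply Finset.sum_congr rfl
          intro l hl
          rw [wgt, Finset.sum_mul]
      _ ≤ ∑ l ∈ T', ∑ k ∈ Gk N with yk L N k = l.2,
            ENNReal.ofReal (C2 * 10 ^ M) * ∫⁻ z in TbG L N j c k l, n k z := by
          apply Finset.sum_le_sum
          intro l hl
          apply Finset.sum_le_sum
          intro k hk
          exact point_le hD (by linarith) hN hL1 hL (Finset.mem_filter.1 hk).1 _
      _ = ∑ k ∈ D, ∑ l ∈ T' with yk L N k = l.2,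
            ENNReal.ofReal (C2 * 10 ^ M) * ∫⁻ z in TbG L N j c k l, n k z := by
          apply Finset.sum_comm'
          intro l k
          simp only [hDdef, Finset.mem_filter]
          constructor
          · rintro ⟨h1, h2, h3⟩
            exact ⟨⟨h1, h3⟩, h2, l, h1, h3⟩
          · rintro ⟨⟨h1, h3⟩, h2, -⟩
            exact ⟨h1, h2, h3⟩
      _ = ENNReal.ofReal (C2 * 10 ^ M) * ∑ k ∈ D, ∑ l ∈ T' with yk L N k = l.2,
            ∫⁻ z in TbG L N j c k l, n k z := by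
          rw [Finset.mul_sum]
          apply Finset.sum_congr rfl
          intro k hk
          rw [Finset.mul_sum]
      _ ≤ ENNReal.ofReal (C2 * 10 ^ M) * ∑ k ∈ D, ∫⁻ x in B, n k x := by
          gcongr with k hk
          rw [← lintegral_biUnion_finset]
          · apply lintegral_mono_set
            intro z hz
            simp only [Set.mem_iUnion, Finset.mem_filter] at hz
            obtain ⟨l, ⟨hl, hkl⟩, hz⟩ := hz
            exact (geo l hl k (Finset.mem_filter.1 hk).1 hkl).2 hz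
          · intro l hl l' hl' hne
            simp only [Finset.coe_filter, Set.mem_ofPred_eq] at hl hl'
            exact TbG_disj hN j c k (hl.2.symm.trans hl'.2) hne
          · intro l hl
            exact meas_Shb _ _ _ _ _
  have hfin : (∑ l ∈ T', wgt n L N j c l) * ENNReal.ofReal ((N:ℝ) ^ 4) ≤
      ENNReal.ofReal (C2 * 10 ^ M * 40000 * K * a * b) * ENNReal.ofReal ((N:ℝ) ^ 4) := by
    refine hswap.trans ((mul_le_mul_right hk4 _).trans ?_)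
    rw [← ENNReal.ofReal_mul (by positivity)]
    rcases le_or_gt K 0 with hK | hK
    · rw [ENNReal.ofReal_of_nonpos]
      · exact bot_le
      · have : 0 ≤ C2 * 10 ^ M * ((100 * (N * b')) * (100 * (N * a')) * (N:ℝ) ^ 2) := by positivity
        nlinarith
    · rw [← ENNReal.ofReal_mul (by positivity)]
      apply ENNReal.ofReal_le_ofReal
      have h1 : b' ≤ 2 * b := min_le_left _ _
      have h2 : a' ≤ 2 * a := min_le_left _ _
      calc C2 * 10 ^ M * (K * (100 * (N * b')) * (100 * (N * a')) * (N:ℝ) ^ 2)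
          = C2 * 10 ^ M * 10000 * K * (N:ℝ) ^ 4 * (b' * a') := by ring
        _ ≤ C2 * 10 ^ M * 10000 * K * (N:ℝ) ^ 4 * ((2 * b) * (2 * a)) := by
            have hC0 : 0 ≤ C2 := by linarith
            gcongr
        _ = _ := by ring
  rwa [ENNReal.mul_le_mul_iff_left (by positivity) ENNReal.ofReal_ne_top] at hfin

end Vale.Agent.P117.K
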