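import Vale.Agent.P106.G.KinF
import Vale.Agent.P106.G.PkB

/-! # Kernels of the smooth caps of the sphere -/

open MeasureTheory Complex Set Filter
open scoped ENNReal NNReal ContDiff FourierTransform Topology SchwartzMap

set_option linter.all false

namespace Vale.Agent.P117.K

open Vale.Agent.P106.G (mat3 mat3_apply mat3_inv_left mat3_inv_right mat3_cont inv_AT lintegral_mat3 mop Sm kn norm_E3_le inner3)

/-! ### The frame of a cap -/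

noncomputable def Dn (v0 v1 : ℝ) : ℝ := 1 + v0 ^ 2 + v1 ^ 2

theorem Dn_pos (v0 v1 : ℝ) : 0 < Dn v0 v1 := by unfold Dn; positivity

theorem one_le_Dn (v0 v1 : ℝ) : 1 ≤ Dn v0 v1 := by unfold Dn; nlinarith [sq_nonneg v0, sq_nonneg v1]

/-- tangent vectors and the point of the sphere with `(w 0, w 1)/(1 + w 2) = (v0, v1)` -/
noncomputable def fa (v0 v1 : ℝ) : E3 := !₂[1 - 2 * v0 ^ 2 / Dn v0 v1, -(2 * v0 * v1) / Dn v0 v1, -(2 * v0) / Dn v0 v1]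
noncomputable def fb (v0 v1 : ℝ) : E3 := !₂[-(2 * v0 * v1) / Dn v0 v1, 1 - 2 * v1 ^ 2 / Dn v0 v1, -(2 * v1) / Dn v0 v1]
noncomputable def fw (v0 v1 : ℝ) : E3 := !₂[2 * v0 / Dn v0 v1, 2 * v1 / Dn v0 v1, 2 / Dn v0 v1 - 1]

@[simp] theorem fa0 (v0 v1 : ℝ) : fa v0 v1 0 = 1 - 2 * v0 ^ 2 / Dn v0 v1 := rfl
@[simp] theorem fa1 (v0 v1 : ℝ) : fa v0 v1 1 = -(2 * v0 * v1) / Dn v0 v1 := rfl
@[simp] theorem fa2 (v0 v1 : ℝ) : fa v0 v1 2 = -(2 * v0) / Dn v0 v1 := rfl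
@[simp] theorem fb0 (v0 v1 : ℝ) : fb v0 v1 0 = -(2 * v0 * v1) / Dn v0 v1 := rfl
@[simp] theorem fb1 (v0 v1 : ℝ) : fb v0 v1 1 = 1 - 2 * v1 ^ 2 / Dn v0 v1 := rfl
@[simp] theorem fb2 (v0 v1 : ℝ) : fb v0 v1 2 = -(2 * v1) / Dn v0 v1 := rfl
@[simp] theorem fw0 (v0 v1 : ℝ) : fw v0 v1 0 = 2 * v0 / Dn v0 v1 := rfl
@[simp] theorem fw1 (v0 v1 : ℝ) : fw v0 v1 1 = 2 * v1 / Dn v0 v1 := rfl
@[simp] theorem fw2 (v0 v1 : ℝ) : fw v0 v1 2 = 2 / Dn v0 v1 - 1 := rfl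

/-- the matrix of the cap of size `τ` -/
noncomputable def AQ (v0 v1 τ : ℝ) : Matrix (Fin 3) (Fin 3) ℝ :=
  !![τ * fa v0 v1 0, τ * fb v0 v1 0, τ ^ 2 * fw v0 v1 0;
     τ * fa v0 v1 1, τ * fb v0 v1 1, τ ^ 2 * fw v0 v1 1;
     τ * fa v0 v1 2, τ * fb v0 v1 2, τ ^ 2 * fw v0 v1 2]

theorem AQ_det (v0 v1 τ : ℝ) : (AQ v0 v1 τ).det = τ ^ 4 := by
  have h := (Dn_pos v0 v1).ne'
  unfold AQ
  rw [Matrix.det_fin_three]
  simp [Matrix.cons_val_zero, Matrix.cons_val_one]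
  field_simp
  unfold Dn
  ring

theorem AQ_apply (v0 v1 τ : ℝ) (η : E3) (i : Fin 3) : mat3 (AQ v0 v1 τ) η i =
    τ * fa v0 v1 i * η 0 + τ * fb v0 v1 i * η 1 + τ ^ 2 * fw v0 v1 i * η 2 := by
  rw [mat3_apply]
  fin_cases i <;> rfl

theorem AQT_apply (v0 v1 τ : ℝ) (x : E3) : mat3 (AQ v0 v1 τ).transpose x =
    !₂[τ * inner ℝ (fa v0 v1) x, τ * inner ℝ (fb v0 v1) x, τ ^ 2 * inner ℝ (fw v0 v1) x] := by
  ext i
  rw [mat3_apply]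
  fin_cases i
  · show (AQ v0 v1 τ) 0 0 * x 0 + (AQ v0 v1 τ) 1 0 * x 1 + (AQ v0 v1 τ) 2 0 * x 2 = τ * inner ℝ (fa v0 v1) x
    rw [inner3]
    show τ * fa v0 v1 0 * x 0 + τ * fa v0 v1 1 * x 1 + τ * fa v0 v1 2 * x 2 = _
    ring
  · show (AQ v0 v1 τ) 0 1 * x 0 + (AQ v0 v1 τ) 1 1 * x 1 + (AQ v0 v1 τ) 2 1 * x 2 = τ * inner ℝ (fb v0 v1) x
    rw [inner3]
    show τ * fb v0 v1 0 * x 0 + τ * fb v0 v1 1 * x 1 + τ * fb v0 v1 2 * x 2 = _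
    ring
  · show (AQ v0 v1 τ) 0 2 * x 0 + (AQ v0 v1 τ) 1 2 * x 1 + (AQ v0 v1 τ) 2 2 * x 2 = τ ^ 2 * inner ℝ (fw v0 v1) x
    rw [inner3]
    show τ ^ 2 * fw v0 v1 0 * x 0 + τ ^ 2 * fw v0 v1 1 * x 1 + τ ^ 2 * fw v0 v1 2 * x 2 = _
    ring

/-- the affine parametrisation of the cap -/
noncomputable def XI (v0 v1 τ : ℝ) (η : E3) : E3 := fw v0 v1 + mat3 (AQ v0 v1 τ) η

theorem XI_apply (v0 v1 τ : ℝ) (η : E3) (i : Fin 3) : XI v0 v1 τ η i =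
    fw v0 v1 i + (τ * fa v0 v1 i * η 0 + τ * fb v0 v1 i * η 1 + τ ^ 2 * fw v0 v1 i * η 2) := by
  unfold XI
  rw [PiLp.add_apply, AQ_apply]

theorem norm3_sq (x : E3) : ‖x‖ ^ 2 = x 0 ^ 2 + x 1 ^ 2 + x 2 ^ 2 := by
  rw [EuclideanSpace.norm_sq_eq]
  simp [Fin.sum_univ_three]

theorem XI_norm (v0 v1 τ : ℝ) (η : E3) : ‖XI v0 v1 τ η‖ ^ 2 - 1 =
    τ ^ 2 * (2 * η 2 + η 0 ^ 2 + η 1 ^ 2 + τ ^ 2 * η 2 ^ 2) := by
  have h := (Dn_pos v0 v1).ne'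
  rw [norm3_sq]
  simp only [XI_apply, fa0, fa1, fa2, fb0, fb1, fb2, fw0, fw1, fw2]
  have e : Dn v0 v1 = 1 + v0 ^ 2 + v1 ^ 2 := rfl
  field_simp
  rw [e]
  ring

theorem XI_v0 (v0 v1 τ : ℝ) (η : E3) : XI v0 v1 τ η 0 - v0 * (1 + XI v0 v1 τ η 2) = τ * (η 0 + v0 * τ * η 2) := by
  have h := (Dn_pos v0 v1).ne'
  simp only [XI_apply, fa0, fa1, fa2, fb0, fb1, fb2, fw0, fw1, fw2]
  field_simp
  ring

theorem XI_v1 (v0 v1 τ : ℝ) (η : E3) : XI v0 v1 τ η 1 - v1 * (1 + XI v0 v1 τ η 2) = τ * (η 1 + v1 * τ * η 2) := by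
  have h := (Dn_pos v0 v1).ne'
  simp only [XI_apply, fa0, fa1, fa2, fb0, fb1, fb2, fw0, fw1, fw2]
  field_simp
  ring

theorem XI_s (v0 v1 τ : ℝ) (η : E3) : Dn v0 v1 * (1 + XI v0 v1 τ η 2) =
    2 + τ * (-2 * v0 * η 0 - 2 * v1 * η 1 + τ * (1 - v0 ^ 2 - v1 ^ 2) * η 2) := by
  have h := (Dn_pos v0 v1).ne'
  simp only [XI_apply, fa0, fa1, fa2, fb0, fb1, fb2, fw0, fw1, fw2]
  have e : Dn v0 v1 = 1 + v0 ^ 2 + v1 ^ 2 := rfl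
  field_simp
  rw [e]
  ring

/-! ### Smoothness -/

/-- parameters `(v0, v1, τ, ρ)` -/
abbrev Pr := ℝ × ℝ × ℝ × ℝ

theorem cd_c (i : Fin 3) : ContDiff ℝ ∞ (fun z : E3 × Pr => z.1 i) := by fun_prop

theorem cd_D : ContDiff ℝ ∞ (fun z : E3 × Pr => Dn z.2.1 z.2.2.1) := by
  unfold Dn; fun_prop

theorem cd_divD {f : E3 × Pr → ℝ} (hf : ContDiff ℝ ∞ f) : ContDiff ℝ ∞ (fun z : E3 × Pr => f z / Dn z.2.1 z.2.2.1) :=
  hf.div cd_D (fun z => (Dn_pos _ _).ne')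

theorem cd_fa (i : Fin 3) : ContDiff ℝ ∞ (fun z : E3 × Pr => fa z.2.1 z.2.2.1 i) := by
  fin_cases i
  · exact contDiff_const.sub (cd_divD (f := fun z => 2 * z.2.1 ^ 2) (by fun_prop))
  · exact (cd_divD (f := fun z => -(2 * z.2.1 * z.2.2.1)) (by fun_prop))
  · exact (cd_divD (f := fun z => -(2 * z.2.1)) (by fun_prop))

theorem cd_fb (i : Fin 3) : ContDiff ℝ ∞ (fun z : E3 × Pr => fb z.2.1 z.2.2.1 i) := by
  fin_cases i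
  · exact (cd_divD (f := fun z => -(2 * z.2.1 * z.2.2.1)) (by fun_prop))
  · exact contDiff_const.sub (cd_divD (f := fun z => 2 * z.2.2.1 ^ 2) (by fun_prop))
  · exact (cd_divD (f := fun z => -(2 * z.2.2.1)) (by fun_prop))

theorem cd_fw (i : Fin 3) : ContDiff ℝ ∞ (fun z : E3 × Pr => fw z.2.1 z.2.2.1 i) := by
  fin_cases i
  · exact (cd_divD (f := fun z => 2 * z.2.1) (by fun_prop))
  · exact (cd_divD (f := fun z => 2 * z.2.2.1) (by fun_prop))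
  · exact (cd_divD (f := fun z => 2) (by fun_prop)).sub contDiff_const

theorem cd_t : ContDiff ℝ ∞ (fun z : E3 × Pr => z.2.2.2.1) := by fun_prop

theorem cd_XIc (i : Fin 3) : ContDiff ℝ ∞ (fun z : E3 × Pr => XI z.2.1 z.2.2.1 z.2.2.2.1 z.1 i) := by
  have e : (fun z : E3 × Pr => XI z.2.1 z.2.2.1 z.2.2.2.1 z.1 i) = fun z => fw z.2.1 z.2.2.1 i +
      (z.2.2.2.1 * fa z.2.1 z.2.2.1 i * z.1 0 + z.2.2.2.1 * fb z.2.1 z.2.2.1 i * z.1 1 + z.2.2.2.1 ^ 2 * fw z.2.1 z.2.2.1 i * z.1 2) := by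
    ext z; rw [XI_apply]
  rw [e]
  exact (cd_fw i).add (((((cd_t.mul (cd_fa i)).mul (cd_c 0))).add ((cd_t.mul (cd_fb i)).mul (cd_c 1))).add
    (((cd_t.pow 2).mul (cd_fw i)).mul (cd_c 2)))

theorem cd_XI : ContDiff ℝ ∞ (fun z : E3 × Pr => XI z.2.1 z.2.2.1 z.2.2.2.1 z.1) := by
  rw [contDiff_piLp]
  exact fun i => cd_XIc i

/-- smooth cut-offs of the line with compact support -/
structure Lc (B : ℝ) (φ : ℝ → ℂ) : Prop where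
  smooth : ContDiff ℝ ∞ φ
  supp : ∀ t, φ t ≠ 0 → |t| ≤ B

/-- cut-offs away from the south pole -/
structure Xc (c : ℝ) (χ : E3 → ℂ) : Prop where
  pos : 0 < c
  smooth : ContDiff ℝ ∞ χ
  supp : ∀ ξ, χ ξ ≠ 0 → c ≤ 1 + ξ 2

/-- the multiplier of the cap of size `τ` around `(v0, v1)` -/
noncomputable def mcap (φ : ℝ → ℂ) (χ : E3 → ℂ) (ψ0 ψ1 : ℝ → ℂ) (v0 v1 τ ρ : ℝ) (ξ : E3) : ℂ :=
  φ (ρ * ((‖ξ‖ ^ 2 - 1) / τ ^ 2)) * (χ ξ * (ψ0 ((ξ 0 / (1 + ξ 2) - v0) / τ) * ψ1 ((ξ 1 / (1 + ξ 2) - v1) / τ)))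

/-- the rescaled multiplier -/
noncomputable def Pm (φ : ℝ → ℂ) (χ : E3 → ℂ) (ψ0 ψ1 : ℝ → ℂ) (z : E3 × Pr) : ℂ :=
  φ (z.2.2.2.2 * (2 * z.1 2 + z.1 0 ^ 2 + z.1 1 ^ 2 + z.2.2.2.1 ^ 2 * z.1 2 ^ 2)) *
    (χ (XI z.2.1 z.2.2.1 z.2.2.2.1 z.1) * (ψ0 ((z.1 0 + z.2.1 * z.2.2.2.1 * z.1 2) / (1 + XI z.2.1 z.2.2.1 z.2.2.2.1 z.1 2)) *
      ψ1 ((z.1 1 + z.2.2.1 * z.2.2.2.1 * z.1 2) / (1 + XI z.2.1 z.2.2.1 z.2.2.2.1 z.1 2))))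

theorem cd_Pm {B c : ℝ} {φ ψ0 ψ1 : ℝ → ℂ} {χ : E3 → ℂ} (hφ : Lc B φ) (h0 : Lc B ψ0) (h1 : Lc B ψ1) (hχ : Xc c χ) :
    ContDiff ℝ ∞ (Pm φ χ ψ0 ψ1) := by
  rw [contDiff_iff_contDiffAt]
  intro z
  by_cases hz : 1 + XI z.2.1 z.2.2.1 z.2.2.2.1 z.1 2 < c
  · have : Pm φ χ ψ0 ψ1 =ᶠ[𝓝 z] fun _ => 0 := by
      have ho : IsOpen {z : E3 × Pr | 1 + XI z.2.1 z.2.2.1 z.2.2.2.1 z.1 2 < c} :=
        isOpen_lt (continuous_const.add (cd_XIc 2).continuous) continuous_const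
      filter_upwards [ho.mem_nhds hz] with x hx
      unfold Pm
      have : χ (XI x.2.1 x.2.2.1 x.2.2.2.1 x.1) = 0 := by
        by_contra hc
        exact absurd (hχ.supp _ hc) (not_le.2 hx)
      rw [this, zero_mul, mul_zero]
    exact contDiffAt_const.congr_of_eventuallyEq this
  · push Not at hz
    have hne : 1 + XI z.2.1 z.2.2.1 z.2.2.2.1 z.1 2 ≠ 0 := by
      have := hχ.pos; linarith
    have cs : ContDiffAt ℝ ∞ (fun z : E3 × Pr => 1 + XI z.2.1 z.2.2.1 z.2.2.2.1 z.1 2) z :=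
      (contDiff_const.add (cd_XIc 2)).contDiffAt
    have c1 : ContDiffAt ℝ ∞ (fun z : E3 × Pr => (z.1 0 + z.2.1 * z.2.2.2.1 * z.1 2) / (1 + XI z.2.1 z.2.2.1 z.2.2.2.1 z.1 2)) z :=
      ContDiffAt.div (by fun_prop) cs hne
    have c2 : ContDiffAt ℝ ∞ (fun z : E3 × Pr => (z.1 1 + z.2.2.1 * z.2.2.2.1 * z.1 2) / (1 + XI z.2.1 z.2.2.1 z.2.2.2.1 z.1 2)) z :=
      ContDiffAt.div (by fun_prop) cs hne
    have c3 : ContDiff ℝ ∞ (fun z : E3 × Pr => z.2.2.2.2 * (2 * z.1 2 + z.1 0 ^ 2 + z.1 1 ^ 2 + z.2.2.2.1 ^ 2 * z.1 2 ^ 2)) := by fun_prop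
    unfold Pm
    exact (hφ.smooth.comp c3).contDiffAt.mul ((hχ.smooth.comp cd_XI).contDiffAt.mul
      ((h0.smooth.contDiffAt.comp z c1).mul (h1.smooth.contDiffAt.comp z c2)))

/-- the rescaling identity -/
theorem mcap_XI (φ : ℝ → ℂ) {c : ℝ} {χ : E3 → ℂ} (hχ : Xc c χ) (ψ0 ψ1 : ℝ → ℂ) (v0 v1 : ℝ) {τ : ℝ} (hτ : 0 < τ) (ρ : ℝ) (η : E3) :
    mcap φ χ ψ0 ψ1 v0 v1 τ ρ (XI v0 v1 τ η) = Pm φ χ ψ0 ψ1 (η, (v0, v1, τ, ρ)) := by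
  unfold mcap Pm
  simp only
  rw [XI_norm, mul_div_cancel_left₀ _ (by positivity)]
  congr 1
  by_cases h : χ (XI v0 v1 τ η) = 0
  · rw [h, zero_mul, zero_mul]
  · have hs : 1 + XI v0 v1 τ η 2 ≠ 0 := by
      have := hχ.supp _ h
      have := hχ.pos
      linarith
    have e0 : (XI v0 v1 τ η 0 / (1 + XI v0 v1 τ η 2) - v0) / τ = (η 0 + v0 * τ * η 2) / (1 + XI v0 v1 τ η 2) := by
      have := XI_v0 v0 v1 τ η
      rw [div_eq_div_iff hτ.ne' hs]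
      rw [sub_mul, div_mul_cancel₀ _ hs]
      linarith
    have e1 : (XI v0 v1 τ η 1 / (1 + XI v0 v1 τ η 2) - v1) / τ = (η 1 + v1 * τ * η 2) / (1 + XI v0 v1 τ η 2) := by
      have := XI_v1 v0 v1 τ η
      rw [div_eq_div_iff hτ.ne' hs]
      rw [sub_mul, div_mul_cancel₀ _ hs]
      linarith
    rw [e0, e1]

/-! ### Support -/

theorem supp_s {B c τ a0 a1 s q : ℝ} (hB : 0 ≤ B) (hc : 0 < c) (hτ : 0 < τ) (hτ1 : τ ≤ 1) (hs : c ≤ s) (hq : |q| ≤ B)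
    (k3 : (1 + a0 ^ 2 + a1 ^ 2) * s ^ 2 = 2 * s + τ ^ 2 * q) : s ≤ 2 + B / c := by
  have hs0 : 0 < s := by linarith
  have h1 : s ^ 2 ≤ 2 * s + B := by
    have h2 : s ^ 2 ≤ (1 + a0 ^ 2 + a1 ^ 2) * s ^ 2 := by
      have e : (1 + a0 ^ 2 + a1 ^ 2) * s ^ 2 = s ^ 2 + ((a0 * s) ^ 2 + (a1 * s) ^ 2) := by ring
      rw [e]
      have : 0 ≤ (a0 * s) ^ 2 + (a1 * s) ^ 2 := by positivity
      linarith
    have h3 : τ ^ 2 * q ≤ B := by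
      have h4 : τ ^ 2 ≤ 1 := pow_le_one₀ hτ.le hτ1
      have h5 := (abs_le.1 hq).2
      calc τ ^ 2 * q ≤ τ ^ 2 * B := by gcongr
        _ ≤ 1 * B := by gcongr
        _ = B := one_mul _
    linarith
  by_contra hcon
  push Not at hcon
  have h6 : s * (s - 2) ≤ B := by
    have : s * (s - 2) = s ^ 2 - 2 * s := by ring
    linarith
  have h7 : B / c < s - 2 := by linarith
  have h8 : 0 ≤ B / c := by positivity
  have h9 : c * (B / c) = B := by field_simp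
  have h10 : c * (s - 2) ≤ s * (s - 2) := by
    apply mul_le_mul_of_nonneg_right hs
    linarith
  have h11 : c * (B / c) < c * (s - 2) := mul_lt_mul_of_pos_left h7 hc
  linarith

theorem supp_y {B c τ D t0 t1 s q y S : ℝ} (hB : 0 ≤ B) (hc : 0 < c) (hτ : 0 < τ) (hτ1 : τ ≤ 1) (hs : c ≤ s) (hD : 1 ≤ D)
    (ht0 : |t0| ≤ B) (ht1 : |t1| ≤ B) (hq : |q| ≤ B) (hsS : s ≤ S) (k2 : D * s * y = τ * q - τ * s ^ 2 * (t0 ^ 2 + t1 ^ 2)) :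
    |y| ≤ B / c + 2 * B ^ 2 * S := by
  have hs0 : 0 < s := by linarith
  have hB2 : t0 ^ 2 + t1 ^ 2 ≤ 2 * B ^ 2 := by
    have a := sq_le_sq' (abs_le.1 ht0).1 (abs_le.1 ht0).2
    have b := sq_le_sq' (abs_le.1 ht1).1 (abs_le.1 ht1).2
    linarith
  have h1 : D * s * |y| ≤ B + s ^ 2 * (2 * B ^ 2) := by
    have h2 : D * s * |y| = |D * s * y| := by
      rw [abs_mul, abs_of_pos (show 0 < D * s by positivity)]
    rw [h2, k2]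
    refine (abs_sub _ _).trans ?_
    rw [abs_mul, abs_of_pos hτ, abs_of_nonneg (by positivity : 0 ≤ τ * s ^ 2 * (t0 ^ 2 + t1 ^ 2))]
    have h3 : τ * |q| ≤ 1 * B := by gcongr
    have h4 : τ * s ^ 2 * (t0 ^ 2 + t1 ^ 2) ≤ 1 * s ^ 2 * (2 * B ^ 2) := by gcongr
    linarith
  have h2 : s * |y| ≤ B + s ^ 2 * (2 * B ^ 2) := by
    refine le_trans ?_ h1
    have : 0 ≤ s * |y| := by positivity
    calc s * |y| = 1 * (s * |y|) := (one_mul _).symm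
      _ ≤ D * (s * |y|) := by gcongr
      _ = _ := by ring
  have h3 : |y| ≤ B / s + s * (2 * B ^ 2) := by
    have e : B / s + s * (2 * B ^ 2) = (B + s ^ 2 * (2 * B ^ 2)) / s := by field_simp
    rw [e, le_div_iff₀ hs0]
    linarith
  refine h3.trans ?_
  have h4 : B / s ≤ B / c := by gcongr
  have h5 : s * (2 * B ^ 2) ≤ S * (2 * B ^ 2) := by gcongr
  linarith

theorem supp_aux {B c V : ℝ} (hB : 0 ≤ B) (hc : 0 < c) (hV : 0 ≤ V) : ∃ R : ℝ, 0 ≤ R ∧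
    ∀ v0 v1 τ x0 x1 x2 t0 t1 s q : ℝ, |v0| ≤ V → |v1| ≤ V → 0 < τ → τ ≤ 1 → c ≤ s → |t0| ≤ B → |t1| ≤ B → |q| ≤ B →
      x0 + v0 * τ * x2 = s * t0 → x1 + v1 * τ * x2 = s * t1 →
      Dn v0 v1 * s = 2 + τ * (-2 * v0 * x0 - 2 * v1 * x1 + τ * (1 - v0 ^ 2 - v1 ^ 2) * x2) →
      q = 2 * x2 + x0 ^ 2 + x1 ^ 2 + τ ^ 2 * x2 ^ 2 → |x0| ≤ R ∧ |x1| ≤ R ∧ |x2| ≤ R := by
  set S := 2 + B / c with hS
  have hS0 : 0 ≤ S := by positivity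
  set Y := B / c + 2 * B ^ 2 * S with hY
  have hY0 : 0 ≤ Y := by positivity
  set X := S * B + V * Y with hX
  have hX0 : 0 ≤ X := by positivity
  refine ⟨X + B + X ^ 2 + X ^ 2 + Y ^ 2, by positivity, ?_⟩
  intro v0 v1 τ x0 x1 x2 t0 t1 s q hv0 hv1 hτ hτ1 hs ht0 ht1 hq e0 e1 es eq
  have hs0 : 0 < s := by linarith
  have hD := one_le_Dn v0 v1
  have hDe : Dn v0 v1 = 1 + v0 ^ 2 + v1 ^ 2 := rfl
  set D := Dn v0 v1 with hDD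
  set y := τ * x2 with hy
  have f0 : x0 = s * t0 - v0 * y := by rw [hy]; linarith
  have f1 : x1 = s * t1 - v1 * y := by rw [hy]; linarith
  -- main identities
  have k1 : D * s = 2 + D * τ * y - 2 * τ * s * (v0 * t0 + v1 * t1) := by
    have h1 : D * s = 2 + τ * (-2 * v0 * x0 - 2 * v1 * x1 + (1 - v0 ^ 2 - v1 ^ 2) * y) := by
      rw [es, hy]; ring
    rw [f0, f1] at h1
    rw [h1, hDe]; ring
  have k2 : D * s * y = τ * q - τ * s ^ 2 * (t0 ^ 2 + t1 ^ 2) := by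
    have h1 : τ * q = 2 * y + τ * (x0 ^ 2 + x1 ^ 2 + y ^ 2) := by rw [eq, hy]; ring
    rw [f0, f1] at h1
    have h2 : D * s * y = (2 + D * τ * y - 2 * τ * s * (v0 * t0 + v1 * t1)) * y := by rw [← k1]
    rw [h2, h1, hDe]; ring
  have k3 : (1 + (v0 + τ * t0) ^ 2 + (v1 + τ * t1) ^ 2) * s ^ 2 = 2 * s + τ ^ 2 * q := by
    have h1 : D * s ^ 2 = 2 * s + τ * (D * s * y) - 2 * τ * s ^ 2 * (v0 * t0 + v1 * t1) := by
      calc D * s ^ 2 = (D * s) * s := by ring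
        _ = (2 + D * τ * y - 2 * τ * s * (v0 * t0 + v1 * t1)) * s := by rw [← k1]
        _ = _ := by ring
    rw [k2, hDe] at h1
    linarith
  have hsS : s ≤ S := supp_s hB hc hτ hτ1 hs hq k3
  have hyY : |y| ≤ Y := supp_y hB hc hτ hτ1 hs hD ht0 ht1 hq hsS k2
  have g0 : |x0| ≤ X := by
    rw [f0]
    refine (abs_sub _ _).trans ?_
    rw [abs_mul, abs_mul, abs_of_pos hs0, hX]
    gcongr
  have g1 : |x1| ≤ X := by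
    rw [f1]
    refine (abs_sub _ _).trans ?_
    rw [abs_mul, abs_mul, abs_of_pos hs0, hX]
    gcongr
  have a0 := sq_le_sq' (abs_le.1 g0).1 (abs_le.1 g0).2
  have a1 := sq_le_sq' (abs_le.1 g1).1 (abs_le.1 g1).2
  have a2 := sq_le_sq' (abs_le.1 hyY).1 (abs_le.1 hyY).2
  have n0 := sq_nonneg x0
  have n1 := sq_nonneg x1
  have n2 := sq_nonneg y
  have hX2 : 0 ≤ X ^ 2 := sq_nonneg _
  have hY2 : 0 ≤ Y ^ 2 := sq_nonneg _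
  have g2 : |x2| ≤ B + X ^ 2 + X ^ 2 + Y ^ 2 := by
    have h1 : 2 * x2 = q - x0 ^ 2 - x1 ^ 2 - y ^ 2 := by rw [eq, hy]; ring
    obtain ⟨q1, q2⟩ := abs_le.1 hq
    rw [abs_le]
    constructor <;> linarith
  exact ⟨by linarith, by linarith, by linarith⟩

theorem Pm_supp {B c V : ℝ} (hB : 0 ≤ B) (hc : 0 < c) (hV : 0 ≤ V) : ∃ R : ℝ, 0 ≤ R ∧
    ∀ (φ ψ0 ψ1 : ℝ → ℂ) (χ : E3 → ℂ), Lc B φ → Lc B ψ0 → Lc B ψ1 → Xc c χ → ∀ (v0 v1 τ ρ : ℝ) (η : E3), |v0| ≤ V → |v1| ≤ V →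
      0 < τ → τ ≤ 1 → 1 ≤ ρ → Pm φ χ ψ0 ψ1 (η, (v0, v1, τ, ρ)) ≠ 0 → ‖η‖ ≤ R := by
  obtain ⟨R, hR, h⟩ := supp_aux hB hc hV
  refine ⟨2 * R, by positivity, ?_⟩
  intro φ ψ0 ψ1 χ hφ h0 h1 hχ v0 v1 τ ρ η hv0 hv1 hτ hτ1 hρ hne
  unfold Pm at hne
  simp only at hne
  have a1 : |2 * η 2 + η 0 ^ 2 + η 1 ^ 2 + τ ^ 2 * η 2 ^ 2| ≤ B := by
    have h1 := hφ.supp _ (left_ne_zero_of_mul hne)
    rw [abs_mul, abs_of_pos (by linarith)] at h1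
    refine le_trans ?_ h1
    exact le_mul_of_one_le_left (abs_nonneg _) hρ
  have a2 := hχ.supp _ (left_ne_zero_of_mul (right_ne_zero_of_mul hne))
  have a3 := h0.supp _ (left_ne_zero_of_mul (right_ne_zero_of_mul (right_ne_zero_of_mul hne)))
  have a4 := h1.supp _ (right_ne_zero_of_mul (right_ne_zero_of_mul (right_ne_zero_of_mul hne)))
  have hs : 0 < 1 + XI v0 v1 τ η 2 := by linarith
  obtain ⟨b0, b1, b2⟩ := h v0 v1 τ (η 0) (η 1) (η 2) _ _ (1 + XI v0 v1 τ η 2) _ hv0 hv1 hτ hτ1 a2 a3 a4 a1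
    (by field_simp) (by field_simp) (XI_s v0 v1 τ η) rfl
  exact norm_E3_le b0 b1 b2

end Vale.Agent.P117.K
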