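import Vale.Agent.P117.K.KinA1

/-! # Kernel bounds for the smooth caps of the sphere -/

open MeasureTheory Complex Set Filter
open scoped ENNReal NNReal ContDiff FourierTransform Topology SchwartzMap

set_option linter.all false

namespace Vale.Agent.P117.K

open Vale.Agent.P106.G (mat3 mat3_apply mat3_inv_left mat3_inv_right mat3_cont inv_AT lintegral_mat3 mop Sm kn norm_E3_le inner3 kn_AT)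
open Vale.Agent.P117 (DB fourier_decay)

/-- translation of the symbol -/
theorem inv_trans (m : E3 → ℂ) (w x : E3) :
    𝓕⁻ m x = cexp (((2 * Real.pi * inner ℝ w x : ℝ) : ℂ) * I) * 𝓕⁻ (fun ξ => m (w + ξ)) x := by
  rw [Real.fourierInv_eq', Real.fourierInv_eq', ← integral_const_mul,
    ← integral_add_left_eq_self (fun v : E3 => cexp (((2 * Real.pi * inner ℝ v x : ℝ) : ℂ) * I) • m v) w]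
  congr 1
  ext v
  rw [smul_eq_mul, smul_eq_mul, ← mul_assoc, ← Complex.exp_add, inner_add_left]
  congr 2
  push_cast
  ring

theorem norm_inv_trans (m : E3 → ℂ) (w x : E3) : ‖𝓕⁻ m x‖ = ‖𝓕⁻ (fun ξ => m (w + ξ)) x‖ := by
  rw [inv_trans m w x, norm_mul, Complex.norm_exp_ofReal_mul_I, one_mul]

section
variable {B c V : ℝ} {φ ψ0 ψ1 : ℝ → ℂ} {χ : E3 → ℂ}

theorem Lc.nonneg (h : Lc B φ) {t : ℝ} (ht : φ t ≠ 0) : 0 ≤ B := (abs_nonneg _).trans (h.supp t ht)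

theorem cd_Pm1 (hφ : Lc B φ) (h0 : Lc B ψ0) (h1 : Lc B ψ1) (hχ : Xc c χ) (p : Pr) :
    ContDiff ℝ ∞ (fun η => Pm φ χ ψ0 ψ1 (η, p)) := by
  have h3 : ContDiff ℝ ∞ (fun η : E3 => (η, p)) := by fun_prop
  exact (cd_Pm hφ h0 h1 hχ).comp h3

theorem AQ_det_ne (v0 v1 : ℝ) {τ : ℝ} (hτ : 0 < τ) : (AQ v0 v1 τ).det ≠ 0 := by
  rw [AQ_det]; positivity

theorem mcap_eq (hχ : Xc c χ) (v0 v1 : ℝ) {τ : ℝ} (hτ : 0 < τ) (ρ : ℝ) (ξ : E3) : mcap φ χ ψ0 ψ1 v0 v1 τ ρ ξ =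
    Pm φ χ ψ0 ψ1 (mat3 (AQ v0 v1 τ)⁻¹ (ξ - fw v0 v1), (v0, v1, τ, ρ)) := by
  rw [← mcap_XI φ hχ ψ0 ψ1 v0 v1 hτ ρ]
  congr 1
  unfold XI
  rw [mat3_inv_right (AQ_det_ne v0 v1 hτ)]
  abel

/-- **uniform kernel bound** -/
theorem ker_mcap (hB : 0 ≤ B) (hφ : Lc B φ) (h0 : Lc B ψ0) (h1 : Lc B ψ1) (hχ : Xc c χ) (hV : 0 ≤ V) (Q : ℝ) (n : ℕ) : ∃ C : ℝ, 0 ≤ C ∧
    ∀ (v0 v1 τ ρ : ℝ), |v0| ≤ V → |v1| ≤ V → 0 < τ → τ ≤ 1 → 1 ≤ ρ → ρ ≤ Q → ∀ x : E3,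
      (1 + ‖mat3 (AQ v0 v1 τ).transpose x‖) ^ n * ‖𝓕⁻ (mcap φ χ ψ0 ψ1 v0 v1 τ ρ) x‖ ≤ C * τ ^ 4 := by
  obtain ⟨R, hR, hs⟩ := Pm_supp hB hχ.pos hV
  obtain ⟨D, hD, hDS⟩ := DB.of_param (K := Metric.closedBall (0:E3) R ×ˢ (Icc (-V) V ×ˢ (Icc (-V) V ×ˢ (Icc (0:ℝ) 1 ×ˢ Icc (1:ℝ) Q))))
    ((isCompact_closedBall _ _).prod (isCompact_Icc.prod (isCompact_Icc.prod (isCompact_Icc.prod isCompact_Icc)))) (cd_Pm hφ h0 h1 hχ) n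
  obtain ⟨C2, hC2, h4⟩ := fourier_decay (V := E3) n R
  refine ⟨C2 * D, by positivity, ?_⟩
  intro v0 v1 τ ρ hv0 hv1 hτ hτ1 hρ hρ1 x
  have h5 := h4 (fun η => Pm φ χ ψ0 ψ1 (η, (v0, v1, τ, ρ))) D (cd_Pm1 hφ h0 h1 hχ _)
    (fun η hη => hs φ ψ0 ψ1 χ hφ h0 h1 hχ v0 v1 τ ρ η hv0 hv1 hτ hτ1 hρ hη)
    (fun η hη => hDS η _ ⟨by simpa using hη, abs_le.1 hv0, abs_le.1 hv1, ⟨hτ.le, hτ1⟩, ⟨hρ, hρ1⟩⟩) (by linarith)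
    (-(mat3 (AQ v0 v1 τ).transpose x))
  rw [norm_neg] at h5
  have e1 : ‖𝓕⁻ (mcap φ χ ψ0 ψ1 v0 v1 τ ρ) x‖ = τ ^ 4 * ‖𝓕⁻ (fun η => Pm φ χ ψ0 ψ1 (η, (v0, v1, τ, ρ))) (mat3 (AQ v0 v1 τ).transpose x)‖ := by
    have e2 : (fun η => mcap φ χ ψ0 ψ1 v0 v1 τ ρ (fw v0 v1 + mat3 (AQ v0 v1 τ) η)) = fun η => Pm φ χ ψ0 ψ1 (η, (v0, v1, τ, ρ)) :=
      funext fun η => mcap_XI φ hχ ψ0 ψ1 v0 v1 hτ ρ η
    rw [norm_inv_trans _ (fw v0 v1), inv_AT (AQ_det_ne v0 v1 hτ), norm_smul, AQ_det, e2,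
      Real.norm_eq_abs, abs_abs, abs_of_pos (by positivity)]
  rw [e1, Real.fourierInv_eq_fourier_neg]
  calc _ = τ ^ 4 * ((1 + ‖mat3 (AQ v0 v1 τ).transpose x‖) ^ n * ‖𝓕 (fun η => Pm φ χ ψ0 ψ1 (η, (v0, v1, τ, ρ))) (-(mat3 (AQ v0 v1 τ).transpose x))‖) := by ring
    _ ≤ τ ^ 4 * (C2 * D) := by gcongr
    _ = _ := by ring

/-- the multipliers are smooth with compact support -/
theorem sm_mcap (hB : 0 ≤ B) (hφ : Lc B φ) (h0 : Lc B ψ0) (h1 : Lc B ψ1) (hχ : Xc c χ) (v0 v1 : ℝ) {τ : ℝ}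
    (hτ : 0 < τ) (hτ1 : τ ≤ 1) {ρ : ℝ} (hρ : 1 ≤ ρ) : Sm (mcap φ χ ψ0 ψ1 v0 v1 τ ρ) := by
  have e : mcap φ χ ψ0 ψ1 v0 v1 τ ρ = fun ξ => Pm φ χ ψ0 ψ1 (mat3 (AQ v0 v1 τ)⁻¹ (ξ - fw v0 v1), (v0, v1, τ, ρ)) := by
    ext ξ; exact mcap_eq hχ v0 v1 hτ ρ ξ
  have hV : 0 ≤ max |v0| |v1| := (abs_nonneg _).trans (le_max_left _ _)
  obtain ⟨R, hR, hs⟩ := Pm_supp hB hχ.pos hV
  constructor
  · rw [e]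
    have h3 : ContDiff ℝ ∞ (fun ξ : E3 => mat3 (AQ v0 v1 τ)⁻¹ (ξ - fw v0 v1)) := by
      have h4 : ContDiff ℝ ∞ (fun ξ : E3 => (mat3 (AQ v0 v1 τ)⁻¹).toContinuousLinearMap (ξ - fw v0 v1)) :=
        (mat3 (AQ v0 v1 τ)⁻¹).toContinuousLinearMap.contDiff.comp (by fun_prop)
      exact h4
    exact (cd_Pm1 hφ h0 h1 hχ (v0, v1, τ, ρ)).comp h3
  · set L := (mat3 (AQ v0 v1 τ)).toContinuousLinearMap with hL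
    apply Vale.Agent.P106.compact_of_supp (R := ‖fw v0 v1‖ + ‖L‖ * R)
    intro ξ hξ
    rw [mcap_eq hχ v0 v1 hτ ρ ξ] at hξ
    have h5 := hs φ ψ0 ψ1 χ hφ h0 h1 hχ v0 v1 τ ρ _ (le_max_left _ _) (le_max_right _ _) hτ hτ1 hρ hξ
    have e2 : ξ = fw v0 v1 + L (mat3 (AQ v0 v1 τ)⁻¹ (ξ - fw v0 v1)) := by
      have : L (mat3 (AQ v0 v1 τ)⁻¹ (ξ - fw v0 v1)) = mat3 (AQ v0 v1 τ) (mat3 (AQ v0 v1 τ)⁻¹ (ξ - fw v0 v1)) := rfl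
      rw [this, mat3_inv_right (AQ_det_ne v0 v1 hτ)]
      abel
    calc ‖ξ‖ = ‖fw v0 v1 + L (mat3 (AQ v0 v1 τ)⁻¹ (ξ - fw v0 v1))‖ := by rw [← e2]
      _ ≤ ‖fw v0 v1‖ + ‖L (mat3 (AQ v0 v1 τ)⁻¹ (ξ - fw v0 v1))‖ := norm_add_le _ _
      _ ≤ ‖fw v0 v1‖ + ‖L‖ * ‖mat3 (AQ v0 v1 τ)⁻¹ (ξ - fw v0 v1)‖ := by gcongr; exact L.le_opNorm _
      _ ≤ _ := by gcongr

end

end Vale.Agent.P117.K
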