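import Vale.Agent.P117.K.Defs
import Vale.Agent.P117.K.KinA2

/-! # The pieces of the localised Bochner-Riesz operator -/

open MeasureTheory Complex Set Filter
open scoped ENNReal NNReal ContDiff FourierTransform Topology SchwartzMap

set_option linter.all false

namespace Vale.Agent.P117.K

open Vale.Agent.P106.G (mat3 mat3_apply mat3_inv_left mat3_inv_right mat3_cont inv_AT lintegral_mat3 mop Sm kn norm_E3_le inner3 kn_AT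
  psv psi stp psi_supp psv_supp contDiff_psv stp_zero stp_one norm_st_le contDiff_stp)

/-! ### Partition -/

theorem norm_stp_le (t : ℝ) : ‖stp t‖ ≤ 1 := norm_st_le _

theorem norm_one_sub_stp (t : ℝ) : ‖1 - stp t‖ ≤ 1 := by
  unfold stp
  have e : (1 : ℂ) - (Real.smoothTransition (4 * t + 1/2) : ℂ) = ((1 - Real.smoothTransition (4 * t + 1/2) : ℝ) : ℂ) := by push_cast; ring
  have h1 := Real.smoothTransition.nonneg (4 * t + 1/2)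
  have h2 := Real.smoothTransition.le_one (4 * t + 1/2)
  rw [e, Complex.norm_real, Real.norm_eq_abs, abs_le]
  constructor <;> linarith

theorem norm_psi1 (t : ℝ) : ‖psi t‖ ≤ 1 := by
  unfold psi
  rcases le_total t (1/2) with h | h
  · rw [stp_zero (t := t - 1) (by linarith), sub_zero]; exact norm_stp_le _
  · rw [stp_one (t := t) (by linarith)]; exact norm_one_sub_stp _

theorem norm_psv1 (t : ℝ) : ‖psv t‖ ≤ 1 := norm_psi1 _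

/-- the periodic cut-off -/
noncomputable def Pp (u : ℝ) : ℂ := psv (Int.fract u)

theorem measurable_Pp : Measurable Pp := contDiff_psv.continuous.measurable.comp measurable_fract

theorem norm_Pp (u : ℝ) : ‖Pp u‖ ≤ 1 := norm_psv1 _

theorem Pp_supp {u : ℝ} (h : Pp u ≠ 0) : 1/8 ≤ Int.fract u ∧ Int.fract u ≤ 7/8 := by
  obtain ⟨h1, h2⟩ := psv_supp h
  constructor <;> linarith

theorem psv_int (u : ℝ) (k : ℤ) : psv (u - k) = if ⌊u⌋ = k then Pp u else 0 := by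
  split_ifs with h
  · unfold Pp
    rw [← h]
    rfl
  · by_contra hc
    obtain ⟨h1, h2⟩ := psv_supp hc
    apply h
    rw [Int.floor_eq_iff]
    constructor <;> linarith

theorem psv_half {t : ℝ} (h0 : 0 ≤ t) (h1 : t < 1/2) : psv t + psv (t + 1/2) = 1 := by
  unfold psv psi
  rw [show 2 * (t + 1/2) - 1/2 - 1 = 2 * t - 1/2 by ring, stp_one (t := 2 * (t + 1/2) - 1/2) (by linarith),
    stp_zero (t := 2 * t - 1/2 - 1) (by linarith)]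
  ring

theorem Pp_half (u : ℝ) : Pp (u - ((0 : Fin 2) : ℕ) / 2) + Pp (u - ((1 : Fin 2) : ℕ) / 2) = 1 := by
  have e0 : u - (((0 : Fin 2) : ℕ) : ℝ) / 2 = u := by simp
  have e1 : u - (((1 : Fin 2) : ℕ) : ℝ) / 2 = u - 1/2 := by simp
  rw [e0, e1]
  have hf := Int.fract_nonneg u
  have hf1 := Int.fract_lt_one u
  have hu : u = ⌊u⌋ + Int.fract u := (Int.floor_add_fract u).symm
  rcases lt_or_ge (Int.fract u) (1/2) with h | h
  · have e2 : Int.fract (u - 1/2) = Int.fract u + 1/2 := by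
      rw [Int.fract_eq_iff]
      refine ⟨by linarith, by linarith, ⌊u⌋ - 1, ?_⟩
      push_cast
      linarith
    unfold Pp
    rw [e2, psv_half hf h]
  · have e2 : Int.fract (u - 1/2) = Int.fract u - 1/2 := by
      rw [Int.fract_eq_iff]
      refine ⟨by linarith, by linarith, ⌊u⌋, ?_⟩
      linarith
    unfold Pp
    rw [e2, add_comm]
    have := psv_half (t := Int.fract u - 1/2) (by linarith) (by linarith)
    rw [sub_add_cancel] at this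
    exact this

/-! ### The pieces -/

/-- the multiplier of the piece `k` of the grid shifted by `o` -/
noncomputable def mk (φ : ℝ → ℂ) (χ : E3 → ℂ) (N : ℕ) (R o1 o2 : ℝ) (k : ℤ × ℤ) (ξ : E3) : ℂ :=
  mult φ χ R ξ * (psv (N * v1 ξ - o1 - k.1) * psv (N * v2 ξ - o2 - k.2))

/-- the multiplier of the grid shifted by `o` -/
noncomputable def mO (φ : ℝ → ℂ) (χ : E3 → ℂ) (N : ℕ) (R o1 o2 : ℝ) (ξ : E3) : ℂ :=
  mult φ χ R ξ * (Pp (N * v1 ξ - o1) * Pp (N * v2 ξ - o2))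

/-- the amplitude on the grid shifted by `o` -/
noncomputable def gO (φ : ℝ → ℂ) (χ : E3 → ℂ) (N : ℕ) (R o1 o2 : ℝ) (h : E3 → ℂ) (ξ : E3) : ℂ :=
  mO φ χ N R o1 o2 ξ * 𝓕 h ξ

theorem pc_gO (φ : ℝ → ℂ) (χ : E3 → ℂ) (N : ℕ) (R o1 o2 : ℝ) (h : E3 → ℂ) (k : ℤ × ℤ) :
    pc N o1 o2 k (gO φ χ N R o1 o2 h) = fun ξ => mk φ χ N R o1 o2 k ξ * 𝓕 h ξ := by
  ext ξ
  unfold pc gO mO mk
  rw [psv_int (N * v1 ξ - o1) k.1, psv_int (N * v2 ξ - o2) k.2]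
  by_cases h1 : ⌊N * v1 ξ - o1⌋ = k.1
  · by_cases h2 : ⌊N * v2 ξ - o2⌋ = k.2
    · rw [if_pos (by rw [h1, h2]), if_pos h1, if_pos h2]
    · rw [if_neg (by rintro rfl; exact h2 rfl), if_neg h2, mul_zero, mul_zero, zero_mul]
  · rw [if_neg (by rintro rfl; exact h1 rfl), if_neg h1, zero_mul, mul_zero, zero_mul]

/-- the pieces are multiplier operators applied to `h` -/
theorem inv_pc_gO (φ : ℝ → ℂ) (χ : E3 → ℂ) (N : ℕ) (R o1 o2 : ℝ) (h : E3 → ℂ) (k : ℤ × ℤ) :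
    𝓕⁻ (pc N o1 o2 k (gO φ χ N R o1 o2 h)) = mop (mk φ χ N R o1 o2 k) h := by
  rw [pc_gO]; rfl

theorem mk_mcap (φ : ℝ → ℂ) (χ : E3 → ℂ) {N : ℕ} (hN : 1 ≤ N) (R o1 o2 : ℝ) (k : ℤ × ℤ) : mk φ χ N R o1 o2 k =
    mcap φ χ (fun t => psv (t - o1)) (fun t => psv (t - o2)) (k.1 / N) (k.2 / N) (1 / N) (R / (N:ℝ) ^ 2) := by
  have hN0 : (N:ℝ) ≠ 0 := by positivity
  ext ξ
  unfold mk mcap mult v1 v2
  beta_reduce
  have e1 : R / (N:ℝ) ^ 2 * ((‖ξ‖ ^ 2 - 1) / (1 / (N:ℝ)) ^ 2) = R * (‖ξ‖ ^ 2 - 1) := by field_simp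
  have e2 : (ξ 0 / (1 + ξ 2) - (k.1:ℝ) / N) / (1 / N) - o1 = N * (ξ 0 / (1 + ξ 2)) - o1 - k.1 := by
    field_simp; ring
  have e3 : (ξ 1 / (1 + ξ 2) - (k.2:ℝ) / N) / (1 / N) - o2 = N * (ξ 1 / (1 + ξ 2)) - o2 - k.2 := by
    field_simp; ring
  rw [e1, e2, e3, mul_assoc]

theorem Lc.mono {B B' : ℝ} {φ : ℝ → ℂ} (h : Lc B φ) (hB : B ≤ B') : Lc B' φ := ⟨h.smooth, fun t ht => (h.supp t ht).trans hB⟩

theorem Prf.lc {c1 : ℝ} {φ : ℝ → ℂ} (h : Prf c1 φ) : Lc c1 φ := ⟨h.smooth, h.supp⟩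

theorem lc_psv {o : ℝ} (h0 : 0 ≤ o) (h1 : o ≤ 1/2) : Lc 2 (fun t => psv (t - o)) where
  smooth := contDiff_psv.comp (by fun_prop)
  supp := fun t ht => by
    obtain ⟨h1, h2⟩ := psv_supp ht
    rw [abs_le]; constructor <;> linarith

theorem xist_coord {c1 : ℝ} {ξ : E3} (h : ‖ξ - xist‖ ≤ c1) :
    |ξ 0 - 4/9| ≤ c1 ∧ |ξ 1 - 4/9| ≤ c1 ∧ |ξ 2 - 7/9| ≤ c1 := by
  have hc : ∀ i : Fin 3, |(ξ - xist) i| ≤ c1 := fun i => by
    have := PiLp.norm_apply_le (ξ - xist) i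
    rw [Real.norm_eq_abs] at this
    exact this.trans h
  exact ⟨hc 0, hc 1, hc 2⟩

theorem Cut.xc {c1 : ℝ} {χ : E3 → ℂ} (h : Cut c1 χ) (hc : c1 ≤ 1/100) : Xc 1 χ where
  pos := one_pos
  smooth := h.smooth
  supp := fun ξ hξ => by
    obtain ⟨_, _, h2⟩ := xist_coord (h.supp ξ hξ)
    obtain ⟨h3, h4⟩ := abs_le.1 h2
    linarith

/-- the stereographic coordinates near the base point -/
theorem v_near {c1 : ℝ} (hc0 : 0 ≤ c1) (hc : c1 ≤ 1/100) {ξ : E3} (h : ‖ξ - xist‖ ≤ c1) :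
    |v1 ξ - 1/4| ≤ c1 ∧ |v2 ξ - 1/4| ≤ c1 := by
  obtain ⟨h0, h1, h2⟩ := xist_coord h
  obtain ⟨a0, b0⟩ := abs_le.1 h0
  obtain ⟨a1, b1⟩ := abs_le.1 h1
  obtain ⟨a2, b2⟩ := abs_le.1 h2
  have hs : 0 < 1 + ξ 2 := by linarith
  have e : ∀ x : ℝ, x / (1 + ξ 2) - 1/4 = (x - (1 + ξ 2) / 4) / (1 + ξ 2) := by intro x; field_simp
  unfold v1 v2
  rw [e, e, abs_div, abs_div, abs_of_pos hs, div_le_iff₀ hs, div_le_iff₀ hs]
  constructor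
  · rw [abs_le]; constructor <;> nlinarith
  · rw [abs_le]; constructor <;> nlinarith

/-- the pieces with large index vanish -/
theorem mk_zero {c1 : ℝ} {φ : ℝ → ℂ} {χ : E3 → ℂ} (hχ : Cut c1 χ) (hc0 : 0 ≤ c1) (hc : c1 ≤ 1/100) {N : ℕ} (hN : 1 ≤ N) (R : ℝ)
    {o1 o2 : ℝ} (h1 : 0 ≤ o1) (h1' : o1 ≤ 1/2) (h2 : 0 ≤ o2) (h2' : o2 ≤ 1/2) {k : ℤ × ℤ}
    {ξ : E3} (h : mk φ χ N R o1 o2 k ξ ≠ 0) :
    |(k.1:ℝ) / N - 1/4| ≤ c1 + 3/2 / N ∧ |(k.2:ℝ) / N - 1/4| ≤ c1 + 3/2 / N := by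
  unfold mk mult at h
  have a1 := hχ.supp _ (right_ne_zero_of_mul (left_ne_zero_of_mul h))
  obtain ⟨b1, b2⟩ := v_near hc0 hc a1
  have c1' := psv_supp (left_ne_zero_of_mul (right_ne_zero_of_mul h))
  have c2' := psv_supp (right_ne_zero_of_mul (right_ne_zero_of_mul h))
  have hN0 : (0:ℝ) < N := by exact_mod_cast hN
  have key : ∀ (v o : ℝ) (j : ℤ), 0 ≤ o → o ≤ 1/2 → |v - 1/4| ≤ c1 → (3/16 ≤ N * v - o - j ∧ N * v - o - j ≤ 13/16) →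
      |(j:ℝ) / N - 1/4| ≤ c1 + 3/2 / N := by
    intro v o j ho ho' hv hj
    have e1 : (j:ℝ) / N - v = -((N * v - o - j) + o) / N := by field_simp; ring
    have e2 : |(j:ℝ) / N - v| ≤ 3/2 / N := by
      rw [e1, abs_div, abs_of_pos hN0]
      gcongr
      rw [abs_neg, abs_of_nonneg (by linarith)]
      linarith
    have e3 : (j:ℝ) / N - 1/4 = (v - 1/4) + ((j:ℝ) / N - v) := by ring
    rw [e3]
    exact (abs_add_le _ _).trans (add_le_add hv e2)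
  exact ⟨key _ _ _ h1 h1' b1 c1', key _ _ _ h2 h2' b2 c2'⟩

/-! ### The gauge -/

theorem om_fw (N : ℕ) (k : ℤ × ℤ) : om N k = fw (k.1 / N) (k.2 / N) := by
  have h := (Dn_pos (k.1 / N) (k.2 / N)).ne'
  unfold om omv fw
  have e : (1 + ((k.1:ℝ) / N) ^ 2 + ((k.2:ℝ) / N) ^ 2) = Dn (k.1 / N) (k.2 / N) := rfl
  rw [e]
  congr 3
  rw [← e]
  congr 1
  field_simp
  ring

/-- orthonormal decomposition -/
theorem frame_sq (v0 v1 : ℝ) (x : E3) : ‖x‖ ^ 2 = (inner ℝ (fa v0 v1) x) ^ 2 + (inner ℝ (fb v0 v1) x) ^ 2 + (inner ℝ (fw v0 v1) x) ^ 2 := by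
  have h := (Dn_pos v0 v1).ne'
  rw [norm3_sq, inner3, inner3, inner3]
  simp only [fa0, fa1, fa2, fb0, fb1, fb2, fw0, fw1, fw2]
  have e : Dn v0 v1 = 1 + v0 ^ 2 + v1 ^ 2 := rfl
  field_simp
  rw [e]
  ring

theorem norm_fw (v0 v1 : ℝ) : ‖fw v0 v1‖ ^ 2 = 1 := by
  have h := (Dn_pos v0 v1).ne'
  rw [norm3_sq]
  simp only [fw0, fw1, fw2]
  have e : Dn v0 v1 = 1 + v0 ^ 2 + v1 ^ 2 := rfl
  field_simp
  rw [e]
  ring

theorem proj_sq (v0 v1 : ℝ) (x : E3) : ‖x - (inner ℝ (fw v0 v1) x : ℝ) • fw v0 v1‖ ^ 2 =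
    (inner ℝ (fa v0 v1) x) ^ 2 + (inner ℝ (fb v0 v1) x) ^ 2 := by
  have h1 := frame_sq v0 v1 x
  have h2 : ‖x - (inner ℝ (fw v0 v1) x : ℝ) • fw v0 v1‖ ^ 2 = ‖x‖ ^ 2 - (inner ℝ (fw v0 v1) x) ^ 2 := by
    rw [norm_sub_sq_real, inner_smul_right, norm_smul, mul_pow, norm_fw, real_inner_comm x, Real.norm_eq_abs, sq_abs]
    ring
  linarith

theorem gam_nonneg (N : ℕ) (k : ℤ × ℤ) (x : E3) : 0 ≤ gam N k x := by unfold gam; positivity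

theorem norm_AQT_sq (v0 v1 τ : ℝ) (x : E3) : ‖mat3 (AQ v0 v1 τ).transpose x‖ ^ 2 =
    (τ * inner ℝ (fa v0 v1) x) ^ 2 + (τ * inner ℝ (fb v0 v1) x) ^ 2 + (τ ^ 2 * inner ℝ (fw v0 v1) x) ^ 2 := by
  rw [AQT_apply, norm3_sq]
  rfl

/-- the gauge is comparable with the norm of the rescaled vector -/
theorem gam_le {N : ℕ} (hN : 1 ≤ N) (k : ℤ × ℤ) (x : E3) :
    gam N k x ≤ 2 * ‖mat3 (AQ (k.1 / N) (k.2 / N) (1 / N)).transpose x‖ := by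
  have hN0 : (0:ℝ) < N := by exact_mod_cast hN
  have h1 := norm_AQT_sq (k.1 / N) (k.2 / N) (1 / N) x
  unfold gam
  rw [om_fw]
  set w := fw (k.1 / N) (k.2 / N) with hw
  have h2 := proj_sq (k.1 / N) (k.2 / N) x
  rw [← hw] at h2
  set u := ‖x - (inner ℝ w x : ℝ) • w‖ with hu
  apply le_of_sq_le_sq _ (by positivity)
  rw [mul_pow, h1]
  have e1 : (1 / (N:ℝ) * inner ℝ (fa (k.1 / N) (k.2 / N)) x) ^ 2 + (1 / (N:ℝ) * inner ℝ (fb (k.1 / N) (k.2 / N)) x) ^ 2 = (u / N) ^ 2 := by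
    rw [div_pow, h2]; field_simp
  have e2 : ((1 / (N:ℝ)) ^ 2 * inner ℝ w x) ^ 2 = (|inner ℝ w x| / (N:ℝ) ^ 2) ^ 2 := by
    rw [div_pow |inner ℝ w x| ((N:ℝ) ^ 2) 2, sq_abs]; field_simp
  rw [e1, e2]
  nlinarith [sq_nonneg (u / N - |inner ℝ w x| / (N:ℝ) ^ 2), sq_nonneg (u / N + |inner ℝ w x| / (N:ℝ) ^ 2)]

theorem le_gam {N : ℕ} (hN : 1 ≤ N) (k : ℤ × ℤ) (x : E3) :
    ‖mat3 (AQ (k.1 / N) (k.2 / N) (1 / N)).transpose x‖ ≤ gam N k x := by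
  have hN0 : (0:ℝ) < N := by exact_mod_cast hN
  have h1 := norm_AQT_sq (k.1 / N) (k.2 / N) (1 / N) x
  have hg := gam_nonneg N k x
  unfold gam at *
  rw [om_fw] at *
  set w := fw (k.1 / N) (k.2 / N) with hw
  have h2 := proj_sq (k.1 / N) (k.2 / N) x
  rw [← hw] at h2
  set u := ‖x - (inner ℝ w x : ℝ) • w‖ with hu
  apply le_of_sq_le_sq _ hg
  rw [h1]
  have e1 : (1 / (N:ℝ) * inner ℝ (fa (k.1 / N) (k.2 / N)) x) ^ 2 + (1 / (N:ℝ) * inner ℝ (fb (k.1 / N) (k.2 / N)) x) ^ 2 = (u / N) ^ 2 := by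
    rw [div_pow, h2]; field_simp
  have e2 : ((1 / (N:ℝ)) ^ 2 * inner ℝ w x) ^ 2 = (|inner ℝ w x| / (N:ℝ) ^ 2) ^ 2 := by
    rw [div_pow |inner ℝ w x| ((N:ℝ) ^ 2) 2, sq_abs]; field_simp
  rw [e1, e2]
  have : 0 ≤ u / N * (|inner ℝ w x| / (N:ℝ) ^ 2) := by positivity
  nlinarith

end Vale.Agent.P117.K
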