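import Vale.Agent.P117.K.KinA3

/-! # Kernel bounds for the pieces, densities bounded -/

open MeasureTheory Complex Set Filter
open scoped ENNReal NNReal ContDiff FourierTransform Topology SchwartzMap

set_option linter.all false

namespace Vale.Agent.P117.K

open Vale.Agent.P106.G (mat3 mat3_apply mat3_inv_left mat3_inv_right mat3_cont inv_AT lintegral_mat3 mop Sm kn norm_E3_le inner3 kn_AT
  psv psi stp psi_supp psv_supp contDiff_psv stp_zero stp_one norm_st_le contDiff_stp cW cW_lt mop_sup mop_L2 mop_adm)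
open Vale.Agent.P117 (Adm)

theorem Ad1.adm {h : E3 → ℂ} (hh : Ad1 h) : Adm volume h := ⟨hh.meas, hh.int, 1, hh.bdd⟩

theorem measurable_gam (N : ℕ) (k : ℤ × ℤ) : Measurable (gam N k) := by unfold gam; fun_prop

theorem measurable_Phs (M N : ℕ) (k : ℤ × ℤ) : Measurable (Phs M N k) := by
  have := measurable_gam N k
  unfold Phs; fun_prop

/-- the mass of the tube weights -/
theorem lint_Phs {M : ℕ} {N : ℕ} (hN : 1 ≤ N) (k : ℤ × ℤ) : ∫⁻ x, Phs M N k x ≤ cW M := by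
  have hN0 : (0:ℝ) < N := by exact_mod_cast hN
  have hτ : (0:ℝ) < 1 / N := by positivity
  have hdt : (AQ (k.1 / N) (k.2 / N) (1 / N)).transpose.det ≠ 0 := by
    rw [Matrix.det_transpose]; exact AQ_det_ne _ _ hτ
  calc ∫⁻ x, Phs M N k x ≤ ∫⁻ x : E3, ENNReal.ofReal (((N:ℝ) ^ 4)⁻¹) *
        ENNReal.ofReal (((1 + ‖mat3 (AQ (k.1 / N) (k.2 / N) (1 / N)).transpose x‖) ^ M)⁻¹) := by
        refine lintegral_mono fun x => ?_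
        unfold Phs
        rw [← ENNReal.ofReal_mul (by positivity)]
        apply ENNReal.ofReal_le_ofReal
        have := le_gam hN k x
        gcongr
    _ = _ := by
        rw [lintegral_const_mul' _ _ ENNReal.ofReal_ne_top,
          lintegral_mat3 hdt (fun x : Vale.Agent.P117.E3 => ENNReal.ofReal (((1 + ‖x‖) ^ M)⁻¹)), ← mul_assoc,
          ← ENNReal.ofReal_mul (by positivity), Matrix.det_transpose, AQ_det]
        have e : ((N:ℝ) ^ 4)⁻¹ * |((1 / (N:ℝ)) ^ 4)⁻¹| = 1 := by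
          rw [abs_of_pos (by positivity)]; field_simp
        rw [e, ENNReal.ofReal_one, one_mul]
        rfl

section
variable {c1 : ℝ} {φ : ℝ → ℂ} {χ : E3 → ℂ}

/-- parameters of the pieces -/
structure Dat (c1 : ℝ) (φ : ℝ → ℂ) (χ : E3 → ℂ) (o1 o2 : ℝ) : Prop where
  hc0 : 0 < c1
  hc1 : c1 ≤ 1/100
  prf : Prf c1 φ
  cut : Cut c1 χ
  ho1 : 0 ≤ o1
  ho1' : o1 ≤ 1/2
  ho2 : 0 ≤ o2
  ho2' : o2 ≤ 1/2

variable {o1 o2 : ℝ}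

theorem rho_bd {N : ℕ} (hN : 1 ≤ N) {R B : ℝ} (hR : (N:ℝ) ^ 2 ≤ R) (hR' : R ≤ B * (N:ℝ) ^ 2) :
    1 ≤ R / (N:ℝ) ^ 2 ∧ R / (N:ℝ) ^ 2 ≤ B := by
  have hN0 : (0:ℝ) < N := by exact_mod_cast hN
  constructor
  · rw [le_div_iff₀ (by positivity)]; linarith
  · rw [div_le_iff₀ (by positivity)]; exact hR'

theorem tau_bd {N : ℕ} (hN : 1 ≤ N) : (0:ℝ) < 1 / N ∧ (1:ℝ) / N ≤ 1 := by
  have hN0 : (1:ℝ) ≤ N := by exact_mod_cast hN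
  constructor
  · positivity
  · rw [div_le_one (by linarith)]; exact hN0

theorem sm_mk (D : Dat c1 φ χ o1 o2) {N : ℕ} (hN : 1 ≤ N) {R : ℝ} (hR : (N:ℝ) ^ 2 ≤ R) (k : ℤ × ℤ) :
    Sm (mk φ χ N R o1 o2 k) := by
  rw [mk_mcap φ χ hN]
  have hc := D.hc1
  exact sm_mcap (B := 2) (by norm_num) (D.prf.lc.mono (by linarith)) (lc_psv D.ho1 D.ho1') (lc_psv D.ho2 D.ho2') (D.cut.xc D.hc1) _ _
    (tau_bd hN).1 (tau_bd hN).2 (rho_bd hN hR (B := R / (N:ℝ) ^ 2) (by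
      have hN0 : (0:ℝ) < N := by exact_mod_cast hN
      field_simp; exact le_rfl)).1

theorem mk_eq_zero (D : Dat c1 φ χ o1 o2) {N : ℕ} (hN : 1 ≤ N) (R : ℝ) {k : ℤ × ℤ}
    (hk : ¬ (|(k.1:ℝ) / N| ≤ 2 ∧ |(k.2:ℝ) / N| ≤ 2)) : mk φ χ N R o1 o2 k = fun _ => 0 := by
  have hN0 : (1:ℝ) ≤ N := by exact_mod_cast hN
  ext ξ
  by_contra hne
  obtain ⟨a, b⟩ := mk_zero D.cut D.hc0.le D.hc1 hN R D.ho1 D.ho1' D.ho2 D.ho2' hne
  apply hk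
  have h1 : (3/2:ℝ) / N ≤ 3/2 := by
    rw [div_le_iff₀ (by linarith)]; linarith
  have hc := D.hc1
  obtain ⟨a1, a2⟩ := abs_le.1 a
  obtain ⟨b1, b2⟩ := abs_le.1 b
  constructor
  · rw [abs_le]; constructor <;> linarith
  · rw [abs_le]; constructor <;> linarith

/-- **kernel bound**: for every `n` the kernel of the piece `k` is bounded by the tube weight -/
theorem ker_mk (D : Dat c1 φ χ o1 o2) (B : ℝ) (n : ℕ) : ∃ C : ℝ, 0 ≤ C ∧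
    ∀ (N : ℕ) (R : ℝ) (k : ℤ × ℤ), 1 ≤ N → (N:ℝ) ^ 2 ≤ R → R ≤ B * (N:ℝ) ^ 2 → ∀ x : E3,
      ‖𝓕⁻ (mk φ χ N R o1 o2 k) x‖ ≤ C * (((N:ℝ) ^ 4)⁻¹ * ((1 + gam N k x) ^ n)⁻¹) := by
  have hc := D.hc1
  obtain ⟨C, hC, h⟩ := ker_mcap (B := 2) (V := 2) (by norm_num) (D.prf.lc.mono (by linarith)) (lc_psv D.ho1 D.ho1')
    (lc_psv D.ho2 D.ho2') (D.cut.xc D.hc1) (by norm_num) B n
  refine ⟨2 ^ n * C, by positivity, ?_⟩
  intro N R k hN hR hR' x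
  have hN0 : (0:ℝ) < N := by exact_mod_cast hN
  have hg := gam_nonneg N k x
  by_cases hk : |(k.1:ℝ) / N| ≤ 2 ∧ |(k.2:ℝ) / N| ≤ 2
  · obtain ⟨t0, t1⟩ := tau_bd hN
    obtain ⟨r0, r1⟩ := rho_bd hN hR hR'
    have h1 := h (k.1 / N) (k.2 / N) (1 / N) (R / (N:ℝ) ^ 2) hk.1 hk.2 t0 t1 r0 r1 x
    rw [← mk_mcap φ χ hN] at h1
    have h2 := gam_le hN k x
    set y := ‖mat3 (AQ (k.1 / N) (k.2 / N) (1 / N)).transpose x‖ with hy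
    have hy0 : 0 ≤ y := norm_nonneg _
    have h3 : (1 + gam N k x) ^ n ≤ 2 ^ n * (1 + y) ^ n := by
      rw [← mul_pow]
      apply pow_le_pow_left₀ (by linarith)
      linarith
    have h4 : ‖𝓕⁻ (mk φ χ N R o1 o2 k) x‖ * (1 + gam N k x) ^ n ≤ 2 ^ n * C * ((N:ℝ) ^ 4)⁻¹ := by
      calc _ ≤ ‖𝓕⁻ (mk φ χ N R o1 o2 k) x‖ * (2 ^ n * (1 + y) ^ n) := by gcongr
        _ = 2 ^ n * ((1 + y) ^ n * ‖𝓕⁻ (mk φ χ N R o1 o2 k) x‖) := by ring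
        _ ≤ 2 ^ n * (C * (1 / (N:ℝ)) ^ 4) := by gcongr
        _ = _ := by field_simp
    rw [← mul_assoc, ← div_eq_mul_inv, le_div_iff₀ (by positivity)]
    exact h4
  · rw [mk_eq_zero D hN R hk]
    have : 𝓕⁻ (fun _ : E3 => (0:ℂ)) x = 0 := by
      rw [Real.fourierInv_eq']; simp
    rw [this, norm_zero]
    positivity

/-- the same with the weights -/
theorem ker_mk' (D : Dat c1 φ χ o1 o2) (B : ℝ) (n : ℕ) : ∃ C : ℝ, 0 ≤ C ∧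
    ∀ (N : ℕ) (R : ℝ) (k : ℤ × ℤ), 1 ≤ N → (N:ℝ) ^ 2 ≤ R → R ≤ B * (N:ℝ) ^ 2 → ∀ x : E3,
      ‖𝓕⁻ (mk φ χ N R o1 o2 k) x‖ₑ ≤ ENNReal.ofReal C * Phs n N k x := by
  obtain ⟨C, hC, h⟩ := ker_mk D B n
  refine ⟨C, hC, fun N R k hN hR hR' x => ?_⟩
  unfold Phs
  rw [← ENNReal.ofReal_mul hC, ← ofReal_norm]
  exact ENNReal.ofReal_le_ofReal (h N R k hN hR hR' x)

/-- `L¹` norms of the kernels -/
theorem kn_mk (D : Dat c1 φ χ o1 o2) (B : ℝ) : ∃ C : ℝ, 0 ≤ C ∧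
    ∀ (N : ℕ) (R : ℝ) (k : ℤ × ℤ), 1 ≤ N → (N:ℝ) ^ 2 ≤ R → R ≤ B * (N:ℝ) ^ 2 →
      kn (mk φ χ N R o1 o2 k) ≤ ENNReal.ofReal C := by
  obtain ⟨C, hC, h⟩ := ker_mk' D B 4
  have hw := cW_lt (le_refl 4)
  refine ⟨C * (cW 4).toReal, by positivity, fun N R k hN hR hR' => ?_⟩
  calc kn (mk φ χ N R o1 o2 k) ≤ ∫⁻ x, ENNReal.ofReal C * Phs 4 N k x := lintegral_mono fun x => h N R k hN hR hR' x
    _ = ENNReal.ofReal C * ∫⁻ x, Phs 4 N k x := lintegral_const_mul' _ _ ENNReal.ofReal_ne_top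
    _ ≤ ENNReal.ofReal C * cW 4 := mul_le_mul' le_rfl (lint_Phs hN k)
    _ = _ := by rw [ENNReal.ofReal_mul hC, ENNReal.ofReal_toReal hw.ne]

/-- the pieces are bounded -/
theorem piece_sup (D : Dat c1 φ χ o1 o2) (B : ℝ) : ∃ C : ℝ, 0 ≤ C ∧
    ∀ (N : ℕ) (R : ℝ) (k : ℤ × ℤ) (h : E3 → ℂ), 1 ≤ N → (N:ℝ) ^ 2 ≤ R → R ≤ B * (N:ℝ) ^ 2 → Ad1 h → ∀ x : E3,
      ‖mop (mk φ χ N R o1 o2 k) h x‖ₑ ≤ ENNReal.ofReal C := by
  obtain ⟨C, hC, h⟩ := kn_mk D B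
  refine ⟨C, hC, fun N R k f hN hR hR' hf x => ?_⟩
  have := mop_sup (sm_mk D hN hR k) hf.adm (h N R k hN hR hR') hf.bdd x
  rwa [mul_one] at this

/-- the densities are bounded -/
theorem den_bd (D : Dat c1 φ χ o1 o2) (B : ℝ) {M : ℕ} (hM : 4 ≤ M) : ∃ C : ℝ, 0 ≤ C ∧
    ∀ (N : ℕ) (R : ℝ) (k : ℤ × ℤ) (h : E3 → ℂ), 1 ≤ N → (N:ℝ) ^ 2 ≤ R → R ≤ B * (N:ℝ) ^ 2 → Ad1 h → ∀ x : E3,
      den M N o1 o2 (gO φ χ N R o1 o2 h) k x ≤ ENNReal.ofReal C := by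
  obtain ⟨C, hC, h⟩ := piece_sup D B
  have hw := cW_lt hM
  refine ⟨C ^ 2 * (cW M).toReal, by positivity, fun N R k f hN hR hR' hf x => ?_⟩
  unfold den
  rw [inv_pc_gO]
  calc ∫⁻ y, ‖mop (mk φ χ N R o1 o2 k) f y‖ₑ ^ 2 * Phs M N k (x - y) ≤
        ∫⁻ y, ENNReal.ofReal C ^ 2 * Phs M N k (x - y) :=
        lintegral_mono fun y => mul_le_mul' (pow_le_pow_left' (h N R k f hN hR hR' hf y) 2) le_rfl
    _ = ENNReal.ofReal C ^ 2 * ∫⁻ y, Phs M N k (x - y) := lintegral_const_mul' _ _ (by simp)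
    _ = ENNReal.ofReal C ^ 2 * ∫⁻ y, Phs M N k y := by
        rw [lintegral_sub_left_eq_self (fun y => Phs M N k y) x]
    _ ≤ ENNReal.ofReal C ^ 2 * cW M := mul_le_mul' le_rfl (lint_Phs hN k)
    _ = _ := by rw [ENNReal.ofReal_mul (by positivity), ENNReal.ofReal_toReal hw.ne, ENNReal.ofReal_pow hC]

end

end Vale.Agent.P117.K
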