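import Vale.Agent.P117.K.KinA4

/-! # The amplitudes on the shifted grids: the first four conclusions of `StKIN3` -/

open MeasureTheory Complex Set Filter
open scoped ENNReal NNReal ContDiff FourierTransform Topology SchwartzMap

set_option linter.all false

namespace Vale.Agent.P117.K

open Vale.Agent.P106.G (mat3 mat3_apply mat3_inv_left mat3_inv_right mat3_cont inv_AT lintegral_mat3 mop Sm kn norm_E3_le inner3 kn_AT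
  psv psi stp psi_supp psv_supp contDiff_psv stp_zero stp_one norm_st_le contDiff_stp cW cW_lt mop_sup mop_L2 mop_adm
  fourier_bd mint plinv inv_add3 inv_sum3)
open Vale.Agent.P117 (Adm lintegral_sq_fourier_le)

section
variable {c1 : ℝ} {φ : ℝ → ℂ} {χ : E3 → ℂ} {o1 o2 : ℝ}

theorem measurable_v1 : Measurable v1 := by unfold v1; fun_prop
theorem measurable_v2 : Measurable v2 := by unfold v2; fun_prop

theorem Prf.bdd (h : Prf c1 φ) : ∃ C : ℝ, 0 ≤ C ∧ ∀ u, ‖φ u‖ ≤ C := by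
  have hs : HasCompactSupport φ := by
    apply HasCompactSupport.of_support_subset_isCompact (isCompact_Icc (a := -c1) (b := c1))
    intro u hu
    exact abs_le.1 (h.supp u hu)
  obtain ⟨C, hC⟩ := h.smooth.continuous.bounded_above_of_compact_support hs
  exact ⟨max C 0, le_max_right _ _, fun ξ => (hC ξ).trans (le_max_left _ _)⟩

theorem Cut.compact (h : Cut c1 χ) : HasCompactSupport χ := by
  apply HasCompactSupport.of_support_subset_isCompact (isCompact_closedBall xist c1)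
  intro ξ hξ
  rw [Metric.mem_closedBall, dist_eq_norm]
  exact h.supp ξ hξ

theorem Cut.bdd (h : Cut c1 χ) : ∃ C : ℝ, 0 ≤ C ∧ ∀ u, ‖χ u‖ ≤ C := by
  obtain ⟨C, hC⟩ := h.smooth.continuous.bounded_above_of_compact_support h.compact
  exact ⟨max C 0, le_max_right _ _, fun ξ => (hC ξ).trans (le_max_left _ _)⟩

theorem sm_mult (hφ : Prf c1 φ) (hχ : Cut c1 χ) (R : ℝ) : Sm (mult φ χ R) := by
  constructor
  · unfold mult
    have h1 : ContDiff ℝ ∞ (fun ξ : E3 => R * (‖ξ‖ ^ 2 - 1)) := contDiff_const.mul ((contDiff_norm_sq ℝ).sub contDiff_const)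
    exact (hφ.smooth.comp h1).mul hχ.smooth
  · exact hχ.compact.mul_left

theorem mult_bdd (hφ : Prf c1 φ) (hχ : Cut c1 χ) : ∃ C : ℝ, 0 ≤ C ∧ ∀ R ξ, ‖mult φ χ R ξ‖ ≤ C := by
  obtain ⟨A, hA, h1⟩ := hφ.bdd
  obtain ⟨B, hB, h2⟩ := hχ.bdd
  refine ⟨A * B, by positivity, fun R ξ => ?_⟩
  unfold mult
  rw [norm_mul]
  have := h1 (R * (‖ξ‖ ^ 2 - 1))
  have := h2 ξ
  gcongr

theorem measurable_mO (hφ : Prf c1 φ) (hχ : Cut c1 χ) (N : ℕ) (R o1 o2 : ℝ) : Measurable (mO φ χ N R o1 o2) := by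
  have h1 := (sm_mult hφ hχ R).smooth.continuous.measurable
  have h2 : Measurable (fun ξ => Pp (N * v1 ξ - o1)) := measurable_Pp.comp ((measurable_v1.const_mul _).sub_const _)
  have h3 : Measurable (fun ξ => Pp (N * v2 ξ - o2)) := measurable_Pp.comp ((measurable_v2.const_mul _).sub_const _)
  exact h1.mul (h2.mul h3)

theorem norm_mO_le (N : ℕ) (R o1 o2 : ℝ) (ξ : E3) : ‖mO φ χ N R o1 o2 ξ‖ ≤ ‖mult φ χ R ξ‖ := by
  unfold mO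
  rw [norm_mul, norm_mul]
  have h1 := norm_Pp (N * v1 ξ - o1)
  have h2 := norm_Pp (N * v2 ξ - o2)
  have h3 : ‖Pp (N * v1 ξ - o1)‖ * ‖Pp (N * v2 ξ - o2)‖ ≤ 1 := mul_le_one₀ h1 (norm_nonneg _) h2
  calc _ ≤ ‖mult φ χ R ξ‖ * 1 := by gcongr
    _ = _ := mul_one _

theorem int_mO (hφ : Prf c1 φ) (hχ : Cut c1 χ) (N : ℕ) (R o1 o2 : ℝ) : Integrable (mO φ χ N R o1 o2) :=
  (sm_mult hφ hχ R).int.mono (measurable_mO hφ hχ N R o1 o2).aestronglyMeasurable (Eventually.of_forall (norm_mO_le N R o1 o2))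

theorem measurable_F {h : E3 → ℂ} (hh : Integrable h) : Measurable (𝓕 h) := (Vale.Agent.P117.continuous_fourier hh).measurable

theorem int_gO (hφ : Prf c1 φ) (hχ : Cut c1 χ) (N : ℕ) (R o1 o2 : ℝ) {h : E3 → ℂ} (hh : Integrable h) :
    Integrable (gO φ χ N R o1 o2 h) := mint (int_mO hφ hχ N R o1 o2) hh

/-- energy of the amplitudes -/
theorem gO_L2 (hφ : Prf c1 φ) (hχ : Cut c1 χ) : ∃ C : ℝ, 0 ≤ C ∧ ∀ (N : ℕ) (R o1 o2 : ℝ) (h : E3 → ℂ), Ad1 h →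
    ∫⁻ ξ, ‖gO φ χ N R o1 o2 h ξ‖ₑ ^ 2 ≤ ENNReal.ofReal C * ∫⁻ y, ‖h y‖ₑ ^ 2 := by
  obtain ⟨C, hC, h1⟩ := mult_bdd hφ hχ
  refine ⟨C ^ 2, by positivity, fun N R o1 o2 h hh => ?_⟩
  calc ∫⁻ ξ, ‖gO φ χ N R o1 o2 h ξ‖ₑ ^ 2 ≤ ∫⁻ ξ, ENNReal.ofReal (C ^ 2) * ‖𝓕 h ξ‖ₑ ^ 2 := by
        refine lintegral_mono fun ξ => ?_
        unfold gO
        rw [enorm_mul, mul_pow, ENNReal.ofReal_pow hC]
        refine mul_le_mul' (pow_le_pow_left' ?_ 2) le_rfl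
        rw [← ofReal_norm]
        exact ENNReal.ofReal_le_ofReal ((norm_mO_le N R o1 o2 ξ).trans (h1 R ξ))
    _ = ENNReal.ofReal (C ^ 2) * ∫⁻ ξ, ‖𝓕 h ξ‖ₑ ^ 2 := lintegral_const_mul' _ _ ENNReal.ofReal_ne_top
    _ ≤ _ := mul_le_mul' le_rfl (lintegral_sq_fourier_le hh.int hh.meas)

theorem Ad1.sq {h : E3 → ℂ} (hh : Ad1 h) : ∫⁻ y, ‖h y‖ₑ ^ 2 < ⊤ := by
  have h1 : ∫⁻ y, ‖h y‖ₑ < ⊤ := hh.int.2
  refine lt_of_le_of_lt (lintegral_mono fun y => ?_) h1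
  have h2 : ‖h y‖ₑ ≤ 1 := by
    rw [← ofReal_norm, ← ENNReal.ofReal_one]
    exact ENNReal.ofReal_le_ofReal (hh.bdd y)
  rw [pow_two]
  calc ‖h y‖ₑ * ‖h y‖ₑ ≤ ‖h y‖ₑ * 1 := mul_le_mul' le_rfl h2
    _ = _ := mul_one _

theorem ams_gO (D : Dat c1 φ χ o1 o2) {N : ℕ} (hN : 1 ≤ N) {R : ℝ} (hR : (N:ℝ) ^ 2 ≤ R) {h : E3 → ℂ} (hh : Ad1 h) :
    Ams c1 N o1 o2 (gO φ χ N R o1 o2 h) where
  meas := (measurable_mO D.prf D.cut N R o1 o2).mul (measurable_F hh.int)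
  int := int_gO D.prf D.cut N R o1 o2 hh.int
  sq := by
    obtain ⟨C, hC, h1⟩ := gO_L2 D.prf D.cut
    exact lt_of_le_of_lt (h1 N R o1 o2 h hh) (ENNReal.mul_lt_top ENNReal.ofReal_lt_top hh.sq)
  sph := by
    intro ξ hξ
    unfold gO mO mult at hξ
    have h1 := D.prf.supp _ (left_ne_zero_of_mul (left_ne_zero_of_mul (left_ne_zero_of_mul hξ)))
    have hN0 : (0:ℝ) < N := by exact_mod_cast hN
    have hN2 : (0:ℝ) < (N:ℝ) ^ 2 := by positivity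
    rw [abs_mul, abs_of_pos (by linarith : (0:ℝ) < R)] at h1
    rw [le_div_iff₀ hN2]
    calc |‖ξ‖ ^ 2 - 1| * (N:ℝ) ^ 2 ≤ |‖ξ‖ ^ 2 - 1| * R := by gcongr
      _ = R * |‖ξ‖ ^ 2 - 1| := mul_comm _ _
      _ ≤ c1 := h1
  loc := by
    intro ξ hξ
    unfold gO mO mult at hξ
    exact D.cut.supp _ (right_ne_zero_of_mul (left_ne_zero_of_mul (left_ne_zero_of_mul hξ)))
  grid1 := by
    intro ξ hξ
    unfold gO mO at hξ
    exact Pp_supp (left_ne_zero_of_mul (right_ne_zero_of_mul (left_ne_zero_of_mul hξ)))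
  grid2 := by
    intro ξ hξ
    unfold gO mO at hξ
    exact Pp_supp (right_ne_zero_of_mul (right_ne_zero_of_mul (left_ne_zero_of_mul hξ)))

theorem sum_mO (N : ℕ) (R : ℝ) (ξ : E3) : ∑ o : Fin 2 × Fin 2, mO φ χ N R (o.1.val / 2) (o.2.val / 2) ξ = mult φ χ R ξ := by
  rw [Fintype.sum_prod_type, Fin.sum_univ_two, Fin.sum_univ_two, Fin.sum_univ_two]
  have h1 := Pp_half (N * v1 ξ)
  have h2 := Pp_half (N * v2 ξ)
  unfold mO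
  set a := Pp (N * v1 ξ - ((0 : Fin 2) : ℕ) / 2)
  set b := Pp (N * v1 ξ - ((1 : Fin 2) : ℕ) / 2)
  set c := Pp (N * v2 ξ - ((0 : Fin 2) : ℕ) / 2)
  set d := Pp (N * v2 ξ - ((1 : Fin 2) : ℕ) / 2)
  calc mult φ χ R ξ * (a * c) + mult φ χ R ξ * (a * d) + (mult φ χ R ξ * (b * c) + mult φ χ R ξ * (b * d)) =
        mult φ χ R ξ * ((a + b) * (c + d)) := by ring
    _ = _ := by rw [h1, h2]; ring

theorem SR_dec (hφ : Prf c1 φ) (hχ : Cut c1 χ) (N : ℕ) (R : ℝ) {h : E3 → ℂ} (hh : Integrable h) (x : E3) :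
    SR φ χ R h x = ∑ o : Fin 2 × Fin 2, 𝓕⁻ (gO φ χ N R (o.1.val / 2) (o.2.val / 2) h) x := by
  unfold SR
  rw [← inv_sum3 Finset.univ (fun o _ => int_gO hφ hχ N R _ _ hh)]
  have e : (fun ξ => mult φ χ R ξ * 𝓕 h ξ) = fun ξ => ∑ o : Fin 2 × Fin 2, gO φ χ N R (o.1.val / 2) (o.2.val / 2) h ξ := by
    funext ξ
    rw [← sum_mO N R ξ, Finset.sum_mul]
    rfl
  rw [e]

/-- bounded overlap of the pieces -/
theorem sum_mk (N : ℕ) (R o1 o2 : ℝ) (s : Finset (ℤ × ℤ)) (ξ : E3) :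
    ∑ k ∈ s, ‖mk φ χ N R o1 o2 k ξ‖ₑ ^ 2 ≤ ‖mult φ χ R ξ‖ₑ ^ 2 := by
  classical
  set k0 : ℤ × ℤ := (⌊N * v1 ξ - o1⌋, ⌊N * v2 ξ - o2⌋) with hk0
  have h1 : ∀ k ∈ s, k ≠ k0 → ‖mk φ χ N R o1 o2 k ξ‖ₑ ^ 2 = 0 := by
    intro k _ hk
    have : mk φ χ N R o1 o2 k ξ = 0 := by
      unfold mk
      rw [psv_int (N * v1 ξ - o1) k.1, psv_int (N * v2 ξ - o2) k.2]
      by_cases h1 : ⌊N * v1 ξ - o1⌋ = k.1
      · by_cases h2 : ⌊N * v2 ξ - o2⌋ = k.2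
        · exact absurd (Prod.ext h1.symm h2.symm) hk
        · rw [if_neg h2, mul_zero, mul_zero]
      · rw [if_neg h1, zero_mul, mul_zero]
    rw [this]; simp
  have h2 : ‖mk φ χ N R o1 o2 k0 ξ‖ₑ ^ 2 ≤ ‖mult φ χ R ξ‖ₑ ^ 2 := by
    refine pow_le_pow_left' ?_ 2
    unfold mk
    rw [enorm_mul, enorm_mul]
    have e : ∀ t, ‖psv t‖ₑ ≤ 1 := fun t => by
      rw [← ofReal_norm, ← ENNReal.ofReal_one]
      exact ENNReal.ofReal_le_ofReal (norm_psv1 t)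
    calc _ ≤ ‖mult φ χ R ξ‖ₑ * (1 * 1) := mul_le_mul' le_rfl (mul_le_mul' (e _) (e _))
      _ = _ := by rw [one_mul, mul_one]
  by_cases hks : k0 ∈ s
  · rw [Finset.sum_eq_single_of_mem k0 hks (fun k hk hne => h1 k hk hne)]
    exact h2
  · rw [Finset.sum_eq_zero (fun k hk => h1 k hk (fun he => hks (he ▸ hk)))]
    exact zero_le

/-- square sums of the pieces of an arbitrary function -/
theorem sum_mk_L2 (D : Dat c1 φ χ o1 o2) : ∃ C : ℝ, 0 ≤ C ∧ ∀ (N : ℕ) (R : ℝ) (s : Finset (ℤ × ℤ)) (f : E3 → ℂ), 1 ≤ N →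
    (N:ℝ) ^ 2 ≤ R → Adm volume f →
    ∑ k ∈ s, ∫⁻ x, ‖mop (mk φ χ N R o1 o2 k) f x‖ₑ ^ 2 ≤ ENNReal.ofReal C * ∫⁻ y, ‖f y‖ₑ ^ 2 := by
  obtain ⟨C, hC, h1⟩ := mult_bdd D.prf D.cut
  refine ⟨C ^ 2, by positivity, fun N R s f hN hR hf => ?_⟩
  calc ∑ k ∈ s, ∫⁻ x, ‖mop (mk φ χ N R o1 o2 k) f x‖ₑ ^ 2 ≤
        ∑ k ∈ s, ∫⁻ ξ, ‖mk φ χ N R o1 o2 k ξ‖ₑ ^ 2 * ‖𝓕 f ξ‖ₑ ^ 2 :=
        Finset.sum_le_sum fun k _ => mop_L2 (sm_mk D hN hR k) hf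
    _ = ∫⁻ ξ, ∑ k ∈ s, ‖mk φ χ N R o1 o2 k ξ‖ₑ ^ 2 * ‖𝓕 f ξ‖ₑ ^ 2 := by
        have hm : ∀ k ∈ s, Measurable (fun ξ => ‖mk φ χ N R o1 o2 k ξ‖ₑ ^ 2 * ‖𝓕 f ξ‖ₑ ^ 2) := fun k _ =>
          ((sm_mk D hN hR k).smooth.continuous.measurable.enorm.pow_const 2).mul ((measurable_F hf.int).enorm.pow_const 2)
        exact (lintegral_finset_sum s hm).symm
    _ ≤ ∫⁻ ξ, ENNReal.ofReal (C ^ 2) * ‖𝓕 f ξ‖ₑ ^ 2 := by
        refine lintegral_mono fun ξ => ?_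
        rw [← Finset.sum_mul, ENNReal.ofReal_pow hC]
        refine mul_le_mul' ((sum_mk N R o1 o2 s ξ).trans (pow_le_pow_left' ?_ 2)) le_rfl
        rw [← ofReal_norm]
        exact ENNReal.ofReal_le_ofReal (h1 R ξ)
    _ = ENNReal.ofReal (C ^ 2) * ∫⁻ ξ, ‖𝓕 f ξ‖ₑ ^ 2 := lintegral_const_mul' _ _ ENNReal.ofReal_ne_top
    _ ≤ _ := mul_le_mul' le_rfl (lintegral_sq_fourier_le hf.int hf.meas)

end

end Vale.Agent.P117.K
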