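import Vale.Agent.P117.K.Defs

/-! # Katz-Tao bound for the densities: abstract part -/

open MeasureTheory Complex Set
open scoped ENNReal NNReal Topology

set_option linter.all false

namespace Vale.Agent.P117.K.KB

/-- convolution with a kernel -/
noncomputable def cvl (K f : E3 → ℂ) (x : E3) : ℂ := ∫ y, K (x - y) * f y

/-- tail bound -/
theorem cvl_tail {K f : E3 → ℂ} {γ : E3 → ℝ} {b c L : ℝ} {p : ℕ} {I4 : ℝ≥0∞} (hγ : ∀ x, 0 ≤ γ x)
    (hγm : Measurable γ) (hb : 0 ≤ b) (hc : 0 ≤ c) (hL : 0 ≤ L)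
    (hK : ∀ x, ‖K x‖ ≤ c * (b * ((1 + γ x) ^ (p + 4))⁻¹))
    (hI : ∫⁻ x, ENNReal.ofReal (b * ((1 + γ x) ^ 4)⁻¹) ≤ I4)
    (hf : ∀ x, ‖f x‖ ≤ 1) (y : E3) (hs : ∀ z, f z ≠ 0 → L ≤ γ (y - z)) :
    ‖cvl K f y‖ₑ ≤ ENNReal.ofReal (c * ((1 + L) ^ p)⁻¹) * I4 := by
  unfold cvl
  have h1 : ∀ z, ‖K (y - z) * f z‖ₑ ≤ ENNReal.ofReal (c * ((1 + L) ^ p)⁻¹) *
      ENNReal.ofReal (b * ((1 + γ (y - z)) ^ 4)⁻¹) := by
    intro z
    by_cases hz : f z = 0
    · rw [hz, mul_zero, enorm_zero]; exact zero_le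
    have h2 := hs z hz
    have h0 := hγ (y - z)
    rw [← ofReal_norm, ← ENNReal.ofReal_mul (by positivity)]
    apply ENNReal.ofReal_le_ofReal
    rw [norm_mul]
    calc ‖K (y - z)‖ * ‖f z‖ ≤ (c * (b * ((1 + γ (y - z)) ^ (p + 4))⁻¹)) * 1 := by
          gcongr
          · exact hK _
          · exact hf _
      _ = c * (((1 + γ (y - z)) ^ p)⁻¹ * (b * ((1 + γ (y - z)) ^ 4)⁻¹)) := by
          rw [pow_add, mul_inv]; ring
      _ ≤ c * (((1 + L) ^ p)⁻¹ * (b * ((1 + γ (y - z)) ^ 4)⁻¹)) := by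
          gcongr
      _ = _ := by ring
  calc ‖∫ z, K (y - z) * f z‖ₑ ≤ ∫⁻ z, ‖K (y - z) * f z‖ₑ := enorm_integral_le_lintegral_enorm _
    _ ≤ ∫⁻ z, ENNReal.ofReal (c * ((1 + L) ^ p)⁻¹) * ENNReal.ofReal (b * ((1 + γ (y - z)) ^ 4)⁻¹) := lintegral_mono h1
    _ = ENNReal.ofReal (c * ((1 + L) ^ p)⁻¹) * ∫⁻ z, ENNReal.ofReal (b * ((1 + γ (y - z)) ^ 4)⁻¹) :=
        lintegral_const_mul' _ _ ENNReal.ofReal_ne_top
    _ ≤ _ := by
        rw [lintegral_sub_left_eq_self (fun z => ENNReal.ofReal (b * ((1 + γ z) ^ 4)⁻¹))]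
        gcongr

/-- additivity -/
theorem cvl_add {K f g : E3 → ℂ} (x : E3) (h1 : Integrable fun y => K (x - y) * f y)
    (h2 : Integrable fun y => K (x - y) * g y) : cvl K (fun y => f y + g y) x = cvl K f x + cvl K g x := by
  unfold cvl
  rw [← integral_add h1 h2]
  congr 1
  ext y
  ring

/-- bounded times integrable -/
theorem int_cvl {K f : E3 → ℂ} (hK : Continuous K) {B : ℝ} (hKb : ∀ x, ‖K x‖ ≤ B) (hf : Integrable f) (x : E3) :
    Integrable fun y => K (x - y) * f y := by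
  refine Integrable.bdd_mul (c := B) hf ?_ ?_
  · exact (hK.comp (by fun_prop)).aestronglyMeasurable
  · exact Filter.Eventually.of_forall fun y => hKb _

theorem sq_add_le (a b : ℝ≥0∞) : (a + b) ^ 2 ≤ 2 * a ^ 2 + 2 * b ^ 2 := by
  rcases eq_or_ne a ⊤ with rfl | ha
  · simp
  rcases eq_or_ne b ⊤ with rfl | hb
  · simp
  lift a to ℝ≥0 using ha
  lift b to ℝ≥0 using hb
  norm_cast
  have h : ((a:ℝ) + b) ^ 2 ≤ 2 * a ^ 2 + 2 * b ^ 2 := by nlinarith [sq_nonneg ((a:ℝ) - b)]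
  exact_mod_cast h

/-- data of the abstract Katz-Tao bound -/
structure KData {ι : Type*} (D : Finset ι) (γ : ι → E3 → ℝ) (K : ι → E3 → ℂ) (ρ : E3 → ℝ) (c0 : E3)
    (b c : ℝ) (p : ℕ) (I4 CP V : ℝ≥0∞) : Prop where
  hb : 0 ≤ b
  hc : 0 ≤ c
  γ0 : ∀ k ∈ D, ∀ x, 0 ≤ γ k x
  γm : ∀ k ∈ D, Measurable (γ k)
  ργ : ∀ k ∈ D, ∀ x, ρ x ≤ 3 * γ k x
  ρ0 : ∀ x, 0 ≤ ρ x
  ρm : Measurable ρ
  ρs : ∀ x y, ρ (x - y) ≤ ρ x + ρ y
  Kc : ∀ k ∈ D, Continuous (K k)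
  Kb : ∀ k ∈ D, ∀ x, ‖K k x‖ ≤ c * (b * ((1 + γ k x) ^ (p + 4))⁻¹)
  I4b : ∀ k ∈ D, ∫⁻ x, ENNReal.ofReal (b * ((1 + γ k x) ^ 4)⁻¹) ≤ I4
  vol : ∀ r : ℝ, 0 ≤ r → volume {x | ρ (x - c0) ≤ r} ≤ ENNReal.ofReal (8 * r ^ 3) * V
  pl : ∀ g : E3 → ℂ, Ad1 g → ∑ k ∈ D, ∫⁻ x, ‖cvl (K k) g x‖ₑ ^ 2 ≤ CP * ∫⁻ x, ‖g x‖ₑ ^ 2

section
variable {ι : Type*} {D : Finset ι} {γ : ι → E3 → ℝ} {K : ι → E3 → ℂ} {ρ : E3 → ℝ} {c0 : E3}
    {b c : ℝ} {p : ℕ} {I4 CP V : ℝ≥0∞} (H : KData D γ K ρ c0 b c p I4 CP V)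
include H

theorem KData.Kbd {k : ι} (hk : k ∈ D) (x : E3) : ‖K k x‖ ≤ c * b := by
  refine (H.Kb k hk x).trans ?_
  have h0 := H.γ0 k hk x
  have h1 : ((1 + γ k x) ^ (p + 4))⁻¹ ≤ 1 := inv_le_one_of_one_le₀ (one_le_pow₀ (by linarith))
  have := H.hb
  have := H.hc
  calc c * (b * ((1 + γ k x) ^ (p + 4))⁻¹) ≤ c * (b * 1) := by gcongr
    _ = c * b := by ring

theorem KData.int {k : ι} (hk : k ∈ D) {g : E3 → ℂ} (hg : Integrable g) (x : E3) :
    Integrable fun y => K k (x - y) * g y := int_cvl (H.Kc k hk) (H.Kbd hk) hg x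

/-- bulk bound -/
theorem KData.bulk {f : E3 → ℂ} (hf : Ad1 f) {lam μ : ℝ} (hl : 1 ≤ lam) (hμ : 1 ≤ μ) :
    ∑ k ∈ D, ∫⁻ x in {x | ρ (x - c0) ≤ μ}, ‖cvl (K k) f x‖ₑ ^ 2 ≤
      2 * (CP * (ENNReal.ofReal (8 * (2 * lam * μ) ^ 3) * V)) +
      2 * (D.card * ((ENNReal.ofReal (c * ((1 + lam / 3) ^ p)⁻¹) * I4) ^ 2 * (ENNReal.ofReal (8 * μ ^ 3) * V))) := by
  classical
  set U : Set E3 := {x | ρ (x - c0) ≤ 2 * lam * μ} with hU
  have mU : MeasurableSet U := by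
    have : Measurable fun x => ρ (x - c0) := H.ρm.comp (by fun_prop)
    exact measurableSet_le this measurable_const
  have mW : MeasurableSet {x | ρ (x - c0) ≤ μ} := by
    have : Measurable fun x => ρ (x - c0) := H.ρm.comp (by fun_prop)
    exact measurableSet_le this measurable_const
  set f1 := U.indicator f with hf1d
  set f2 := Uᶜ.indicator f with hf2d
  have hfs : ∀ x, f x = f1 x + f2 x := by
    intro x
    exact (congrFun (Set.indicator_self_add_compl U f) x).symm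
  have i1 : Integrable f1 := hf.int.indicator mU
  have i2 : Integrable f2 := hf.int.indicator mU.compl
  have a1 : Ad1 f1 := by
    exact ⟨hf.meas.indicator mU, i1, fun x => (norm_indicator_le_norm_self _ _).trans (hf.bdd x)⟩
  have hsplit : ∀ k ∈ D, ∀ x, ‖cvl (K k) f x‖ₑ ^ 2 ≤ 2 * ‖cvl (K k) f1 x‖ₑ ^ 2 + 2 * ‖cvl (K k) f2 x‖ₑ ^ 2 := by
    intro k hk x
    have e : cvl (K k) f x = cvl (K k) f1 x + cvl (K k) f2 x := by
      rw [← cvl_add x (H.int hk i1 x) (H.int hk i2 x)]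
      unfold cvl
      congr 1
      ext y
      rw [hfs y]
    rw [e]
    refine le_trans ?_ (sq_add_le _ _)
    gcongr
    exact enorm_add_le _ _
  have mc : ∀ k ∈ D, ∀ g : E3 → ℂ, Measurable g → Measurable fun x => ‖cvl (K k) g x‖ₑ ^ 2 := by
    intro k hk g hg
    refine Measurable.pow_const (Measurable.enorm ?_) 2
    unfold cvl
    refine (StronglyMeasurable.integral_prod_right' (f := fun q : E3 × E3 => K k (q.1 - q.2) * g q.2) ?_).measurable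
    have h1 : Measurable fun q : E3 × E3 => K k (q.1 - q.2) := (H.Kc k hk).measurable.comp (by fun_prop)
    exact (h1.mul (hg.comp measurable_snd)).stronglyMeasurable
  -- far part
  have far : ∀ k ∈ D, ∫⁻ x in {x | ρ (x - c0) ≤ μ}, ‖cvl (K k) f2 x‖ₑ ^ 2 ≤
      (ENNReal.ofReal (c * ((1 + lam / 3) ^ p)⁻¹) * I4) ^ 2 * (ENNReal.ofReal (8 * μ ^ 3) * V) := by
    intro k hk
    calc ∫⁻ x in {x | ρ (x - c0) ≤ μ}, ‖cvl (K k) f2 x‖ₑ ^ 2 ≤
        ∫⁻ x in {x | ρ (x - c0) ≤ μ}, (ENNReal.ofReal (c * ((1 + lam / 3) ^ p)⁻¹) * I4) ^ 2 := by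
          refine setLIntegral_mono' mW fun x hx => ?_
          refine pow_le_pow_left₀ zero_le ?_ 2
          refine cvl_tail (H.γ0 k hk) (H.γm k hk) H.hb H.hc (by linarith) (H.Kb k hk) (H.I4b k hk) ?_ x ?_
          · intro z
            exact (norm_indicator_le_norm_self _ _).trans (hf.bdd z)
          · intro z hz
            have hzU : z ∈ Uᶜ := by
              by_contra h
              exact hz (Set.indicator_of_notMem h _)
            have h1 : 2 * lam * μ < ρ (z - c0) := by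
              simpa [hU] using hzU
            have h2 : ρ (z - c0) ≤ ρ (x - c0) + ρ (x - z) := by
              have := H.ρs (x - c0) (x - z)
              rwa [show x - c0 - (x - z) = z - c0 by abel] at this
            have h3 : ρ (x - c0) ≤ μ := hx
            have h4 := H.ργ k hk (x - z)
            have h5 : lam ≤ lam * μ := le_mul_of_one_le_right (by linarith) hμ
            have h6 : μ ≤ lam * μ := le_mul_of_one_le_left (by linarith) hl
            linarith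
      _ = (ENNReal.ofReal (c * ((1 + lam / 3) ^ p)⁻¹) * I4) ^ 2 * volume {x | ρ (x - c0) ≤ μ} := by
          rw [setLIntegral_const]
      _ ≤ _ := by
          gcongr
          exact H.vol μ (by linarith)
  calc ∑ k ∈ D, ∫⁻ x in {x | ρ (x - c0) ≤ μ}, ‖cvl (K k) f x‖ₑ ^ 2 ≤
      ∑ k ∈ D, (2 * (∫⁻ x, ‖cvl (K k) f1 x‖ₑ ^ 2) + 2 * ∫⁻ x in {x | ρ (x - c0) ≤ μ}, ‖cvl (K k) f2 x‖ₑ ^ 2) := by
        refine Finset.sum_le_sum fun k hk => ?_
        calc ∫⁻ x in {x | ρ (x - c0) ≤ μ}, ‖cvl (K k) f x‖ₑ ^ 2 ≤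
            ∫⁻ x in {x | ρ (x - c0) ≤ μ}, (2 * ‖cvl (K k) f1 x‖ₑ ^ 2 + 2 * ‖cvl (K k) f2 x‖ₑ ^ 2) :=
              lintegral_mono fun x => hsplit k hk x
          _ = 2 * (∫⁻ x in {x | ρ (x - c0) ≤ μ}, ‖cvl (K k) f1 x‖ₑ ^ 2) + 2 * ∫⁻ x in {x | ρ (x - c0) ≤ μ}, ‖cvl (K k) f2 x‖ₑ ^ 2 := by
              rw [lintegral_add_left ((mc k hk f1 a1.meas).const_mul 2), lintegral_const_mul' _ _ (by norm_num),
                lintegral_const_mul' _ _ (by norm_num)]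
          _ ≤ _ := by
              gcongr
              exact Measure.restrict_le_self
    _ = 2 * (∑ k ∈ D, ∫⁻ x, ‖cvl (K k) f1 x‖ₑ ^ 2) + 2 * ∑ k ∈ D, ∫⁻ x in {x | ρ (x - c0) ≤ μ}, ‖cvl (K k) f2 x‖ₑ ^ 2 := by
        rw [Finset.sum_add_distrib, Finset.mul_sum, Finset.mul_sum]
    _ ≤ _ := by
        gcongr
        · refine (H.pl f1 a1).trans ?_
          gcongr
          calc ∫⁻ x, ‖f1 x‖ₑ ^ 2 ≤ ∫⁻ x, U.indicator (fun _ => 1) x := by
                refine lintegral_mono fun x => ?_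
                by_cases hx : x ∈ U
                · rw [hf1d, Set.indicator_of_mem hx, Set.indicator_of_mem hx, ← ofReal_norm]
                  have h1 : ENNReal.ofReal ‖f x‖ ≤ 1 := by
                    rw [← ENNReal.ofReal_one]
                    exact ENNReal.ofReal_le_ofReal (hf.bdd x)
                  exact pow_le_one₀ zero_le h1
                · rw [hf1d, Set.indicator_of_notMem hx, Set.indicator_of_notMem hx, enorm_zero]
                  norm_num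
            _ = volume U := by
                rw [lintegral_indicator mU, setLIntegral_one]
            _ ≤ _ := H.vol _ (by positivity)
        · calc ∑ k ∈ D, ∫⁻ x in {x | ρ (x - c0) ≤ μ}, ‖cvl (K k) f2 x‖ₑ ^ 2 ≤
              ∑ k ∈ D, (ENNReal.ofReal (c * ((1 + lam / 3) ^ p)⁻¹) * I4) ^ 2 * (ENNReal.ofReal (8 * μ ^ 3) * V) :=
                Finset.sum_le_sum far
            _ = _ := by
                rw [Finset.sum_const, nsmul_eq_mul]

end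


/-- the sum of the shell weights -/
noncomputable def cs : ℝ≥0∞ := ∑' j : ℕ, ENNReal.ofReal ((((j:ℝ) + 1) ^ 2)⁻¹)

theorem cs_lt : cs < ⊤ := by
  unfold cs
  have h : Summable fun j : ℕ => (((j:ℝ) + 1) ^ 2)⁻¹ := by
    have := (summable_nat_add_iff (f := fun n : ℕ => (((n:ℝ)) ^ 2)⁻¹) 1).2 (Real.summable_nat_pow_inv.2 (by norm_num))
    refine this.congr fun j => ?_
    push_cast
    rfl
  rw [← ENNReal.ofReal_tsum_of_nonneg (fun j => by positivity) h]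
  exact ENNReal.ofReal_lt_top

theorem shells (q : ℕ) {r : ℝ} (hr : 0 ≤ r) : ENNReal.ofReal (((1 + r) ^ q)⁻¹) ≤
    ∑' j : ℕ, ENNReal.ofReal ((((j:ℝ) + 1) ^ q)⁻¹) * (Set.Iic ((j:ℝ) + 1)).indicator (fun _ => (1:ℝ≥0∞)) r := by
  refine le_trans ?_ (ENNReal.le_tsum ⌊r⌋₊)
  have h1 : r ∈ Set.Iic ((⌊r⌋₊:ℝ) + 1) := (Nat.lt_floor_add_one r).le
  rw [Set.indicator_of_mem h1, mul_one]
  apply ENNReal.ofReal_le_ofReal
  have h2 : (⌊r⌋₊:ℝ) ≤ r := Nat.floor_le hr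
  have h3 : ((⌊r⌋₊:ℝ) + 1) ^ q ≤ (1 + r) ^ q := pow_le_pow_left₀ (by positivity) (by linarith) _
  exact inv_anti₀ (by positivity) h3

section
variable {ι : Type*} {D : Finset ι} {γ : ι → E3 → ℝ} {K : ι → E3 → ℂ} {ρ : E3 → ℝ} {c0 : E3}
    {b c : ℝ} {p : ℕ} {I4 CP V : ℝ≥0∞} (H : KData D γ K ρ c0 b c p I4 CP V)
include H

theorem KData.mcv {k : ι} (hk : k ∈ D) {g : E3 → ℂ} (hg : Measurable g) : Measurable fun x => ‖cvl (K k) g x‖ₑ ^ 2 := by
  refine Measurable.pow_const (Measurable.enorm ?_) 2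
  unfold cvl
  refine (StronglyMeasurable.integral_prod_right' (f := fun q : E3 × E3 => K k (q.1 - q.2) * g q.2) ?_).measurable
  have h1 : Measurable fun q : E3 × E3 => K k (q.1 - q.2) := (H.Kc k hk).measurable.comp (by fun_prop)
  exact (h1.mul (hg.comp measurable_snd)).stronglyMeasurable

/-- weighted bound -/
theorem KData.weighted {q : ℕ} (hq : 5 ≤ q) {f : E3 → ℂ} (hf : Ad1 f) {lam : ℝ} (hl : 1 ≤ lam) :
    ∑ k ∈ D, ∫⁻ y, ‖cvl (K k) f y‖ₑ ^ 2 * ENNReal.ofReal (((1 + ρ (y - c0)) ^ q)⁻¹) ≤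
      cs * (2 * (CP * (ENNReal.ofReal (64 * lam ^ 3) * V)) +
      2 * (D.card * ((ENNReal.ofReal (c * ((1 + lam / 3) ^ p)⁻¹) * I4) ^ 2 * (ENNReal.ofReal 8 * V)))) := by
  set B := 2 * (CP * (ENNReal.ofReal (64 * lam ^ 3) * V)) +
      2 * (D.card * ((ENNReal.ofReal (c * ((1 + lam / 3) ^ p)⁻¹) * I4) ^ 2 * (ENNReal.ofReal 8 * V))) with hB
  set G : E3 → ℝ≥0∞ := fun y => ∑ k ∈ D, ‖cvl (K k) f y‖ₑ ^ 2 with hG
  have mG : Measurable G := Finset.measurable_sum _ fun k hk => H.mcv hk hf.meas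
  have mρ : Measurable fun y => ρ (y - c0) := H.ρm.comp (by fun_prop)
  have mw : Measurable fun y => ENNReal.ofReal (((1 + ρ (y - c0)) ^ q)⁻¹) :=
    (((mρ.const_add 1).pow_const q).inv).ennreal_ofReal
  have mS : ∀ r : ℝ, MeasurableSet {y | ρ (y - c0) ≤ r} := fun r => measurableSet_le mρ measurable_const
  have hbulk : ∀ j : ℕ, ∫⁻ y in {y | ρ (y - c0) ≤ (j:ℝ) + 1}, G y ≤ ENNReal.ofReal (((j:ℝ) + 1) ^ 3) * B := by
    intro j
    have h1 : (1:ℝ) ≤ (j:ℝ) + 1 := by have : (0:ℝ) ≤ j := j.cast_nonneg; linarith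
    have h2 := H.bulk hf hl h1
    rw [hG, lintegral_finset_sum _ (fun k hk => H.mcv hk hf.meas)]
    refine h2.trans (le_of_eq ?_)
    have e1 : 8 * (2 * lam * ((j:ℝ) + 1)) ^ 3 = ((j:ℝ) + 1) ^ 3 * (64 * lam ^ 3) := by ring
    have e2 : 8 * ((j:ℝ) + 1) ^ 3 = ((j:ℝ) + 1) ^ 3 * 8 := by ring
    rw [e1, e2, ENNReal.ofReal_mul (p := ((j:ℝ) + 1) ^ 3) (q := 64 * lam ^ 3) (by positivity),
      ENNReal.ofReal_mul (p := ((j:ℝ) + 1) ^ 3) (q := 8) (by positivity), hB]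
    ring
  calc ∑ k ∈ D, ∫⁻ y, ‖cvl (K k) f y‖ₑ ^ 2 * ENNReal.ofReal (((1 + ρ (y - c0)) ^ q)⁻¹) =
      ∫⁻ y, G y * ENNReal.ofReal (((1 + ρ (y - c0)) ^ q)⁻¹) := by
        rw [← lintegral_finset_sum (f := fun k y => ‖cvl (K k) f y‖ₑ ^ 2 * ENNReal.ofReal (((1 + ρ (y - c0)) ^ q)⁻¹)) _
          (fun k hk => (H.mcv hk hf.meas).mul mw)]
        refine lintegral_congr fun y => ?_
        rw [hG, Finset.sum_mul]
    _ ≤ ∫⁻ y, ∑' j : ℕ, ENNReal.ofReal ((((j:ℝ) + 1) ^ q)⁻¹) * {y | ρ (y - c0) ≤ (j:ℝ) + 1}.indicator G y := by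
        refine lintegral_mono fun y => ?_
        calc G y * ENNReal.ofReal (((1 + ρ (y - c0)) ^ q)⁻¹) ≤
            G y * ∑' j : ℕ, ENNReal.ofReal ((((j:ℝ) + 1) ^ q)⁻¹) * (Set.Iic ((j:ℝ) + 1)).indicator (fun _ => (1:ℝ≥0∞)) (ρ (y - c0)) := by
              gcongr
              exact shells q (H.ρ0 _)
          _ = _ := by
              rw [← ENNReal.tsum_mul_left]
              congr 1
              ext j
              by_cases hy : ρ (y - c0) ≤ (j:ℝ) + 1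
              · rw [Set.indicator_of_mem (show ρ (y - c0) ∈ Set.Iic ((j:ℝ) + 1) from hy),
                  Set.indicator_of_mem (show y ∈ {y | ρ (y - c0) ≤ (j:ℝ) + 1} from hy)]
                ring
              · rw [Set.indicator_of_notMem (show ρ (y - c0) ∉ Set.Iic ((j:ℝ) + 1) from hy),
                  Set.indicator_of_notMem (show y ∉ {y | ρ (y - c0) ≤ (j:ℝ) + 1} from hy)]
                ring
    _ = ∑' j : ℕ, ENNReal.ofReal ((((j:ℝ) + 1) ^ q)⁻¹) * ∫⁻ y in {y | ρ (y - c0) ≤ (j:ℝ) + 1}, G y := by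
        rw [lintegral_tsum (fun j => ((mG.indicator (mS _)).const_mul _).aemeasurable)]
        congr 1
        ext j
        rw [lintegral_const_mul' _ _ ENNReal.ofReal_ne_top, lintegral_indicator (mS _)]
    _ ≤ ∑' j : ℕ, ENNReal.ofReal ((((j:ℝ) + 1) ^ 2)⁻¹) * B := by
        refine ENNReal.tsum_le_tsum fun j => ?_
        calc ENNReal.ofReal ((((j:ℝ) + 1) ^ q)⁻¹) * ∫⁻ y in {y | ρ (y - c0) ≤ (j:ℝ) + 1}, G y ≤
            ENNReal.ofReal ((((j:ℝ) + 1) ^ q)⁻¹) * (ENNReal.ofReal (((j:ℝ) + 1) ^ 3) * B) := by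
              gcongr
              exact hbulk j
          _ ≤ _ := by
              rw [← mul_assoc, ← ENNReal.ofReal_mul (by positivity)]
              gcongr
              have hj : (1:ℝ) ≤ (j:ℝ) + 1 := by have : (0:ℝ) ≤ j := j.cast_nonneg; linarith
              have h5 : ((j:ℝ) + 1) ^ 5 ≤ ((j:ℝ) + 1) ^ q := pow_le_pow_right₀ hj hq
              rw [inv_mul_le_iff₀ (by positivity)]
              rw [← div_eq_mul_inv, le_div_iff₀ (by positivity)]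
              calc ((j:ℝ) + 1) ^ 3 * ((j:ℝ) + 1) ^ 2 = ((j:ℝ) + 1) ^ 5 := by ring
                _ ≤ _ := h5
    _ = cs * B := by
        rw [ENNReal.tsum_mul_right]
        rfl

/-- Katz-Tao bound for the densities -/
theorem KData.main {q : ℕ} (hq : 5 ≤ q) {W : Set E3} (mW : MeasurableSet W) (hW : ∀ x ∈ W, ρ (x - c0) ≤ 3)
    {f : E3 → ℂ} (hf : Ad1 f) {lam : ℝ} (hl : 1 ≤ lam) :
    ∑ k ∈ D, ∫⁻ x in W, ∫⁻ y, ‖cvl (K k) f y‖ₑ ^ 2 * ENNReal.ofReal (b * ((1 + γ k (x - y)) ^ (q + 4))⁻¹) ≤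
      ENNReal.ofReal (4 ^ q) * I4 * (cs * (2 * (CP * (ENNReal.ofReal (64 * lam ^ 3) * V)) +
      2 * (D.card * ((ENNReal.ofReal (c * ((1 + lam / 3) ^ p)⁻¹) * I4) ^ 2 * (ENNReal.ofReal 8 * V))))) := by
  have mρ : Measurable fun y => ρ (y - c0) := H.ρm.comp (by fun_prop)
  refine le_trans ?_ (mul_le_mul' le_rfl (H.weighted hq hf hl))
  rw [Finset.mul_sum]
  refine Finset.sum_le_sum fun k hk => ?_
  have mF := H.mcv hk hf.meas
  have mγ : Measurable fun z : E3 => ENNReal.ofReal (b * ((1 + γ k z) ^ (q + 4))⁻¹) := by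
    have := H.γm k hk
    fun_prop
  have mγ' : Measurable fun z : E3 × E3 => ENNReal.ofReal (b * ((1 + γ k (z.1 - z.2)) ^ (q + 4))⁻¹) :=
    mγ.comp (measurable_fst.sub measurable_snd)
  rw [lintegral_lintegral_swap]
  swap
  · exact ((mF.comp measurable_snd).mul mγ').aemeasurable
  have hin : ∀ y, ∫⁻ x in W, ‖cvl (K k) f y‖ₑ ^ 2 * ENNReal.ofReal (b * ((1 + γ k (x - y)) ^ (q + 4))⁻¹) ≤
      (ENNReal.ofReal (4 ^ q) * I4) * (‖cvl (K k) f y‖ₑ ^ 2 * ENNReal.ofReal (((1 + ρ (y - c0)) ^ q)⁻¹)) := by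
    intro y
    calc ∫⁻ x in W, ‖cvl (K k) f y‖ₑ ^ 2 * ENNReal.ofReal (b * ((1 + γ k (x - y)) ^ (q + 4))⁻¹) ≤
        ∫⁻ x in W, (‖cvl (K k) f y‖ₑ ^ 2 * ENNReal.ofReal (4 ^ q * ((1 + ρ (y - c0)) ^ q)⁻¹)) *
          ENNReal.ofReal (b * ((1 + γ k (x - y)) ^ 4)⁻¹) := by
          refine setLIntegral_mono' mW fun x hx => ?_
          rw [mul_assoc]
          gcongr
          have h0 := H.γ0 k hk (x - y)
          have h1 := H.ρ0 (y - c0)
          have h2 : ρ (y - c0) ≤ ρ (x - c0) + ρ (x - y) := by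
            have := H.ρs (x - c0) (x - y)
            rwa [show x - c0 - (x - y) = y - c0 by abel] at this
          have h3 := hW x hx
          have h4 := H.ργ k hk (x - y)
          have hb := H.hb
          rw [← ENNReal.ofReal_mul (by positivity)]
          apply ENNReal.ofReal_le_ofReal
          have h5 : (1 + ρ (y - c0)) ^ q ≤ 4 ^ q * (1 + γ k (x - y)) ^ q := by
            rw [← mul_pow]
            exact pow_le_pow_left₀ (by linarith) (by linarith) _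
          have h6 : ((1 + γ k (x - y)) ^ q)⁻¹ ≤ 4 ^ q * ((1 + ρ (y - c0)) ^ q)⁻¹ := by
            rw [inv_eq_one_div, ← div_eq_mul_inv, div_le_div_iff₀ (by positivity) (by positivity)]
            linarith
          calc b * ((1 + γ k (x - y)) ^ (q + 4))⁻¹ = ((1 + γ k (x - y)) ^ q)⁻¹ * (b * ((1 + γ k (x - y)) ^ 4)⁻¹) := by
                rw [pow_add, mul_inv]; ring
            _ ≤ (4 ^ q * ((1 + ρ (y - c0)) ^ q)⁻¹) * (b * ((1 + γ k (x - y)) ^ 4)⁻¹) := by gcongr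
      _ ≤ (‖cvl (K k) f y‖ₑ ^ 2 * ENNReal.ofReal (4 ^ q * ((1 + ρ (y - c0)) ^ q)⁻¹)) * I4 := by
          have m4 : Measurable fun x : E3 => ENNReal.ofReal (b * ((1 + γ k (x - y)) ^ 4)⁻¹) := by
            have h7 : Measurable fun x : E3 => γ k (x - y) := (H.γm k hk).comp (measurable_id.sub_const y)
            exact ((((h7.const_add 1).pow_const 4).inv).const_mul b).ennreal_ofReal
          rw [lintegral_const_mul _ m4]
          gcongr
          calc ∫⁻ x in W, ENNReal.ofReal (b * ((1 + γ k (x - y)) ^ 4)⁻¹) ≤ ∫⁻ x, ENNReal.ofReal (b * ((1 + γ k (x - y)) ^ 4)⁻¹) :=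
                setLIntegral_le_lintegral _ _
            _ = ∫⁻ x, ENNReal.ofReal (b * ((1 + γ k x) ^ 4)⁻¹) :=
                lintegral_sub_right_eq_self (fun x => ENNReal.ofReal (b * ((1 + γ k x) ^ 4)⁻¹)) y
            _ ≤ I4 := H.I4b k hk
      _ = _ := by
          rw [ENNReal.ofReal_mul (by positivity)]
          ring
  refine (lintegral_mono hin).trans (le_of_eq ?_)
  have mw : Measurable fun y => ENNReal.ofReal (((1 + ρ (y - c0)) ^ q)⁻¹) :=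
    (((mρ.const_add 1).pow_const q).inv).ennreal_ofReal
  exact lintegral_const_mul (f := fun y => ‖cvl (K k) f y‖ₑ ^ 2 * ENNReal.ofReal (((1 + ρ (y - c0)) ^ q)⁻¹)) _ (mF.mul mw)

end

end Vale.Agent.P117.K.KB
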