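import Vale.Agent.P117.K.KinB2

/-! # Katz-Tao bound for the densities: final form -/

open MeasureTheory Complex Set
open scoped ENNReal NNReal Topology

set_option linter.all false

namespace Vale.Agent.P117.K.KB

/-- the direction of the cap is close to the base point -/
def near (N : ℕ) (k : ℤ × ℤ) : Prop := |(k.1:ℝ) / N - 1/4| ≤ 1/8 ∧ |(k.2:ℝ) / N - 1/4| ≤ 1/8

theorem om_coords {N : ℕ} {k : ℤ × ℤ} (hk : near N k) : 0 < om N k 2 ∧ om N k 2 ≤ 1 ∧ om N k 0 = om N k 2 * sl1 N k ∧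
    om N k 1 = om N k 2 * sl2 N k ∧ |sl1 N k| ≤ 3/2 ∧ |sl2 N k| ≤ 3/2 := by
  obtain ⟨h1, h2⟩ := hk
  set a := (k.1:ℝ) / N with ha
  set b := (k.2:ℝ) / N with hb
  rw [abs_le] at h1 h2
  have ha1 : 0 ≤ a := by linarith
  have hb1 : 0 ≤ b := by linarith
  have ha2 : a ≤ 3/8 := by linarith
  have hb2 : b ≤ 3/8 := by linarith
  have hd : 0 < 1 - a ^ 2 - b ^ 2 := by nlinarith
  have hd' : 1/2 ≤ 1 - a ^ 2 - b ^ 2 := by nlinarith
  have hs : 0 < 1 + a ^ 2 + b ^ 2 := by positivity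
  have e0 : om N k 0 = 2 * a / (1 + a ^ 2 + b ^ 2) := by unfold om omv; simp [ha, hb]
  have e1 : om N k 1 = 2 * b / (1 + a ^ 2 + b ^ 2) := by unfold om omv; simp [ha, hb]
  have e2 : om N k 2 = (1 - a ^ 2 - b ^ 2) / (1 + a ^ 2 + b ^ 2) := by unfold om omv; simp [ha, hb]
  have s1 : sl1 N k = 2 * a / (1 - a ^ 2 - b ^ 2) := by unfold sl1; rw [← ha, ← hb]
  have s2 : sl2 N k = 2 * b / (1 - a ^ 2 - b ^ 2) := by unfold sl2; rw [← ha, ← hb]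
  rw [e0, e1, e2, s1, s2]
  refine ⟨by positivity, ?_, ?_, ?_, ?_, ?_⟩
  · rw [div_le_one hs]; nlinarith
  · field_simp
  · field_simp
  · rw [abs_of_nonneg (by positivity), div_le_iff₀ hd]; nlinarith
  · rw [abs_of_nonneg (by positivity), div_le_iff₀ hd]; nlinarith

theorem coord_le (x : E3) (i : Fin 3) : |x i| ≤ ‖x‖ := by
  have := PiLp.norm_apply_le x i
  simpa using this

theorem ab_le {a b : ℝ} (hab : a ^ 2 + b ^ 2 = 1) : |a| ≤ 1 ∧ |b| ≤ 1 := by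
  constructor <;> rw [abs_le_one_iff_mul_self_le_one] <;> nlinarith [sq_nonneg a, sq_nonneg b]

/-- one linear coordinate of the plank -/
theorem lin_le {N : ℕ} (hN : 1 ≤ N) {k : ℤ × ℤ} (hk : near N k) {A B s1 s2 w : ℝ} (hA : |A| ≤ 1) (hB : |B| ≤ 1)
    (hw : (N:ℝ) ≤ w) (D : |A * (sl1 N k - s1) + B * (sl2 N k - s2)| ≤ w / (N:ℝ) ^ 2) (x : E3) :
    |A * (x 0 - s1 * x 2) + B * (x 1 - s2 * x 2)| / w ≤ 6 * gam N k x := by
  obtain ⟨o2, o2', eo0, eo1, hs1, hs2⟩ := om_coords hk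
  have hN1 : (1:ℝ) ≤ N := by exact_mod_cast hN
  have hN0 : (0:ℝ) < N := by linarith
  have hw0 : 0 < w := by linarith
  set R : ℝ := (N:ℝ) ^ 2 with hRd
  have hR : 0 < R := by positivity
  have hNR : (N:ℝ) ≤ R := by rw [hRd]; nlinarith
  set t : ℝ := inner ℝ (om N k) x with ht
  set y : E3 := x - t • om N k with hy
  have hx : x = y + t • om N k := by rw [hy]; abel
  have hgam : gam N k x = ‖y‖ / N + |t| / R := rfl
  have y0 := coord_le y 0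
  have y1 := coord_le y 1
  have y2 := coord_le y 2
  have hyn := norm_nonneg y
  have as1 : |A * s1 + B * s2| ≤ 3 + w / R := by
    have e : A * s1 + B * s2 = (A * sl1 N k + B * sl2 N k) - (A * (sl1 N k - s1) + B * (sl2 N k - s2)) := by ring
    rw [e]
    refine (abs_sub _ _).trans (add_le_add ?_ D)
    refine (abs_add_le _ _).trans ?_
    rw [abs_mul, abs_mul]
    have g1 : |A| * |sl1 N k| ≤ 1 * (3/2) := by gcongr
    have g2 : |B| * |sl2 N k| ≤ 1 * (3/2) := by gcongr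
    linarith
  have fo0 : |A * (om N k 0 - s1 * om N k 2) + B * (om N k 1 - s2 * om N k 2)| ≤ w / R := by
    have e : A * (om N k 0 - s1 * om N k 2) + B * (om N k 1 - s2 * om N k 2) =
        om N k 2 * (A * (sl1 N k - s1) + B * (sl2 N k - s2)) := by
      rw [eo0, eo1]; ring
    rw [e, abs_mul, abs_of_pos o2]
    calc om N k 2 * |A * (sl1 N k - s1) + B * (sl2 N k - s2)| ≤ 1 * (w / R) := by gcongr
      _ = w / R := one_mul _
  have fy0 : |A * (y 0 - s1 * y 2) + B * (y 1 - s2 * y 2)| ≤ (5 + w / R) * ‖y‖ := by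
    have e : A * (y 0 - s1 * y 2) + B * (y 1 - s2 * y 2) = (A * y 0 + B * y 1) - (A * s1 + B * s2) * y 2 := by ring
    rw [e]
    have g1 : |A * y 0 + B * y 1| ≤ 2 * ‖y‖ := by
      refine (abs_add_le _ _).trans ?_
      rw [abs_mul, abs_mul]
      have g1 : |A| * |y 0| ≤ 1 * ‖y‖ := by gcongr
      have g2 : |B| * |y 1| ≤ 1 * ‖y‖ := by gcongr
      linarith
    have g2 : |(A * s1 + B * s2) * y 2| ≤ (3 + w / R) * ‖y‖ := by
      rw [abs_mul]; gcongr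
    have := abs_sub (A * y 0 + B * y 1) ((A * s1 + B * s2) * y 2)
    linarith
  have hx0 : x 0 = y 0 + t * om N k 0 := by
    have := congrArg (fun z : E3 => z 0) hx
    simpa using this
  have hx1 : x 1 = y 1 + t * om N k 1 := by
    have := congrArg (fun z : E3 => z 1) hx
    simpa using this
  have hx2 : x 2 = y 2 + t * om N k 2 := by
    have := congrArg (fun z : E3 => z 2) hx
    simpa using this
  have e : A * (x 0 - s1 * x 2) + B * (x 1 - s2 * x 2) = (A * (y 0 - s1 * y 2) + B * (y 1 - s2 * y 2)) +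
      t * (A * (om N k 0 - s1 * om N k 2) + B * (om N k 1 - s2 * om N k 2)) := by
    rw [hx0, hx1, hx2]; ring
  have g1 : |A * (x 0 - s1 * x 2) + B * (x 1 - s2 * x 2)| ≤ (5 + w / R) * ‖y‖ + |t| * (w / R) := by
    rw [e]
    refine (abs_add_le _ _).trans ?_
    rw [abs_mul]; gcongr
  have p1 : 0 ≤ ‖y‖ / N := by positivity
  have p2 : 0 ≤ |t| / R := by positivity
  calc |A * (x 0 - s1 * x 2) + B * (x 1 - s2 * x 2)| / w ≤ ((5 + w / R) * ‖y‖ + |t| * (w / R)) / w := by gcongr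
    _ = 5 * (‖y‖ / w) + ‖y‖ / R + |t| / R := by field_simp
    _ ≤ 5 * (‖y‖ / N) + ‖y‖ / N + |t| / R := by gcongr
    _ ≤ _ := by rw [hgam]; linarith

theorem x2_le {N : ℕ} (hN : 1 ≤ N) (k : ℤ × ℤ) (x : E3) : |x 2| / (N:ℝ) ^ 2 ≤ gam N k x := by
  have hN1 : (1:ℝ) ≤ N := by exact_mod_cast hN
  have hN0 : (0:ℝ) < N := by linarith
  set R : ℝ := (N:ℝ) ^ 2 with hRd
  have hR : 0 < R := by positivity
  have hNR : (N:ℝ) ≤ R := by rw [hRd]; nlinarith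
  set t : ℝ := inner ℝ (om N k) x with ht
  set y : E3 := x - t • om N k with hy
  have hx : x = y + t • om N k := by rw [hy]; abel
  have hgam : gam N k x = ‖y‖ / N + |t| / R := rfl
  have g1 : |x 2| ≤ ‖y‖ + |t| := by
    refine (coord_le x 2).trans ?_
    conv_lhs => rw [hx]
    refine (norm_add_le _ _).trans ?_
    rw [norm_smul, norm_om, mul_one, Real.norm_eq_abs]
  rw [hgam]
  calc |x 2| / R ≤ (‖y‖ + |t|) / R := by gcongr
    _ = ‖y‖ / R + |t| / R := add_div _ _ _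
    _ ≤ _ := by gcongr

theorem rho_le_gam {N : ℕ} (hN : 1 ≤ N) {k : ℤ × ℤ} (hk : near N k) {a b s1 s2 w1 w2 : ℝ} (hab : a ^ 2 + b ^ 2 = 1)
    (hw1 : (N:ℝ) ≤ w1) (hw2 : w1 ≤ w2) (hD : dirP N ((N:ℝ) ^ 2) a b s1 s2 w1 w2 k) (x : E3) :
    rho ((N:ℝ) ^ 2) a b s1 s2 w1 w2 x ≤ 13 * gam N k x := by
  obtain ⟨ha, hb⟩ := ab_le hab
  have h1 := lin_le hN hk ha hb hw1 hD.1 x
  have h2 := lin_le hN hk (A := -b) (B := a) (by rw [abs_neg]; exact hb) ha (hw1.trans hw2) hD.2 x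
  have h3 := x2_le hN k x
  unfold rho f0 f1
  linarith

theorem card_grd (N : ℕ) : ((grd N).card : ℝ) = (N:ℝ) ^ 2 := by
  unfold grd
  rw [Finset.card_product]
  simp
  ring

/-- pointwise bound for the pieces -/
theorem piece_le {N : ℕ} (hN : 1 ≤ N) {p : ℕ} {CK : ℝ} (hCK : 0 ≤ CK) {K : E3 → ℂ} {k : ℤ × ℤ}
    (hK : ∀ x, ‖K x‖ ≤ CK * (((N:ℝ) ^ 4)⁻¹ * ((1 + gam N k x) ^ (p + 4))⁻¹)) {h : E3 → ℂ} (hh : Ad1 h) (y : E3) :
    ‖cvl K h y‖ₑ ≤ ENNReal.ofReal CK * i4 := by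
  have := cvl_tail (K := K) (f := h) (γ := gam N k) (b := ((N:ℝ) ^ 4)⁻¹) (c := CK) (L := 0) (p := p) (I4 := i4) (gam_nonneg N k)
    (gam_cont N k).measurable (by positivity) hCK le_rfl hK (int_gam4 hN k) hh.bdd y (fun z _ => gam_nonneg N k _)
  simpa using this

/-- mass of the tube weight -/
theorem lint_Phs {N : ℕ} (hN : 1 ≤ N) {M : ℕ} (hM : 4 ≤ M) (k : ℤ × ℤ) : ∫⁻ x, Phs M N k x ≤ i4 := by
  refine le_trans (lintegral_mono fun x => ?_) (int_gam4 hN k)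
  unfold Phs
  apply ENNReal.ofReal_le_ofReal
  have h0 := gam_nonneg N k x
  gcongr
  linarith

/-- pointwise bound for the densities -/
theorem dens_le {N : ℕ} (hN : 1 ≤ N) {M p : ℕ} (hM : 4 ≤ M) {CK : ℝ} (hCK : 0 ≤ CK) {K : E3 → ℂ} {k : ℤ × ℤ}
    (hK : ∀ x, ‖K x‖ ≤ CK * (((N:ℝ) ^ 4)⁻¹ * ((1 + gam N k x) ^ (p + 4))⁻¹)) {h : E3 → ℂ} (hh : Ad1 h) (x : E3) :
    ∫⁻ y, ‖cvl K h y‖ₑ ^ 2 * Phs M N k (x - y) ≤ (ENNReal.ofReal CK * i4) ^ 2 * i4 := by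
  have mP : Measurable (Phs M N k) := by
    unfold Phs
    have := (gam_cont N k).measurable
    fun_prop
  calc ∫⁻ y, ‖cvl K h y‖ₑ ^ 2 * Phs M N k (x - y) ≤ ∫⁻ y, (ENNReal.ofReal CK * i4) ^ 2 * Phs M N k (x - y) := by
        refine lintegral_mono fun y => ?_
        gcongr
        exact piece_le hN hCK hK hh y
    _ = (ENNReal.ofReal CK * i4) ^ 2 * ∫⁻ y, Phs M N k (x - y) :=
        lintegral_const_mul _ (mP.comp (measurable_id.const_sub x))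
    _ = (ENNReal.ofReal CK * i4) ^ 2 * ∫⁻ y, Phs M N k y := by
        rw [lintegral_sub_left_eq_self (fun y => Phs M N k y)]
    _ ≤ _ := by
        gcongr
        exact lint_Phs hN hM k

/-- numbers -/
theorem num_main {N : ℕ} (hN : 1 ≤ N) {ε : ℝ} (hε : 0 < ε) {p : ℕ} (hp : 3 / ε ≤ p) {CK CP i c X F d : ℝ} (hCK : 0 ≤ CK)
    (hCP : 0 ≤ CP) (hi : 0 ≤ i) (hc : 0 ≤ c) (hX : 0 ≤ X) (hF : 0 ≤ F) (hd0 : 0 ≤ d) (hd : d ≤ (N:ℝ) ^ 2) :
    F * i * (c * (2 * (CP * (64 * ((N:ℝ) ^ (ε / 3)) ^ 3 * X)) +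
      2 * (d * ((CK * ((1 + (N:ℝ) ^ (ε / 3) / 3) ^ p)⁻¹ * i) ^ 2 * (8 * X))))) ≤
    F * i * c * (128 * CP + 16 * CK ^ 2 * i ^ 2 * 9 ^ p) * (N:ℝ) ^ ε * X := by
  have hN1 : (1:ℝ) ≤ N := by exact_mod_cast hN
  have hN0 : (0:ℝ) < N := by linarith
  set l : ℝ := (N:ℝ) ^ (ε / 3) with hl
  have hl1 : 1 ≤ l := Real.one_le_rpow hN1 (by positivity)
  have hl3 : l ^ 3 = (N:ℝ) ^ ε := by
    rw [hl, ← Real.rpow_natCast, ← Real.rpow_mul hN0.le]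
    congr 1
    push_cast
    ring
  have hNe : 1 ≤ (N:ℝ) ^ ε := Real.one_le_rpow hN1 hε.le
  have h1 : (N:ℝ) ≤ l ^ p := by
    rw [hl, ← Real.rpow_natCast, ← Real.rpow_mul hN0.le]
    calc (N:ℝ) = (N:ℝ) ^ (1:ℝ) := (Real.rpow_one _).symm
      _ ≤ _ := by
        apply Real.rpow_le_rpow_of_exponent_le hN1
        rw [div_le_iff₀ hε] at hp
        linarith
  have h2 : ((1 + l / 3) ^ p)⁻¹ ≤ 3 ^ p * (l ^ p)⁻¹ := by
    have : (l / 3) ^ p ≤ (1 + l / 3) ^ p := pow_le_pow_left₀ (by positivity) (by linarith) _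
    calc ((1 + l / 3) ^ p)⁻¹ ≤ ((l / 3) ^ p)⁻¹ := by gcongr
      _ = _ := by rw [div_pow, inv_div, div_eq_mul_inv]
  have h3 : d * (((1 + l / 3) ^ p)⁻¹) ^ 2 ≤ 9 ^ p := by
    have hlp : 0 < l ^ p := by positivity
    calc d * (((1 + l / 3) ^ p)⁻¹) ^ 2 ≤ (N:ℝ) ^ 2 * (3 ^ p * (l ^ p)⁻¹) ^ 2 := by gcongr
      _ ≤ (l ^ p) ^ 2 * (3 ^ p * (l ^ p)⁻¹) ^ 2 := by gcongr
      _ = (3 ^ p) ^ 2 := by field_simp
      _ = 9 ^ p := by rw [← pow_mul, mul_comm, pow_mul]; norm_num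
  rw [hl3]
  have e : F * i * (c * (2 * (CP * (64 * (N:ℝ) ^ ε * X)) + 2 * (d * ((CK * ((1 + l / 3) ^ p)⁻¹ * i) ^ 2 * (8 * X))))) =
      F * i * c * X * (128 * CP * (N:ℝ) ^ ε + 16 * CK ^ 2 * i ^ 2 * (d * (((1 + l / 3) ^ p)⁻¹) ^ 2) * 1) := by ring
  rw [e]
  calc _ ≤ F * i * c * X * (128 * CP * (N:ℝ) ^ ε + 16 * CK ^ 2 * i ^ 2 * (9 ^ p) * (N:ℝ) ^ ε) := by gcongr
    _ = _ := by ring

end Vale.Agent.P117.K.KB
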