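import Vale.Agent.P117.K.KinA4
import Vale.Agent.P117.K.KinB4

/-! # Katz-Tao condition for the densities of the localised Bochner-Riesz operator -/

open MeasureTheory Complex Set Filter
open scoped ENNReal NNReal ContDiff FourierTransform Topology SchwartzMap

set_option linter.all false

namespace Vale.Agent.P117.K

open Vale.Agent.P117 (Adm cv cv_schwartz_eq lintegral_sq_fourier_le)
open Vale.Agent.P106.G (psv contDiff_psv psi_mul_psiP psv_supp mop mop_L2 Sm mop_pw)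

section
variable {c1 : ℝ} {φ : ℝ → ℂ} {χ : E3 → ℂ} {o1 o2 : ℝ}

theorem mult_bdd (D : Dat c1 φ χ o1 o2) : ∃ C : ℝ, 0 ≤ C ∧ ∀ R ξ, ‖mult φ χ R ξ‖ ≤ C := by
  have s1 : HasCompactSupport φ := by
    refine HasCompactSupport.intro (isCompact_Icc (a := -c1) (b := c1)) fun t ht => ?_
    by_contra h
    exact ht (abs_le.1 (D.prf.supp t h))
  have s2 : HasCompactSupport χ := by
    refine HasCompactSupport.intro (isCompact_closedBall xist c1) fun ξ h => ?_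
    by_contra h'
    exact h (by rw [Metric.mem_closedBall, dist_eq_norm]; exact D.cut.supp ξ h')
  obtain ⟨A, hA⟩ := D.prf.smooth.continuous.bounded_above_of_compact_support s1
  obtain ⟨B, hB⟩ := D.cut.smooth.continuous.bounded_above_of_compact_support s2
  refine ⟨max A 0 * max B 0, by positivity, fun R ξ => ?_⟩
  unfold mult
  rw [norm_mul]
  gcongr
  · exact (hA _).trans (le_max_left _ _)
  · exact (hB _).trans (le_max_left _ _)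

theorem mk_le (φ : ℝ → ℂ) (χ : E3 → ℂ) (N : ℕ) (R o1 o2 : ℝ) (k : ℤ × ℤ) (ξ : E3) :
    ‖mk φ χ N R o1 o2 k ξ‖ₑ ^ 2 ≤ if k = (⌊N * v1 ξ - o1⌋, ⌊N * v2 ξ - o2⌋) then ‖mult φ χ R ξ‖ₑ ^ 2 else 0 := by
  unfold mk
  rw [psv_int (N * v1 ξ - o1) k.1, psv_int (N * v2 ξ - o2) k.2]
  by_cases h1 : ⌊N * v1 ξ - o1⌋ = k.1
  · by_cases h2 : ⌊N * v2 ξ - o2⌋ = k.2
    · rw [if_pos h1, if_pos h2, if_pos (by rw [h1, h2]), enorm_mul, enorm_mul]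
      have e1 : ‖Pp (N * v1 ξ - o1)‖ₑ ≤ 1 := by
        rw [← ofReal_norm, ← ENNReal.ofReal_one]; exact ENNReal.ofReal_le_ofReal (norm_Pp _)
      have e2 : ‖Pp (N * v2 ξ - o2)‖ₑ ≤ 1 := by
        rw [← ofReal_norm, ← ENNReal.ofReal_one]; exact ENNReal.ofReal_le_ofReal (norm_Pp _)
      have e3 : ‖mult φ χ R ξ‖ₑ * (‖Pp (N * v1 ξ - o1)‖ₑ * ‖Pp (N * v2 ξ - o2)‖ₑ) ≤ ‖mult φ χ R ξ‖ₑ * (1 * 1) := by gcongr
      rw [one_mul, mul_one] at e3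
      exact pow_le_pow_left' e3 2
    · rw [if_neg h2, mul_zero, mul_zero, enorm_zero]
      simp
  · rw [if_neg h1, zero_mul, mul_zero, enorm_zero]
    simp

/-- finite overlap -/
theorem mk_sum (D : Dat c1 φ χ o1 o2) : ∃ C : ℝ, 0 ≤ C ∧ ∀ (N : ℕ) (R : ℝ) (S : Finset (ℤ × ℤ)) (ξ : E3),
    ∑ k ∈ S, ‖mk φ χ N R o1 o2 k ξ‖ₑ ^ 2 ≤ ENNReal.ofReal C := by
  classical
  obtain ⟨C, hC, h⟩ := mult_bdd D
  refine ⟨C ^ 2, by positivity, fun N R S ξ => ?_⟩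
  calc ∑ k ∈ S, ‖mk φ χ N R o1 o2 k ξ‖ₑ ^ 2 ≤
      ∑ k ∈ S, (if k = (⌊N * v1 ξ - o1⌋, ⌊N * v2 ξ - o2⌋) then ‖mult φ χ R ξ‖ₑ ^ 2 else 0) :=
        Finset.sum_le_sum fun k _ => mk_le φ χ N R o1 o2 k ξ
    _ ≤ ‖mult φ χ R ξ‖ₑ ^ 2 := by
        rw [Finset.sum_ite_eq']
        split_ifs
        · exact le_rfl
        · exact zero_le
    _ ≤ ENNReal.ofReal (C ^ 2) := by
        rw [← ofReal_norm, ← ENNReal.ofReal_pow (norm_nonneg _)]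
        apply ENNReal.ofReal_le_ofReal
        exact pow_le_pow_left₀ (norm_nonneg _) (h R ξ) 2

theorem mop_cvl (D : Dat c1 φ χ o1 o2) {N : ℕ} (hN : 1 ≤ N) {R : ℝ} (hR : (N:ℝ) ^ 2 ≤ R) (k : ℤ × ℤ) {f : E3 → ℂ}
    (hf : Integrable f) : mop (mk φ χ N R o1 o2 k) f = KB.cvl (𝓕⁻ (mk φ χ N R o1 o2 k)) f := by
  have hM := sm_mk D hN hR k
  have e1 : cv ((𝓕⁻ (hM.supp.toSchwartzMap hM.smooth) : 𝓢(E3, ℂ)) : E3 → ℂ) f = mop (mk φ χ N R o1 o2 k) f :=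
    cv_schwartz_eq _ hf
  have hKe : ((𝓕⁻ (hM.supp.toSchwartzMap hM.smooth) : 𝓢(E3, ℂ)) : E3 → ℂ) = 𝓕⁻ (mk φ χ N R o1 o2 k) := by
    rw [SchwartzMap.fourierInv_coe]; rfl
  rw [← e1, hKe]
  rfl

theorem ker_cont (D : Dat c1 φ χ o1 o2) {N : ℕ} (hN : 1 ≤ N) {R : ℝ} (hR : (N:ℝ) ^ 2 ≤ R) (k : ℤ × ℤ) :
    Continuous (𝓕⁻ (mk φ χ N R o1 o2 k)) := by
  have hM := sm_mk D hN hR k
  have hKe : ((𝓕⁻ (hM.supp.toSchwartzMap hM.smooth) : 𝓢(E3, ℂ)) : E3 → ℂ) = 𝓕⁻ (mk φ χ N R o1 o2 k) := by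
    rw [SchwartzMap.fourierInv_coe]; rfl
  rw [← hKe]
  exact SchwartzMap.continuous _

/-- the kernels of the pieces satisfy the hypotheses of `KB.KTd_main` -/
theorem kker (D : Dat c1 φ χ o1 o2) (B : ℝ) (p : ℕ) : ∃ CK CP : ℝ, 0 ≤ CK ∧ 0 ≤ CP ∧
    ∀ (N : ℕ) (R : ℝ), 1 ≤ N → (N:ℝ) ^ 2 ≤ R → R ≤ B * (N:ℝ) ^ 2 →
      KB.KKer N p CK CP (fun k => 𝓕⁻ (mk φ χ N R o1 o2 k)) := by
  obtain ⟨CK, hCK, hk⟩ := ker_mk D B (p + 4)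
  obtain ⟨CP, hCP, hp⟩ := mk_sum D
  refine ⟨CK, CP, hCK, hCP, fun N R hN hR hR' => ⟨fun k => ker_cont D hN hR k, fun k _ x => hk N R k hN hR hR' x, ?_, ?_⟩⟩
  · intro k _ x hx
    by_contra hcon
    apply hx
    have hz : mk φ χ N R o1 o2 k = fun _ => 0 := by
      ext ξ
      by_contra hne
      obtain ⟨a, b⟩ := mk_zero D.cut D.hc0.le D.hc1 hN R D.ho1 D.ho1' D.ho2 D.ho2' hne
      apply hcon
      have hN0 : (0:ℝ) < N := by exact_mod_cast hN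
      have h1 : (3/2:ℝ) / N ≤ 2 / N := by gcongr; norm_num
      have hc := D.hc1
      exact ⟨by linarith, by linarith⟩
    show 𝓕⁻ (mk φ χ N R o1 o2 k) x = 0
    rw [hz, Real.fourierInv_eq']
    simp
  · intro u hu
    have ua := hu.adm
    have mF : Measurable (fun ξ => ‖𝓕 u ξ‖ₑ ^ 2) := (Vale.Agent.P117.continuous_fourier hu.int).measurable.enorm.pow_const 2
    calc ∑ k ∈ grd N, ∫⁻ x, ‖KB.cvl (𝓕⁻ (mk φ χ N R o1 o2 k)) u x‖ₑ ^ 2 ≤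
        ∑ k ∈ grd N, ∫⁻ ξ, ‖mk φ χ N R o1 o2 k ξ‖ₑ ^ 2 * ‖𝓕 u ξ‖ₑ ^ 2 := by
          refine Finset.sum_le_sum fun k _ => ?_
          rw [← mop_cvl D hN hR k hu.int]
          exact mop_L2 (sm_mk D hN hR k) ua
      _ = ∫⁻ ξ, (∑ k ∈ grd N, ‖mk φ χ N R o1 o2 k ξ‖ₑ ^ 2) * ‖𝓕 u ξ‖ₑ ^ 2 := by
          rw [← lintegral_finset_sum (f := fun k ξ => ‖mk φ χ N R o1 o2 k ξ‖ₑ ^ 2 * ‖𝓕 u ξ‖ₑ ^ 2) _
            (fun k _ => ((sm_mk D hN hR k).smooth.continuous.measurable.enorm.pow_const 2).mul mF)]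
          refine lintegral_congr fun ξ => ?_
          rw [Finset.sum_mul]
      _ ≤ ∫⁻ ξ, ENNReal.ofReal CP * ‖𝓕 u ξ‖ₑ ^ 2 := by
          refine lintegral_mono fun ξ => ?_
          gcongr
          exact hp N R (grd N) ξ
      _ = ENNReal.ofReal CP * ∫⁻ ξ, ‖𝓕 u ξ‖ₑ ^ 2 := lintegral_const_mul' _ _ ENNReal.ofReal_ne_top
      _ ≤ _ := mul_le_mul' le_rfl (lintegral_sq_fourier_le hu.int hu.meas)

/-- **Katz-Tao condition for the densities** -/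
theorem ktd {ε : ℝ} (hε : 0 < ε) {M : ℕ} (hM : 9 ≤ M) (D : Dat c1 φ χ o1 o2) (B : ℝ) : ∃ C : ℝ, 1 ≤ C ∧
    ∀ (N : ℕ) (R : ℝ) (h : E3 → ℂ), 1 ≤ N → (N:ℝ) ^ 2 ≤ R → R ≤ B * (N:ℝ) ^ 2 → Ad1 h →
      KTd N (C * (N:ℝ) ^ ε) (den M N o1 o2 (gO φ χ N R o1 o2 h)) := by
  obtain ⟨CK, CP, hCK, hCP, hK⟩ := kker D B ⌈3 / ε⌉₊
  obtain ⟨C, hC, hmain⟩ := KB.KTd_main hε (p := ⌈3 / ε⌉₊) (Nat.le_ceil _) hM hCK hCP
  refine ⟨C, hC, fun N R h hN hR hR' hh => ?_⟩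
  have := hmain N (fun k => 𝓕⁻ (mk φ χ N R o1 o2 k)) h hN (hK N R hN hR hR') hh
  have e : den M N o1 o2 (gO φ χ N R o1 o2 h) =
      fun k x => ∫⁻ y, ‖KB.cvl (𝓕⁻ (mk φ χ N R o1 o2 k)) h y‖ₑ ^ 2 * Phs M N k (x - y) := by
    ext k x
    unfold den
    rw [inv_pc_gO, mop_cvl D hN hR k hh.int]
  rw [e]
  exact this

end

end Vale.Agent.P117.K
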