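import Vale.Agent.P117.K.KinB3

/-! # KINB: mass of the tube weights (helper273) -/

open MeasureTheory Complex Set
open scoped ENNReal NNReal

set_option linter.all false

namespace Vale.Agent.P117.K.KW

/-- the mass of the tube weight is bounded by an absolute constant -/
theorem lint_Phs (M : ℕ) (hM : 5 ≤ M) : ∃ C : ℝ, 1 ≤ C ∧ ∀ (N : ℕ) (k : ℤ × ℤ), 1 ≤ N →
    ∫⁻ x, Phs M N k x ≤ ENNReal.ofReal C := by
  refine ⟨max 1 KB.i4.toReal, le_max_left _ _, fun N k hN => ?_⟩
  refine (KB.lint_Phs hN (by omega) k).trans ?_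
  calc KB.i4 = ENNReal.ofReal KB.i4.toReal := (ENNReal.ofReal_toReal KB.i4_lt.ne).symm
    _ ≤ _ := ENNReal.ofReal_le_ofReal (le_max_right _ _)

end Vale.Agent.P117.K.KW
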