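import Vale.Agent.P117.K.DefsM

/-! # P117 / K : assembly, part A : elementary facts -/

open MeasureTheory Complex Set
open scoped ENNReal NNReal ContDiff FourierTransform SchwartzMap

set_option linter.all false

namespace Vale.Agent.P117.K.Asm

theorem Ams_mono {c c' : ℝ} (h : c ≤ c') {N : ℕ} {o1 o2 : ℝ} {g : E3 → ℂ} (hg : Ams c N o1 o2 g) : Ams c' N o1 o2 g where
  meas := hg.meas
  int := hg.int
  sq := hg.sq
  sph := fun ξ hξ => (hg.sph ξ hξ).trans (by gcongr)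
  loc := fun ξ hξ => (hg.loc ξ hξ).trans h
  grid1 := hg.grid1
  grid2 := hg.grid2

theorem omv_norm (a b : ℝ) : ‖omv a b‖ = 1 := by
  have h : ‖omv a b‖ ^ 2 = 1 := by
    rw [EuclideanSpace.norm_sq_eq, Fin.sum_univ_three]
    simp only [omv, Real.norm_eq_abs, sq_abs]
    have h0 : (1 + a ^ 2 + b ^ 2) ≠ 0 := by positivity
    simp
    field_simp
    ring
  have h1 : 0 ≤ ‖omv a b‖ := norm_nonneg _
  nlinarith [sq_nonneg (‖omv a b‖ - 1)]

theorem om_norm (N : ℕ) (k : ℤ × ℤ) : ‖om N k‖ = 1 := omv_norm _ _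

theorem perp_le {w x : E3} (hw : ‖w‖ = 1) : ‖x - (inner ℝ w x : ℝ) • w‖ ≤ ‖x‖ := by
  have h : ‖x - (inner ℝ w x : ℝ) • w‖ ^ 2 ≤ ‖x‖ ^ 2 := by
    rw [@norm_sub_sq_real, inner_smul_right, norm_smul, hw, real_inner_comm]
    simp only [Real.norm_eq_abs, mul_one, sq_abs]
    nlinarith [sq_nonneg (inner ℝ w x : ℝ)]
  exact le_of_sq_le_sq h (norm_nonneg _)

theorem gam_nonneg (N : ℕ) (k : ℤ × ℤ) (x : E3) : 0 ≤ gam N k x := by unfold gam; positivity

theorem gam_le {N : ℕ} (hN : 1 ≤ N) (k : ℤ × ℤ) {x : E3} (hx : ‖x‖ ≤ N) : gam N k x ≤ 2 := by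
  have hN0 : (1:ℝ) ≤ N := by exact_mod_cast hN
  have h1 : ‖x - (inner ℝ (om N k) x : ℝ) • om N k‖ / N ≤ 1 := by
    rw [div_le_one (by linarith)]
    exact (perp_le (om_norm N k)).trans hx
  have h2 : |(inner ℝ (om N k) x : ℝ)| / (N:ℝ) ^ 2 ≤ 1 := by
    rw [div_le_one (by positivity)]
    have h3 : |(inner ℝ (om N k) x : ℝ)| ≤ ‖x‖ := by
      have := abs_real_inner_le_norm (om N k) x
      rwa [om_norm, one_mul] at this
    nlinarith
  unfold gam
  linarith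

end Vale.Agent.P117.K.Asm
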