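import Vale.Agent.P117.K.MainA

/-! # P117 / K : assembly, part B : the localised estimate for bounded functions -/

open MeasureTheory Complex Set
open scoped ENNReal NNReal ContDiff FourierTransform SchwartzMap

set_option linter.all false

namespace Vale.Agent.P117.K.Asm

theorem cont_finv {g : E3 → ℂ} (hg : Integrable g) : Continuous (𝓕⁻ g) := by
  have e : (𝓕⁻ g : E3 → ℂ) = fun w => ∫ v, Real.fourierChar (inner ℝ v w) • g v := by
    ext w
    exact Real.fourierInv_eq g w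
  rw [e]
  refine continuous_of_dominated (bound := fun v => ‖g v‖) (fun w => ?_) (fun w => ?_) hg.norm ?_
  · have : Continuous fun v : E3 => Real.fourierChar (inner ℝ v w) :=
      Real.continuous_fourierChar.comp (continuous_id.inner continuous_const)
    exact (this.aestronglyMeasurable (μ := volume)).smul hg.aestronglyMeasurable
  · refine Filter.Eventually.of_forall fun v => ?_
    rw [Circle.norm_smul]
  · refine Filter.Eventually.of_forall fun v => ?_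
    have : Continuous fun w : E3 => Real.fourierChar (inner ℝ v w) :=
      Real.continuous_fourierChar.comp (continuous_const.inner continuous_id)
    exact this.smul continuous_const

/-- `(∑ a_i)^p ≤ 4^p ∑ a_i^p` for four numbers -/
theorem sum4_pow {p : ℝ} (hp : 0 ≤ p) (a : Fin 2 × Fin 2 → ℝ≥0∞) : (∑ o, a o) ^ p ≤ 4 ^ p * ∑ o, a o ^ p := by
  obtain ⟨o, _, ho⟩ := Finset.exists_max_image (Finset.univ : Finset (Fin 2 × Fin 2)) a ⟨(0,0), Finset.mem_univ _⟩
  have h1 : ∑ o', a o' ≤ 4 * a o := by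
    calc ∑ o', a o' ≤ ∑ _o' : Fin 2 × Fin 2, a o := Finset.sum_le_sum fun i hi => ho i hi
      _ = 4 * a o := by simp
  calc (∑ o, a o) ^ p ≤ (4 * a o) ^ p := ENNReal.rpow_le_rpow h1 hp
    _ = 4 ^ p * a o ^ p := ENNReal.mul_rpow_of_nonneg _ _ hp
    _ ≤ _ := by
        gcongr
        exact Finset.single_le_sum (f := fun o => a o ^ p) (fun _ _ => zero_le) (Finset.mem_univ o)

theorem lint_sq_le {h : E3 → ℂ} (hh : Ad1 h) : ∫⁻ y, ‖h y‖ₑ ^ 2 < ⊤ := by
  have h1 : ∫⁻ y, ‖h y‖ₑ < ⊤ := hh.int.2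
  refine lt_of_le_of_lt (lintegral_mono fun y => ?_) h1
  have h2 : ‖h y‖ₑ ≤ 1 := by
    rw [← ofReal_norm_eq_enorm]
    exact ENNReal.ofReal_le_one.2 (hh.bdd y)
  calc ‖h y‖ₑ ^ 2 = ‖h y‖ₑ * ‖h y‖ₑ := sq _
    _ ≤ ‖h y‖ₑ * 1 := by gcongr
    _ = _ := mul_one _

theorem SR_zero_of {h : E3 → ℂ} (hh : Ad1 h) (h0 : ∫⁻ y, ‖h y‖ₑ ^ 2 = 0) (φ : ℝ → ℂ) (χ : E3 → ℂ) (R : ℝ) (x : E3) :
    SR φ χ R h x = 0 := by
  have h1 : (fun y => ‖h y‖ₑ ^ 2) =ᵐ[volume] 0 := (lintegral_eq_zero_iff (by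
    exact (hh.meas.enorm.pow_const 2))).1 h0
  have h2 : h =ᵐ[volume] 0 := by
    filter_upwards [h1] with y hy
    have : ‖h y‖ₑ ^ 2 = 0 := hy
    simpa using this
  have h3 : (𝓕 h : E3 → ℂ) = fun _ => 0 := by
    ext ξ
    rw [Real.fourier_eq]
    have : (fun v => Real.fourierChar (-(inner ℝ v ξ : ℝ)) • h v) =ᵐ[volume] 0 := by
      filter_upwards [h2] with y hy
      rw [hy]
      simp
    rw [integral_congr_ae this]
    simp
  unfold SR
  rw [h3]
  simp only [mul_zero]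
  rw [Real.fourierInv_eq]
  simp

theorem energy_pos {h : E3 → ℂ} (hh : Ad1 h) : ∫⁻ y, ‖h y‖ₑ ^ 2 = ENNReal.ofReal (∫⁻ y, ‖h y‖ₑ ^ 2).toReal :=
  (ENNReal.ofReal_toReal (lint_sq_le hh).ne).symm

end Vale.Agent.P117.K.Asm
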