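import Vale.Agent.P117.K.MainB

/-! # P117 / K : assembly, part C : the localised estimate for bounded functions -/

open MeasureTheory Complex Set
open scoped ENNReal NNReal ContDiff FourierTransform SchwartzMap

set_option linter.all false

namespace Vale.Agent.P117.K.Asm

/-- the estimate at the scales `R ∈ [N², B N²]`, `N = K0 ^ n` -/
theorem big_scales (hREF : StREF3) (hLOC : StLOC3) (hBER : StBER3) (hKIN : StKIN3) (hKINB : StKINB) (hCH : StCH3)
    {κ Np p : ℝ} (hκ : 0 ≤ κ) (hNp : 0 ≤ Np) (hGEO : StGEO3 κ Np) (h2 : 2 < p) (hp : p ≤ 2 + 2 / (Np + 2))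
    {ε : ℝ} (hε : 0 < ε) : ∃ (K0 : ℕ) (c1 : ℝ), 2 ≤ K0 ∧ 0 < c1 ∧ c1 ≤ 1 / 100 ∧ ∀ (B : ℝ) (φ : ℝ → ℂ) (χ : E3 → ℂ), 1 ≤ B →
      Prf c1 φ → Cut c1 χ → ∃ C : ℝ, 0 ≤ C ∧ ∀ (n : ℕ) (R : ℝ) (h : E3 → ℂ), 2 ≤ n → ((K0 ^ n : ℕ):ℝ) ^ 2 ≤ R →
      R ≤ B * ((K0 ^ n : ℕ):ℝ) ^ 2 → Ad1 h →
      ∫⁻ x, ‖SR φ χ R h x‖ₑ ^ p ≤ ENNReal.ofReal (C * ((K0 ^ n : ℕ):ℝ) ^ (κ * (p - 2) + ε)) * ∫⁻ y, ‖h y‖ₑ ^ 2 := by
  obtain ⟨εc, hεc, hCH'⟩ := hCH κ Np p ε hκ hNp h2 hp hε
  obtain ⟨ε1, hε1, hG'⟩ := hGEO εc hεc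
  obtain ⟨M0, hK'⟩ := hKIN ε1 hε1
  set M : ℕ := max M0 5 with hM
  obtain ⟨K0, ca, CR, hK0, hca, hCR, hR'⟩ := hREF εc M hεc
  obtain ⟨cb, CL, hcb, hCL, hL'⟩ := hLOC M
  obtain ⟨cc, CB, hcc, hCB, hB'⟩ := hBER M
  obtain ⟨CM, hCM, hM'⟩ := hKINB M (le_max_right _ _)
  set c1 : ℝ := min (min ca cb) (min cc (1/100)) with hc1
  have hc1p : 0 < c1 := lt_min (lt_min hca hcb) (lt_min hcc (by norm_num))
  have hc1a : c1 ≤ ca := (min_le_left _ _).trans (min_le_left _ _)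
  have hc1b : c1 ≤ cb := (min_le_left _ _).trans (min_le_right _ _)
  have hc1c : c1 ≤ cc := (min_le_right _ _).trans (min_le_left _ _)
  have hc1d : c1 ≤ 1 / 100 := (min_le_right _ _).trans (min_le_right _ _)
  refine ⟨K0, c1, hK0, hc1p, hc1d, ?_⟩
  intro B φ χ hB hφ hχ
  obtain ⟨CK, hCK, hK''⟩ := hK' M B c1 φ χ (le_max_left _ _) hB hc1p hc1d hφ hχ
  set C : ℝ := 2 + CR * CK + CL + CB + CK + CM * CK + (3:ℝ) ^ M with hC
  have hC2 : 2 ≤ C := by
    have : 0 ≤ CR * CK := by positivity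
    have : 0 ≤ CM * CK := by positivity
    have : (0:ℝ) ≤ 3 ^ M := by positivity
    linarith
  have l1 : CR * CK ≤ C := by
    have : 0 ≤ CM * CK := by positivity
    have : (0:ℝ) ≤ 3 ^ M := by positivity
    linarith
  have l2 : CL ≤ C := by
    have : 0 ≤ CR * CK := by positivity
    have : 0 ≤ CM * CK := by positivity
    have : (0:ℝ) ≤ 3 ^ M := by positivity
    linarith
  have l3 : CB ≤ C := by
    have : 0 ≤ CR * CK := by positivity
    have : 0 ≤ CM * CK := by positivity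
    have : (0:ℝ) ≤ 3 ^ M := by positivity
    linarith
  have l4 : CK ≤ C := by
    have : 0 ≤ CR * CK := by positivity
    have : 0 ≤ CM * CK := by positivity
    have : (0:ℝ) ≤ 3 ^ M := by positivity
    linarith
  have l5 : CM * CK ≤ C := by
    have : 0 ≤ CR * CK := by positivity
    have : (0:ℝ) ≤ 3 ^ M := by positivity
    linarith
  have l6 : (3:ℝ) ^ M ≤ C := by
    have : 0 ≤ CR * CK := by positivity
    have : 0 ≤ CM * CK := by positivity
    linarith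
  obtain ⟨KG, hKG, hG''⟩ := hG' M C (by linarith)
  obtain ⟨C', hC', hCH''⟩ := hCH' C KG hC2 hKG
  refine ⟨4 ^ p * (4 * C'), by positivity, ?_⟩
  intro n R h hn hNR hRN hh
  set N : ℕ := K0 ^ n with hNdef
  have hN4 : 4 ≤ N := by
    calc 4 = 2 ^ 2 := by norm_num
      _ ≤ 2 ^ n := Nat.pow_le_pow_right (by norm_num) hn
      _ ≤ K0 ^ n := Nat.pow_le_pow_left hK0 n
  have hNr : (4:ℝ) ≤ N := by exact_mod_cast hN4
  have hN1 : (1:ℝ) ≤ N := by linarith
  by_cases hE0 : ∫⁻ y, ‖h y‖ₑ ^ 2 = 0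
  · have : ∀ x, SR φ χ R h x = 0 := SR_zero_of hh hE0 φ χ R
    simp only [this]
    rw [hE0]
    simp
    linarith
  set E : ℝ := (∫⁻ y, ‖h y‖ₑ ^ 2).toReal with hE
  have hEe : ∫⁻ y, ‖h y‖ₑ ^ 2 = ENNReal.ofReal E := energy_pos hh
  have hEp : 0 < E := ENNReal.toReal_pos hE0 (lint_sq_le hh).ne
  obtain ⟨g, hg1, hg2, hg3, hg4, hg5⟩ := hK'' N R h hN4 hNR hRN hh
  -- one shift
  have key : ∀ o : Fin 2 × Fin 2, ∫⁻ x, ‖𝓕⁻ (g o) x‖ₑ ^ p ≤ ENNReal.ofReal (C' * (N:ℝ) ^ (κ * (p - 2) + ε) * E) := by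
    intro o
    have ho : ∀ j : Fin 2, ((j.val:ℝ) / 2) ∈ Icc (0:ℝ) (1/2) := by
      intro j
      fin_cases j <;> simp
    set o1 : ℝ := (o.1.val:ℝ) / 2 with ho1
    set o2 : ℝ := (o.2.val:ℝ) / 2 with ho2
    have ho1' : o1 ∈ Icc (0:ℝ) (1/2) := ho o.1
    have ho2' : o2 ∈ Icc (0:ℝ) (1/2) := ho o.2
    have hgA := hg1 o
    have hgE : ∫⁻ ξ, ‖g o ξ‖ₑ ^ 2 ≤ ENNReal.ofReal (CK * E) := by
      refine (hg3 o).trans ?_
      rw [hEe, ← ENNReal.ofReal_mul (by linarith)]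
    obtain ⟨b1, b2, b3, b4, b5⟩ := hM' N c1 o1 o2 (g o) hN4 hc1p hc1d ho1' ho2' hgA
    have hmS : Measurable (SqS M N o1 o2 (g o)) := by
      unfold SqS
      exact Finset.measurable_sum _ fun k _ => b1 k
    have hSle : ∀ z, SqS M N o1 o2 (g o) z ≤ ENNReal.ofReal (C * (N:ℝ) ^ 20) := by
      intro z
      unfold SqS
      calc ∑ k ∈ grd N, den M N o1 o2 (g o) k z ≤ ∑ k ∈ grd N, ENNReal.ofReal CK := Finset.sum_le_sum fun k _ => hg4 o k z
        _ = ENNReal.ofReal ((N:ℝ) ^ 2 * CK) := by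
            rw [Finset.sum_const, nsmul_eq_mul, ENNReal.ofReal_mul (by positivity)]
            congr 1
            unfold grd
            rw [Finset.card_product, Int.card_Ico]
            rw [ENNReal.ofReal_pow (by positivity), ENNReal.ofReal_natCast]
            simp
            ring
        _ ≤ _ := by
            apply ENNReal.ofReal_le_ofReal
            have : (N:ℝ) ^ 2 ≤ (N:ℝ) ^ 20 := pow_le_pow_right₀ hN1 (by norm_num)
            calc (N:ℝ) ^ 2 * CK ≤ (N:ℝ) ^ 20 * C := by gcongr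
              _ = _ := by ring
    refine hCH'' N (fun x => ‖𝓕⁻ (g o) x‖ₑ) (SqS M N o1 o2 (g o)) E (by omega) (cont_finv hgA.int).measurable.enorm hmS hEp
      ?_ ?_ ?_ hSle ?_ ?_ ?_ ?_
    · have := hR' n o1 o2 (g o) hn ho1' ho2' (Ams_mono hc1a hgA)
      refine this.trans ?_
      calc ENNReal.ofReal (CR * ((K0:ℝ) ^ n) ^ εc) * ∫⁻ ξ, ‖g o ξ‖ₑ ^ 2
          ≤ ENNReal.ofReal (CR * ((K0:ℝ) ^ n) ^ εc) * ENNReal.ofReal (CK * E) := by gcongr
        _ = ENNReal.ofReal (CR * CK * (N:ℝ) ^ εc * E) := by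
            rw [← ENNReal.ofReal_mul (by positivity), hNdef]
            congr 1
            push_cast
            ring
        _ ≤ _ := by
            apply ENNReal.ofReal_le_ofReal
            gcongr
    · intro z
      refine (hL' N o1 o2 (g o) hN4 ho1' ho2' (Ams_mono hc1b hgA) z).trans ?_
      gcongr
    · intro z
      refine (hB' N o1 o2 (g o) hN4 ho1' ho2' (Ams_mono hc1c hgA) z).trans ?_
      gcongr
    · intro z u hzu
      have h3 : ∀ k, den M N o1 o2 (g o) k z ≤ ENNReal.ofReal C * den M N o1 o2 (g o) k u := by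
        intro k
        refine (b2 k z u).trans ?_
        gcongr
        refine le_trans ?_ l6
        apply pow_le_pow_left₀ (by have := gam_nonneg N k (z - u); linarith)
        have := gam_le (N := N) (by omega) k (x := z - u) (by rwa [← dist_eq_norm])
        linarith
      unfold SqS
      rw [Finset.mul_sum]
      exact Finset.sum_le_sum fun k _ => h3 k
    · refine (b4.trans hgE).trans (ENNReal.ofReal_le_ofReal ?_)
      gcongr
    · refine b3.trans ?_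
      calc ENNReal.ofReal CM * ∫⁻ ξ, ‖g o ξ‖ₑ ^ 2 ≤ ENNReal.ofReal CM * ENNReal.ofReal (CK * E) := by gcongr
        _ = ENNReal.ofReal (CM * CK * E) := by
            rw [← ENNReal.ofReal_mul (by positivity)]
            congr 1; ring
        _ ≤ _ := by
            apply ENNReal.ofReal_le_ofReal
            gcongr
    · intro X σ e hX hσ he he1 hS hvol
      have hEint : ∫⁻ x, ∑ k ∈ grd N, den M N o1 o2 (g o) k x ≤ ENNReal.ofReal (C * E) := by
        have h7 := b3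
        unfold SqS at h7
        refine h7.trans ?_
        calc ENNReal.ofReal CM * ∫⁻ ξ, ‖g o ξ‖ₑ ^ 2 ≤ ENNReal.ofReal CM * ENNReal.ofReal (CK * E) := by gcongr
          _ = ENNReal.ofReal (CM * CK * E) := by
              rw [← ENNReal.ofReal_mul (by positivity)]
              congr 1; ring
          _ ≤ _ := by
              apply ENNReal.ofReal_le_ofReal
              gcongr
      refine hG'' N (den M N o1 o2 (g o)) hN4 b1 (fun k x => (hg4 o k x).trans (ENNReal.ofReal_le_ofReal l4)) b2 ?_ ?_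
        X σ e E hX hσ he he1 hEp hS hEint hvol
      · intro k x hx
        obtain ⟨_, q1, q2⟩ := b5 k x hx
        have : 3 * c1 ≤ 3 / 100 := by linarith
        exact ⟨by linarith, by linarith⟩
      · intro a b s1 s2 w1 w2 q hab hw1 hw2
        have h8 := hg5 o a b s1 s2 w1 w2 q hab hw1 hw2
        refine le_trans h8 (ENNReal.ofReal_le_ofReal ?_)
        have : 0 ≤ w1 := by linarith
        have : 0 ≤ w2 := by linarith
        gcongr
  -- sum over the shifts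
  calc ∫⁻ x, ‖SR φ χ R h x‖ₑ ^ p ≤ ∫⁻ x, 4 ^ p * ∑ o, ‖𝓕⁻ (g o) x‖ₑ ^ p := by
        refine lintegral_mono fun x => ?_
        refine le_trans (ENNReal.rpow_le_rpow ?_ (by linarith)) (sum4_pow (by linarith) _)
        have h9 := hg2 x
        calc ‖SR φ χ R h x‖ₑ = ENNReal.ofReal ‖SR φ χ R h x‖ := (ofReal_norm_eq_enorm _).symm
          _ ≤ ENNReal.ofReal (∑ o, ‖𝓕⁻ (g o) x‖) := ENNReal.ofReal_le_ofReal h9
          _ = ∑ o, ENNReal.ofReal ‖𝓕⁻ (g o) x‖ := ENNReal.ofReal_sum_of_nonneg fun _ _ => norm_nonneg _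
          _ = _ := Finset.sum_congr rfl fun o _ => ofReal_norm_eq_enorm _
    _ = 4 ^ p * ∑ o, ∫⁻ x, ‖𝓕⁻ (g o) x‖ₑ ^ p := by
        rw [lintegral_const_mul' _ _ (by simp), lintegral_finset_sum']
        intro o _
        exact ((cont_finv (hg1 o).int).measurable.enorm.pow_const _).aemeasurable
    _ ≤ 4 ^ p * ∑ o : Fin 2 × Fin 2, ENNReal.ofReal (C' * (N:ℝ) ^ (κ * (p - 2) + ε) * E) := by
        gcongr with o _
        exact key o
    _ = _ := by
        rw [hEe, Finset.sum_const, nsmul_eq_mul, ← ENNReal.ofReal_mul (by positivity)]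
        have e4 : (4:ℝ≥0∞) ^ p = ENNReal.ofReal (4 ^ p) := by
          rw [← ENNReal.ofReal_rpow_of_pos (by norm_num)]
          simp
        rw [e4]
        simp only [Finset.card_univ, Fintype.card_prod, Fintype.card_fin]
        rw [← ENNReal.ofReal_natCast, ← ENNReal.ofReal_mul (by positivity), ← ENNReal.ofReal_mul (by positivity)]
        congr 1
        push_cast
        ring

end Vale.Agent.P117.K.Asm
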