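import Vale.Agent.P117.K.Defs
import Vale.Agent.P106.G.Slice

/-! # P117 / K / REF3: lifting amplitudes near the sphere to amplitudes near the cone -/

open MeasureTheory Complex Set
open scoped ENNReal NNReal ContDiff FourierTransform

set_option linter.all false

namespace Vale.Agent.P117.K.R3

open Vale.Agent.P106.G Vale.Agent.P106.Tri

/-- the frequency map: `(ζ) ↦ (τ, ξ)` -/
noncomputable def Lm (lam b1 b2 : ℝ) : Matrix (Fin 4) (Fin 4) ℝ :=
  !![lam / 2 * (1 + b1 ^ 2 + b2 ^ 2), lam * b1, lam * b2, lam / 2;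
    lam * b1, lam, 0, 0;
    lam * b2, 0, lam, 0;
    lam / 2 * (1 - b1 ^ 2 - b2 ^ 2), -(lam * b1), -(lam * b2), -(lam / 2)]

theorem Lm_det (lam b1 b2 : ℝ) : (Lm lam b1 b2).det = -(lam ^ 4 / 2) := by
  unfold Lm
  rw [Matrix.det_succ_row_zero]
  simp [Fin.sum_univ_four, Matrix.det_fin_three, Fin.succAbove, Matrix.submatrix]
  ring

theorem Lm_ne {lam : ℝ} (hl : 0 < lam) (b1 b2 : ℝ) : (Lm lam b1 b2).det ≠ 0 := by
  rw [Lm_det]
  have : 0 < lam ^ 4 := by positivity
  intro h
  linarith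

theorem inner_mat4T (A : Matrix (Fin 4) (Fin 4) ℝ) (z ζ : E4) : inner ℝ ζ (mat4 A.transpose z) = inner ℝ (mat4 A ζ) z := by
  rw [inner4, inner4]
  simp only [mat4_apply, Matrix.transpose_apply]
  ring

/-- tensor product -/
noncomputable def tens (g : E3 → ℂ) (β : ℝ → ℂ) (u : E4) : ℂ := g (tl u) * β (u 0)

theorem measurable_tl : Measurable tl := by
  have : tl = fun u => (q4 u).2 := by
    ext1 u; rw [q4_apply]
  rw [this]
  exact measurable_snd.comp q4.measurable

theorem integrable_tens {g : E3 → ℂ} {β : ℝ → ℂ} (hg : Integrable g) (hβ : Integrable β) : Integrable (tens g β) := by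
  have h1 : Integrable (fun p : ℝ × E3 => β p.1 * g p.2) (volume.prod volume) := hβ.mul_prod hg
  have h := mp_q4.integrable_comp_emb q4.measurableEmbedding (g := fun p : ℝ × E3 => β p.1 * g p.2)
  have h2 := h.2 h1
  refine h2.congr ?_
  filter_upwards with u
  simp only [Function.comp, q4_apply, tens]
  ring

theorem lint_tens {f : E3 → ℝ≥0∞} {b : ℝ → ℝ≥0∞} (hf : Measurable f) (hb : Measurable b) :
    ∫⁻ u : E4, f (tl u) * b (u 0) = (∫⁻ x, f x) * ∫⁻ t, b t := by
  have m : Measurable fun u : E4 => f (tl u) * b (u 0) := (hf.comp measurable_tl).mul (hb.comp (by fun_prop))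
  rw [lint4' m]
  simp_rw [tl_cn, cn0]
  have e : ∀ x : E3, ∫⁻ t : ℝ, f x * b t = f x * ∫⁻ t, b t := fun x => lintegral_const_mul _ hb
  simp_rw [e]
  rw [lintegral_mul_const _ hf]

/-- the Fourier inverse of a tensor product composed with a linear map -/
theorem inv_tens {A : Matrix (Fin 4) (Fin 4) ℝ} (hA : A.det ≠ 0) {g : E3 → ℂ} {β : ℝ → ℂ} (hg : Integrable g) (hβ : Integrable β)
    (t : ℝ) (x : E3) : 𝓕⁻ (fun ζ => tens g β (mat4 A ζ)) (mat4 A.transpose (cn t x)) =
      (|A.det⁻¹| : ℝ) • ((∫ s, ec (s * t) * β s) * 𝓕⁻ g x) := by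
  rw [Vale.Agent.P106.G.inv_eq]
  have e : ∀ v : E4, ec (inner ℝ v (mat4 A.transpose (cn t x))) * tens g β (mat4 A v) =
      (fun u : E4 => ec (inner ℝ u (cn t x)) * tens g β u) (mat4 A v) := by
    intro v
    rw [inner_mat4T]
  simp_rw [e]
  rw [integral_mat4 hA (fun u : E4 => ec (inner ℝ u (cn t x)) * tens g β u)]
  congr 1
  have hi := integrable_tens hg hβ
  have hcont : Continuous (fun v : E4 => ec (inner ℝ v (cn t x))) := by
    have := continuous_ec
    fun_prop
  have hF : Integrable (fun v : E4 => ec (inner ℝ v (cn t x)) * tens g β v) := by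
    refine hi.mono (hcont.aestronglyMeasurable.mul hi.aestronglyMeasurable) ?_
    filter_upwards with v
    rw [norm_mul, norm_ec, one_mul]
  rw [int4 hF, Vale.Agent.P106.Tri.inv_eq, ← integral_const_mul]
  refine integral_congr_ae ?_
  filter_upwards with η
  rw [← integral_mul_const]
  refine integral_congr_ae ?_
  filter_upwards with s
  unfold tens
  rw [inner_cn, ec_add, tl_cn, cn0]
  ring

end Vale.Agent.P117.K.R3
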