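import Vale.Agent.P117.K.RefA

/-! # P117 / K / REF3: comparison of the plank weights -/

open MeasureTheory Complex Set
open scoped ENNReal NNReal ContDiff FourierTransform

set_option linter.all false

namespace Vale.Agent.P117.K.R3

open Vale.Agent.P106.G

theorem inner3 (x y : E3) : inner ℝ x y = x 0 * y 0 + x 1 * y 1 + x 2 * y 2 := by
  simp [PiLp.inner_apply, Fin.sum_univ_three]
  ring

theorem norm3_sq (x : E3) : ‖x‖ ^ 2 = x 0 ^ 2 + x 1 ^ 2 + x 2 ^ 2 := by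
  rw [← real_inner_self_eq_norm_sq, inner3]; ring

theorem norm3_le (x : E3) : ‖x‖ ≤ |x 0| + |x 1| + |x 2| := by
  have h : ‖x‖ ^ 2 ≤ (|x 0| + |x 1| + |x 2|) ^ 2 := by
    rw [norm3_sq, ← sq_abs (x 0), ← sq_abs (x 1), ← sq_abs (x 2)]
    nlinarith [abs_nonneg (x 0), abs_nonneg (x 1), abs_nonneg (x 2), mul_nonneg (abs_nonneg (x 0)) (abs_nonneg (x 1)),
      mul_nonneg (abs_nonneg (x 0)) (abs_nonneg (x 2)), mul_nonneg (abs_nonneg (x 1)) (abs_nonneg (x 2))]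
  exact abs_le_of_sq_le_sq' h (by positivity) |>.2

theorem omv0 (a b : ℝ) : omv a b 0 = 2 * a / (1 + a ^ 2 + b ^ 2) := rfl
theorem omv1 (a b : ℝ) : omv a b 1 = 2 * b / (1 + a ^ 2 + b ^ 2) := rfl
theorem omv2 (a b : ℝ) : omv a b 2 = (1 - a ^ 2 - b ^ 2) / (1 + a ^ 2 + b ^ 2) := rfl

theorem norm_omv (a b : ℝ) : ‖omv a b‖ = 1 := by
  have h : ‖omv a b‖ ^ 2 = 1 ^ 2 := by
    have h0 : 0 < 1 + a ^ 2 + b ^ 2 := by positivity
    rw [norm3_sq, omv0, omv1, omv2]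
    field_simp
    ring
  exact (pow_left_inj₀ (norm_nonneg _) (by norm_num) (by norm_num)).1 h

/-- coordinates of the plank gauge -/
theorem LT_coord (N : ℕ) (k : ℤ × ℤ) (lam b1 b2 t : ℝ) (x : E3) :
    LT N k (mat4 (Lm lam b1 b2).transpose (cn t x)) 0 =
      lam * ((1 + (k.1 / N + b1) ^ 2 + (k.2 / N + b2) ^ 2) / 2 * t + (k.1 / N + b1) * x 0 + (k.2 / N + b2) * x 1 +
        (1 - (k.1 / N + b1) ^ 2 - (k.2 / N + b2) ^ 2) / 2 * x 2) ∧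
    LT N k (mat4 (Lm lam b1 b2).transpose (cn t x)) 1 = lam * (x 0 + (k.1 / N + b1) * (t - x 2)) / N ∧
    LT N k (mat4 (Lm lam b1 b2).transpose (cn t x)) 2 = lam * (x 1 + (k.2 / N + b2) * (t - x 2)) / N ∧
    LT N k (mat4 (Lm lam b1 b2).transpose (cn t x)) 3 = lam * (t - x 2) / 2 / N ^ 2 := by
  have z0 : mat4 (Lm lam b1 b2).transpose (cn t x) 0 = lam / 2 * (1 + b1 ^ 2 + b2 ^ 2) * t + lam * b1 * x 0 + lam * b2 * x 1 +
      lam / 2 * (1 - b1 ^ 2 - b2 ^ 2) * x 2 := by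
    rw [mat4_apply]; simp [Lm, cn0, cn1, cn2, cn3]
  have z1 : mat4 (Lm lam b1 b2).transpose (cn t x) 1 = lam * b1 * t + lam * x 0 - lam * b1 * x 2 := by
    rw [mat4_apply]; simp [Lm, cn0, cn1, cn2, cn3]; ring
  have z2 : mat4 (Lm lam b1 b2).transpose (cn t x) 2 = lam * b2 * t + lam * x 1 - lam * b2 * x 2 := by
    rw [mat4_apply]; simp [Lm, cn0, cn1, cn2, cn3]; ring
  have z3 : mat4 (Lm lam b1 b2).transpose (cn t x) 3 = lam / 2 * t - lam / 2 * x 2 := by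
    rw [mat4_apply]; simp [Lm, cn0, cn1, cn2, cn3]; ring
  refine ⟨?_, ?_, ?_, ?_⟩
  · rw [LT0, z0, z1, z2, z3]; ring
  · rw [LT1, z1, z3]; ring
  · rw [LT2, z2, z3]; ring
  · rw [LT3, z3]; ring

/-- the algebra of the comparison, last coordinate -/
theorem alg_z {v1 v2 b1 b2 A0 A1 A3 S B : ℝ} (hv1 : 0 ≤ v1) (hv1' : v1 ≤ 1) (hv2 : 0 ≤ v2) (hv2' : v2 ≤ 1)
    (hb1 : 0 ≤ b1) (hb1h : b1 ≤ 1 / 2) (hb2 : 0 ≤ b2) (hb2h : b2 ≤ 1 / 2) (hB : 0 ≤ B)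
    (hA0 : |A0| ≤ B) (hA1 : |A1| ≤ B) (hB1 : |b1 * A3| ≤ B) (hB2 : |b2 * A3| ≤ B) (hS : |S| ≤ B) :
    |S - (v1 + b1) * A0 - (v2 + b2) * A1 + (v1 + b1 / 2) * (b1 * A3) + (v2 + b2 / 2) * (b2 * A3)| ≤ 7 * B := by
  have t1 : |(v1 + b1) * A0| ≤ (3/2) * B := by
    rw [abs_mul, abs_of_nonneg (by linarith)]
    exact mul_le_mul (by linarith) hA0 (abs_nonneg _) (by norm_num)
  have t2 : |(v2 + b2) * A1| ≤ (3/2) * B := by
    rw [abs_mul, abs_of_nonneg (by linarith)]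
    exact mul_le_mul (by linarith) hA1 (abs_nonneg _) (by norm_num)
  have t3 : |(v1 + b1 / 2) * (b1 * A3)| ≤ (5/4) * B := by
    rw [abs_mul, abs_of_nonneg (by linarith)]
    exact mul_le_mul (by linarith) hB1 (abs_nonneg _) (by norm_num)
  have t4 : |(v2 + b2 / 2) * (b2 * A3)| ≤ (5/4) * B := by
    rw [abs_mul, abs_of_nonneg (by linarith)]
    exact mul_le_mul (by linarith) hB2 (abs_nonneg _) (by norm_num)
  calc _ ≤ |S - (v1 + b1) * A0 - (v2 + b2) * A1 + (v1 + b1 / 2) * (b1 * A3)| + |(v2 + b2 / 2) * (b2 * A3)| := abs_add_le _ _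
    _ ≤ |S - (v1 + b1) * A0 - (v2 + b2) * A1| + |(v1 + b1 / 2) * (b1 * A3)| + |(v2 + b2 / 2) * (b2 * A3)| := by
        gcongr; exact abs_add_le _ _
    _ ≤ |S - (v1 + b1) * A0| + |(v2 + b2) * A1| + |(v1 + b1 / 2) * (b1 * A3)| + |(v2 + b2 / 2) * (b2 * A3)| := by
        gcongr; exact abs_sub _ _
    _ ≤ |S| + |(v1 + b1) * A0| + |(v2 + b2) * A1| + |(v1 + b1 / 2) * (b1 * A3)| + |(v2 + b2 / 2) * (b2 * A3)| := by
        gcongr; exact abs_sub _ _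
    _ ≤ _ := by linarith

/-- the algebra of the comparison -/
theorem alg_bd {N v1 v2 b1 b2 lam t x0 x1 x2 Q : ℝ} (hN : 1 ≤ N) (hl : 1 ≤ lam) (hv1 : 0 ≤ v1) (hv1' : v1 ≤ 1) (hv2 : 0 ≤ v2) (hv2' : v2 ≤ 1)
    (hb1 : 0 ≤ b1) (hb1' : b1 ≤ 1 / (2 * N)) (hb2 : 0 ≤ b2) (hb2' : b2 ≤ 1 / (2 * N))
    (h0 : |lam * ((1 + (v1 + b1) ^ 2 + (v2 + b2) ^ 2) / 2 * t + (v1 + b1) * x0 + (v2 + b2) * x1 +
        (1 - (v1 + b1) ^ 2 - (v2 + b2) ^ 2) / 2 * x2)| ≤ Q)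
    (h1 : |lam * (x0 + (v1 + b1) * (t - x2)) / N| ≤ Q) (h2 : |lam * (x1 + (v2 + b2) * (t - x2)) / N| ≤ Q)
    (h3 : |lam * (t - x2) / 2 / N ^ 2| ≤ Q) :
    |x0 + (t - x2) * v1| ≤ 2 * (N * Q) ∧ |x1 + (t - x2) * v2| ≤ 2 * (N * Q) ∧ |x2 + (t - x2) * ((1 - v1 ^ 2 - v2 ^ 2) / 2)| ≤ 7 * (N * Q) ∧
    |t - x2| ≤ 2 * N ^ 2 * Q ∧ |(1 + (v1 + b1) ^ 2 + (v2 + b2) ^ 2) / 2 * t + (v1 + b1) * x0 + (v2 + b2) * x1 +
        (1 - (v1 + b1) ^ 2 - (v2 + b2) ^ 2) / 2 * x2| ≤ Q := by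
  have hN0 : 0 < N := by linarith
  have hQ : 0 ≤ Q := (abs_nonneg _).trans h0
  have lamb : ∀ {y z : ℝ}, |lam * y| ≤ z → |y| ≤ z := by
    intro y z h
    rw [abs_mul, abs_of_pos (by linarith : (0:ℝ) < lam)] at h
    have : 1 * |y| ≤ lam * |y| := mul_le_mul_of_nonneg_right hl (abs_nonneg _)
    linarith
  have hS := lamb h0
  have hA0 : |x0 + (v1 + b1) * (t - x2)| ≤ N * Q := by
    apply lamb
    rw [abs_div, abs_of_pos hN0, div_le_iff₀ hN0] at h1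
    linarith
  have hA1 : |x1 + (v2 + b2) * (t - x2)| ≤ N * Q := by
    apply lamb
    rw [abs_div, abs_of_pos hN0, div_le_iff₀ hN0] at h2
    linarith
  have hA3 : |t - x2| ≤ 2 * N ^ 2 * Q := by
    apply lamb
    rw [abs_div, abs_div, abs_of_pos (by positivity : (0:ℝ) < N ^ 2), abs_of_pos (by norm_num : (0:ℝ) < 2), div_le_iff₀ (by positivity),
      div_le_iff₀ (by norm_num)] at h3
    linarith
  have hbN : ∀ {b : ℝ}, b ≤ 1 / (2 * N) → b * N ≤ 1 / 2 := by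
    intro b hb
    calc b * N ≤ 1 / (2 * N) * N := by gcongr
      _ = 1 / 2 := by field_simp
  have hbh : ∀ {b : ℝ}, 0 ≤ b → b ≤ 1 / (2 * N) → b ≤ 1 / 2 := by
    intro b hb0 hb
    have := hbN hb
    calc b = b * 1 := (mul_one b).symm
      _ ≤ b * N := by gcongr
      _ ≤ _ := this
  have bA : ∀ {b : ℝ}, 0 ≤ b → b ≤ 1 / (2 * N) → |b * (t - x2)| ≤ N * Q := by
    intro b hb hb'
    have hbN' := hbN hb'
    rw [abs_mul, abs_of_nonneg hb]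
    calc b * |t - x2| ≤ b * (2 * N ^ 2 * Q) := by gcongr
      _ = (b * N) * (2 * N * Q) := by ring
      _ ≤ (1 / 2) * (2 * N * Q) := by gcongr
      _ = N * Q := by ring
  have hB1 := bA hb1 hb1'
  have hB2 := bA hb2 hb2'
  have hQN : Q ≤ N * Q := by
    calc Q = 1 * Q := (one_mul Q).symm
      _ ≤ N * Q := by gcongr
  refine ⟨?_, ?_, ?_, hA3, hS⟩
  · have e : x0 + (t - x2) * v1 = (x0 + (v1 + b1) * (t - x2)) - b1 * (t - x2) := by ring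
    rw [e]
    exact (abs_sub _ _).trans (by linarith)
  · have e : x1 + (t - x2) * v2 = (x1 + (v2 + b2) * (t - x2)) - b2 * (t - x2) := by ring
    rw [e]
    exact (abs_sub _ _).trans (by linarith)
  · have e : x2 + (t - x2) * ((1 - v1 ^ 2 - v2 ^ 2) / 2) = ((1 + (v1 + b1) ^ 2 + (v2 + b2) ^ 2) / 2 * t + (v1 + b1) * x0 + (v2 + b2) * x1 +
        (1 - (v1 + b1) ^ 2 - (v2 + b2) ^ 2) / 2 * x2) - (v1 + b1) * (x0 + (v1 + b1) * (t - x2)) - (v2 + b2) * (x1 + (v2 + b2) * (t - x2)) +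
        (v1 + b1 / 2) * (b1 * (t - x2)) + (v2 + b2 / 2) * (b2 * (t - x2)) := by ring
    rw [e]
    exact alg_z hv1 hv1' hv2 hv2' hb1 (hbh hb1 hb1') hb2 (hbh hb2 hb2') (by positivity) hA0 hA1 hB1 hB2 (hS.trans hQN)

theorem proj_norm {u x : E3} (hu : ‖u‖ = 1) (c : ℝ) :
    ‖x - (inner ℝ u x : ℝ) • u‖ ≤ 2 * ‖x - c • u‖ ∧ |(inner ℝ u x : ℝ)| ≤ |c| + ‖x - c • u‖ := by
  set y := x - c • u with hy
  have hx : x = y + c • u := by rw [hy]; abel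
  have hoo : inner ℝ u u = (1:ℝ) := by rw [real_inner_self_eq_norm_sq, hu]; norm_num
  have h1 : (inner ℝ u x : ℝ) = inner ℝ u y + c := by
    rw [hx, inner_add_right, inner_smul_right, hoo, mul_one]
  have h2 : |(inner ℝ u y : ℝ)| ≤ ‖y‖ := by
    have := abs_real_inner_le_norm u y
    rwa [hu, one_mul] at this
  constructor
  · have e : x - (inner ℝ u x : ℝ) • u = y - (inner ℝ u y : ℝ) • u := by
      rw [h1, add_smul]
      rw [hx]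
      abel
    rw [e]
    calc ‖y - (inner ℝ u y : ℝ) • u‖ ≤ ‖y‖ + ‖(inner ℝ u y : ℝ) • u‖ := norm_sub_le _ _
      _ ≤ ‖y‖ + ‖y‖ := by
          rw [norm_smul, hu, mul_one, Real.norm_eq_abs]
          gcongr
      _ = _ := by ring
  · rw [h1]
    calc |inner ℝ u y + c| ≤ |(inner ℝ u y : ℝ)| + |c| := abs_add_le _ _
      _ ≤ _ := by linarith

end Vale.Agent.P117.K.R3
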