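import Vale.Agent.P117.K.RefB

/-! # P117 / K / REF3: comparison of the plank weights, conclusion -/

open MeasureTheory Complex Set
open scoped ENNReal NNReal ContDiff FourierTransform

set_option linter.all false

namespace Vale.Agent.P117.K.R3

open Vale.Agent.P106.G

theorem mem_grdK {N : ℕ} {k : ℤ × ℤ} (hN : 1 ≤ N) (hk : k ∈ Vale.Agent.P117.K.grd N) :
    (0 ≤ (k.1:ℝ) / N ∧ (k.1:ℝ) / N ≤ 1) ∧ (0 ≤ (k.2:ℝ) / N ∧ (k.2:ℝ) / N ≤ 1) := by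
  unfold Vale.Agent.P117.K.grd at hk
  rw [Finset.mem_product, Finset.mem_Ico, Finset.mem_Ico] at hk
  obtain ⟨⟨a1, a2⟩, a3, a4⟩ := hk
  have hN0 : (0:ℝ) < N := by exact_mod_cast hN
  have a1' : (0:ℝ) ≤ k.1 := by exact_mod_cast a1
  have a2' : (k.1:ℝ) ≤ N := by exact_mod_cast a2.le
  have a3' : (0:ℝ) ≤ k.2 := by exact_mod_cast a3
  have a4' : (k.2:ℝ) ≤ N := by exact_mod_cast a4.le
  exact ⟨⟨by positivity, by rw [div_le_one hN0]; exact a2'⟩, ⟨by positivity, by rw [div_le_one hN0]; exact a4'⟩⟩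

theorem gam_real {N Q Y c a b : ℝ} (hN : 1 ≤ N) (hQ : 0 ≤ Q) (hY : Y ≤ 11 * (N * Q)) (hc : |c| ≤ 3 * N ^ 2 * Q) (ha : a ≤ 2 * Y)
    (hb : b ≤ |c| + Y) : a / N + b / N ^ 2 ≤ 39 * Q := by
  have hN0 : 0 < N := by linarith
  have e1 : a / N ≤ 22 * Q := by
    rw [div_le_iff₀ hN0]
    linarith
  have e3 : N * Q ≤ N ^ 2 * Q := by
    have : N ≤ N ^ 2 := by nlinarith
    gcongr
  have e2 : b / N ^ 2 ≤ 14 * Q := by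
    rw [div_le_iff₀ (by positivity)]
    linarith
  linarith

theorem gam_one {N : ℕ} (hN : 1 ≤ N) {k : ℤ × ℤ} {t Q : ℝ} {x : E3} (hQ0 : 0 ≤ Q) (p1 : 0 ≤ (k.1:ℝ) / N) (p2 : (k.1:ℝ) / N ≤ 1)
    (p3 : 0 ≤ (k.2:ℝ) / N) (p4 : (k.2:ℝ) / N ≤ 1)
    (q0 : |x 0 + (t - x 2) * (k.1 / N)| ≤ 2 * (N * Q)) (q1 : |x 1 + (t - x 2) * (k.2 / N)| ≤ 2 * (N * Q))
    (q2 : |x 2 + (t - x 2) * ((1 - (k.1 / N : ℝ) ^ 2 - (k.2 / N : ℝ) ^ 2) / 2)| ≤ 7 * (N * Q)) (q3 : |t - x 2| ≤ 2 * (N:ℝ) ^ 2 * Q) :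
    gam N k x ≤ 39 * Q := by
  have hN' : (1:ℝ) ≤ N := by exact_mod_cast hN
  have hgam : gam N k x = ‖x - (inner ℝ (omv (k.1 / N) (k.2 / N)) x : ℝ) • omv (k.1 / N) (k.2 / N)‖ / N +
    |(inner ℝ (omv (k.1 / N) (k.2 / N)) x : ℝ)| / (N:ℝ) ^ 2 := rfl
  generalize (k.1:ℝ) / N = v1 at *
  generalize (k.2:ℝ) / N = v2 at *
  set c := -((t - x 2) * ((1 + v1 ^ 2 + v2 ^ 2) / 2)) with hc
  have hD : 0 < 1 + v1 ^ 2 + v2 ^ 2 := by positivity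
  have y0 : (x - c • omv v1 v2) 0 = x 0 + (t - x 2) * v1 := by
    show x 0 - c * omv v1 v2 0 = _
    rw [omv0, hc]; field_simp; ring
  have y1 : (x - c • omv v1 v2) 1 = x 1 + (t - x 2) * v2 := by
    show x 1 - c * omv v1 v2 1 = _
    rw [omv1, hc]; field_simp; ring
  have y2 : (x - c • omv v1 v2) 2 = x 2 + (t - x 2) * ((1 - v1 ^ 2 - v2 ^ 2) / 2) := by
    show x 2 - c * omv v1 v2 2 = _
    rw [omv2, hc]; field_simp; ring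
  have hy : ‖x - c • omv v1 v2‖ ≤ 11 * (N * Q) := by
    have h := norm3_le (x - c • omv v1 v2)
    rw [y0, y1, y2] at h
    linarith
  have hcb : |c| ≤ 3 * (N:ℝ) ^ 2 * Q := by
    rw [hc, abs_neg, abs_mul, abs_of_nonneg (by positivity : (0:ℝ) ≤ (1 + v1 ^ 2 + v2 ^ 2) / 2)]
    have h1 : v1 ^ 2 ≤ 1 := pow_le_one₀ p1 p2
    have h2 : v2 ^ 2 ≤ 1 := pow_le_one₀ p3 p4
    have : (1 + v1 ^ 2 + v2 ^ 2) / 2 ≤ 3 / 2 := by linarith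
    calc |t - x 2| * ((1 + v1 ^ 2 + v2 ^ 2) / 2) ≤ (2 * (N:ℝ) ^ 2 * Q) * (3 / 2) := by gcongr
      _ = _ := by ring
  obtain ⟨g1, g2⟩ := proj_norm (x := x) (norm_omv v1 v2) c
  rw [hgam]
  exact gam_real hN' hQ0 hy hcb g1 g2

theorem time_one {w1 w2 t Q : ℝ} {x : E3} (hQ0 : 0 ≤ Q) (h : |(1 + w1 ^ 2 + w2 ^ 2) / 2 * t + w1 * x 0 + w2 * x 1 +
        (1 - w1 ^ 2 - w2 ^ 2) / 2 * x 2| ≤ Q) : |t + inner ℝ (omv w1 w2) x| ≤ 2 * Q := by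
  have hD : 0 < 1 + w1 ^ 2 + w2 ^ 2 := by positivity
  have e : t + inner ℝ (omv w1 w2) x = 2 / (1 + w1 ^ 2 + w2 ^ 2) * ((1 + w1 ^ 2 + w2 ^ 2) / 2 * t + w1 * x 0 + w2 * x 1 +
      (1 - w1 ^ 2 - w2 ^ 2) / 2 * x 2) := by
    rw [inner3, omv0, omv1, omv2]; field_simp; ring
  rw [e, abs_mul, abs_of_pos (by positivity : (0:ℝ) < 2 / (1 + w1 ^ 2 + w2 ^ 2))]
  have : 2 / (1 + w1 ^ 2 + w2 ^ 2) ≤ 2 := by
    rw [div_le_iff₀ hD]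
    nlinarith [sq_nonneg w1, sq_nonneg w2]
  gcongr

/-- the tube gauge and the time gauge are bounded by the plank gauge -/
theorem gam_le {N : ℕ} (hN : 1 ≤ N) {k : ℤ × ℤ} (hk : k ∈ Vale.Agent.P117.K.grd N) {lam b1 b2 : ℝ} (hl : 1 ≤ lam)
    (hb1 : 0 ≤ b1) (hb1' : b1 ≤ 1 / (2 * N)) (hb2 : 0 ≤ b2) (hb2' : b2 ≤ 1 / (2 * N)) (t : ℝ) (x : E3) :
    gam N k x ≤ 39 * ‖LT N k (mat4 (Lm lam b1 b2).transpose (cn t x))‖ ∧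
    |t + inner ℝ (omv (k.1 / N + b1) (k.2 / N + b2)) x| ≤ 2 * ‖LT N k (mat4 (Lm lam b1 b2).transpose (cn t x))‖ := by
  have hN' : (1:ℝ) ≤ N := by exact_mod_cast hN
  obtain ⟨⟨p1, p2⟩, p3, p4⟩ := mem_grdK hN hk
  obtain ⟨c0, c1, c2, c3⟩ := LT_coord N k lam b1 b2 t x
  have h0 := abs_coord_le (LT N k (mat4 (Lm lam b1 b2).transpose (cn t x))) 0
  have h1 := abs_coord_le (LT N k (mat4 (Lm lam b1 b2).transpose (cn t x))) 1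
  have h2 := abs_coord_le (LT N k (mat4 (Lm lam b1 b2).transpose (cn t x))) 2
  have h3 := abs_coord_le (LT N k (mat4 (Lm lam b1 b2).transpose (cn t x))) 3
  rw [c0] at h0
  rw [c1] at h1
  rw [c2] at h2
  rw [c3] at h3
  generalize ‖LT N k (mat4 (Lm lam b1 b2).transpose (cn t x))‖ = Q at *
  have hQ0 : 0 ≤ Q := (abs_nonneg _).trans h0
  obtain ⟨q0, q1, q2, q3, q4⟩ := alg_bd hN' hl p1 p2 p3 p4 hb1 hb1' hb2 hb2' h0 h1 h2 h3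
  exact ⟨gam_one hN hQ0 p1 p2 p3 p4 q0 q1 q2 q3, time_one hQ0 q4⟩

/-- integral in time of the plank weight -/
theorem int_phk (Λ : ℝ) (M : ℕ) (hΛ : 1 ≤ Λ) : ∃ C : ℝ, 0 ≤ C ∧ ∀ (N : ℕ) (k : ℤ × ℤ) (lam b1 b2 : ℝ) (x : E3), 1 ≤ N →
    k ∈ Vale.Agent.P117.K.grd N → 1 ≤ lam → 0 ≤ b1 → b1 ≤ 1 / (2 * N) → 0 ≤ b2 → b2 ≤ 1 / (2 * N) →
    ∫⁻ t : ℝ, phk Λ (M + 2) N k (mat4 (Lm lam b1 b2).transpose (cn t x)) ≤ ENNReal.ofReal C * Phs M N k x := by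
  have hfin : ∫⁻ t : ℝ, ENNReal.ofReal ((1 + ‖t‖) ^ (-(2:ℝ))) < ⊤ := finite_integral_one_add_norm (by simp)
  set I := ∫⁻ t : ℝ, ENNReal.ofReal ((1 + ‖t‖) ^ (-(2:ℝ))) with hI
  refine ⟨(39 * Λ) ^ M * (2 * Λ) ^ 2 * I.toReal, by positivity, ?_⟩
  intro N k lam b1 b2 x hN hk hl hb1 hb1' hb2 hb2'
  set w := inner ℝ (omv (k.1 / N + b1) (k.2 / N + b2)) x with hw
  have hg0 : 0 ≤ gam N k x := by unfold gam; positivity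
  have hpt : ∀ t : ℝ, phk Λ (M + 2) N k (mat4 (Lm lam b1 b2).transpose (cn t x)) ≤
      ENNReal.ofReal ((39 * Λ) ^ M * (2 * Λ) ^ 2 * (((N:ℝ) ^ 4)⁻¹ * ((1 + gam N k x) ^ M)⁻¹)) * ENNReal.ofReal ((1 + ‖t + w‖) ^ (-(2:ℝ))) := by
    intro t
    obtain ⟨h1, h2⟩ := gam_le hN hk hl hb1 hb1' hb2 hb2' t x
    rw [← hw] at h2
    set Q := ‖LT N k (mat4 (Lm lam b1 b2).transpose (cn t x))‖ with hQ
    have hQ0 : 0 ≤ Q := norm_nonneg _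
    unfold phk
    rw [← hQ, ← ENNReal.ofReal_mul (by positivity)]
    apply ENNReal.ofReal_le_ofReal
    have hb : 0 < 1 + Q / Λ := by positivity
    have e1 : 1 + gam N k x ≤ (39 * Λ) * (1 + Q / Λ) := by
      have : (39 * Λ) * (1 + Q / Λ) = 39 * Λ + 39 * Q := by field_simp
      rw [this]; linarith
    have e2 : 1 + ‖t + w‖ ≤ (2 * Λ) * (1 + Q / Λ) := by
      have : (2 * Λ) * (1 + Q / Λ) = 2 * Λ + 2 * Q := by field_simp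
      rw [this, Real.norm_eq_abs]; linarith
    have e3 : (1 + ‖t + w‖) ^ (-(2:ℝ)) = ((1 + ‖t + w‖) ^ 2)⁻¹ := by
      rw [Real.rpow_neg (by positivity)]
      congr 1
      exact_mod_cast Real.rpow_natCast (1 + ‖t + w‖) 2
    rw [e3]
    have hp1 : 0 < (1 + gam N k x) ^ M := by positivity
    have hp2 : 0 < (1 + ‖t + w‖) ^ 2 := by positivity
    have e4 : (1 + gam N k x) ^ M * (1 + ‖t + w‖) ^ 2 ≤ ((39 * Λ) ^ M * (2 * Λ) ^ 2) * (1 + Q / Λ) ^ (M + 2) := by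
      calc (1 + gam N k x) ^ M * (1 + ‖t + w‖) ^ 2 ≤ ((39 * Λ) * (1 + Q / Λ)) ^ M * ((2 * Λ) * (1 + Q / Λ)) ^ 2 := by gcongr
        _ = _ := by rw [mul_pow, mul_pow, pow_add]; ring
    have e5 : ((1 + Q / Λ) ^ (M + 2))⁻¹ ≤ ((39 * Λ) ^ M * (2 * Λ) ^ 2) * (((1 + gam N k x) ^ M)⁻¹ * ((1 + ‖t + w‖) ^ 2)⁻¹) := by
      rw [← mul_inv, inv_eq_one_div, ← div_eq_mul_inv, div_le_div_iff₀ (by positivity) (by positivity), one_mul]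
      exact e4
    calc ((N:ℝ) ^ 4)⁻¹ * ((1 + Q / Λ) ^ (M + 2))⁻¹ ≤ ((N:ℝ) ^ 4)⁻¹ * (((39 * Λ) ^ M * (2 * Λ) ^ 2) * (((1 + gam N k x) ^ M)⁻¹ * ((1 + ‖t + w‖) ^ 2)⁻¹)) := by
          gcongr
      _ = _ := by ring
  calc ∫⁻ t : ℝ, phk Λ (M + 2) N k (mat4 (Lm lam b1 b2).transpose (cn t x)) ≤
      ∫⁻ t : ℝ, ENNReal.ofReal ((39 * Λ) ^ M * (2 * Λ) ^ 2 * (((N:ℝ) ^ 4)⁻¹ * ((1 + gam N k x) ^ M)⁻¹)) * ENNReal.ofReal ((1 + ‖t + w‖) ^ (-(2:ℝ))) :=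
        lintegral_mono hpt
    _ = ENNReal.ofReal ((39 * Λ) ^ M * (2 * Λ) ^ 2 * (((N:ℝ) ^ 4)⁻¹ * ((1 + gam N k x) ^ M)⁻¹)) * I := by
        rw [lintegral_const_mul' _ _ ENNReal.ofReal_ne_top]
        congr 1
        exact lintegral_add_right_eq_self (fun t : ℝ => ENNReal.ofReal ((1 + ‖t‖) ^ (-(2:ℝ)))) w
    _ = _ := by
        unfold Phs
        have hIe : I = ENNReal.ofReal I.toReal := (ENNReal.ofReal_toReal hfin.ne).symm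
        conv_lhs => rw [hIe]
        rw [← ENNReal.ofReal_mul (by positivity), ← ENNReal.ofReal_mul (by positivity)]
        congr 1
        ring

end Vale.Agent.P117.K.R3
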