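import Vale.Agent.P117.K.RefC

/-! # P117 / K / REF3: the lifted amplitude -/

open MeasureTheory Complex Set
open scoped ENNReal NNReal ContDiff FourierTransform

set_option linter.all false

namespace Vale.Agent.P117.K.R3

open Vale.Agent.P106.G Vale.Agent.P106.Tri

/-! ### real algebra -/

/-- bounds near the base point -/
theorem base_bd {c N x0 x1 x2 τ : ℝ} (hc : 0 < c) (hc1 : c ≤ 1 / 100) (hN : 1 ≤ N) (h0 : |x0 - 4/9| ≤ c) (h1 : |x1 - 4/9| ≤ c)
    (h2 : |x2 - 7/9| ≤ c) (hτ : |τ - 1| ≤ c / N ^ 2) : 16/9 - 2 * c ≤ τ + x2 ∧ τ + x2 ≤ 16/9 + 2 * c ∧ 43/100 ≤ x0 ∧ x0 ≤ 46/100 ∧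
    43/100 ≤ x1 ∧ x1 ≤ 46/100 ∧ |τ - 1| ≤ c := by
  have h : |τ - 1| ≤ c := by
    refine hτ.trans ?_
    exact div_le_self hc.le (by nlinarith)
  rw [abs_le] at h0 h1 h2 h
  refine ⟨by linarith [h.1, h2.1], by linarith [h.2, h2.2], by linarith [h0.1], by linarith [h0.2], by linarith [h1.1], by linarith [h1.2], abs_le.2 h⟩

/-- the cone equation -/
theorem cone_bd {c N n2 τ s lam : ℝ} (hc : 0 < c) (hc1 : c ≤ 1 / 100) (hN : 1 ≤ N) (hn : |n2 - 1| ≤ c / N ^ 2)
    (hτ : |τ - 1| ≤ c / N ^ 2) (hs : 17/10 ≤ s) (hl : 17/10 ≤ lam) : |(τ ^ 2 - n2) / (s * lam)| ≤ (N ^ 2)⁻¹ := by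
  have hN2 : 0 < N ^ 2 := by positivity
  have hcN : c / N ^ 2 ≤ c := div_le_self hc.le (by nlinarith)
  have hcN0 : 0 < c / N ^ 2 := by positivity
  have e : τ ^ 2 - n2 = (τ - 1) * (τ + 1) - (n2 - 1) := by ring
  have hτ1 : |τ + 1| ≤ 3 := by
    rw [abs_le] at hτ ⊢
    constructor
    · linarith [hτ.1]
    · linarith [hτ.2]
  have h1 : |τ ^ 2 - n2| ≤ 4 * (c / N ^ 2) := by
    rw [e]
    calc |(τ - 1) * (τ + 1) - (n2 - 1)| ≤ |(τ - 1) * (τ + 1)| + |n2 - 1| := abs_sub _ _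
      _ ≤ (c / N ^ 2) * 3 + c / N ^ 2 := by
          rw [abs_mul]
          gcongr
      _ = _ := by ring
  have hsl : 0 < s * lam := by positivity
  rw [abs_div, abs_of_pos hsl, div_le_iff₀ hsl]
  have h2 : (1:ℝ) ≤ s * lam := by nlinarith
  calc |τ ^ 2 - n2| ≤ 4 * (c / N ^ 2) := h1
    _ = (4 * c) * (N ^ 2)⁻¹ := by rw [div_eq_mul_inv]; ring
    _ ≤ 1 * (N ^ 2)⁻¹ := by gcongr; linarith
    _ = (N ^ 2)⁻¹ * 1 := by ring
    _ ≤ _ := by gcongr

/-- comparison of the slopes -/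
theorem slope_bd {c N x0 x2 τ : ℝ} (hc : 0 < c) (hc1 : c ≤ 1 / 100) (hN : 1 ≤ N) (h0 : |x0| ≤ 1) (hs : 17/10 ≤ τ + x2) (hs' : 17/10 ≤ 1 + x2)
    (hτ : |τ - 1| ≤ c / N ^ 2) : |N * (x0 / (τ + x2)) - N * (x0 / (1 + x2))| ≤ 1/100 := by
  have hN0 : 0 < N := by linarith
  have p1 : 0 < τ + x2 := by linarith
  have p2 : 0 < 1 + x2 := by linarith
  have e : N * (x0 / (τ + x2)) - N * (x0 / (1 + x2)) = N * x0 * (1 - τ) / ((τ + x2) * (1 + x2)) := by
    field_simp
    ring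
  have h1 : 1 ≤ (τ + x2) * (1 + x2) := by nlinarith
  rw [e, abs_div, abs_of_pos (by positivity : 0 < (τ + x2) * (1 + x2)), div_le_iff₀ (by positivity), abs_mul, abs_mul, abs_of_pos hN0, abs_sub_comm 1 τ]
  calc N * |x0| * |τ - 1| ≤ N * 1 * (c / N ^ 2) := by gcongr
    _ = c / N := by field_simp
    _ ≤ c := div_le_self hc.le hN
    _ ≤ 1/100 * 1 := by linarith
    _ ≤ _ := by gcongr

theorem floor_near {a b : ℝ} (h1 : 1/8 ≤ Int.fract a) (h2 : Int.fract a ≤ 7/8) (h : |b - a| ≤ 1/100) : ⌊b⌋ = ⌊a⌋ := by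
  rw [Int.floor_eq_iff]
  have e := Int.floor_add_fract a
  rw [abs_le] at h
  constructor
  · linarith [h.1]
  · linarith [h.2]

/-! ### the bump in the time frequency -/

noncomputable def bet (c : ℝ) (N : ℕ) (s : ℝ) : ℂ := by
  classical exact if |s - 1| ≤ c / (N:ℝ) ^ 2 then (((N:ℝ) ^ 2 / (2 * c) : ℝ) : ℂ) else 0

theorem bet_eq (c : ℝ) (N : ℕ) : bet c N = (Metric.closedBall (1:ℝ) (c / (N:ℝ) ^ 2)).indicator (fun _ => (((N:ℝ) ^ 2 / (2 * c) : ℝ) : ℂ)) := by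
  ext s
  unfold bet
  simp only [indicator, Metric.mem_closedBall, Real.dist_eq]

theorem bet_meas (c : ℝ) (N : ℕ) : Measurable (bet c N) := by
  rw [bet_eq]
  exact measurable_const.indicator Metric.isClosed_closedBall.measurableSet

theorem bet_int (c : ℝ) (N : ℕ) : Integrable (bet c N) := by
  rw [bet_eq, integrable_indicator_iff Metric.isClosed_closedBall.measurableSet]
  exact integrableOn_const (by
    rw [Real.volume_closedBall]
    exact ENNReal.ofReal_ne_top)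

theorem bet_lint {c : ℝ} (hc : 0 < c) {N : ℕ} (hN : 1 ≤ N) : ∫⁻ s, ‖bet c N s‖ₑ = 1 := by
  have hN0 : (0:ℝ) < N := by exact_mod_cast hN
  have e : ∀ s, ‖bet c N s‖ₑ = (Metric.closedBall (1:ℝ) (c / (N:ℝ) ^ 2)).indicator (fun _ => ENNReal.ofReal ((N:ℝ) ^ 2 / (2 * c))) s := by
    intro s
    rw [bet_eq]
    by_cases h : s ∈ Metric.closedBall (1:ℝ) (c / (N:ℝ) ^ 2)
    · rw [indicator_of_mem h, indicator_of_mem h, ← ofReal_norm, Complex.norm_real, Real.norm_of_nonneg (by positivity)]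
    · rw [indicator_of_notMem h, indicator_of_notMem h, enorm_zero]
  simp_rw [e]
  rw [lintegral_indicator Metric.isClosed_closedBall.measurableSet, setLIntegral_const, Real.volume_closedBall, ← ENNReal.ofReal_mul (by positivity),
    ← ENNReal.ofReal_one]
  congr 1
  field_simp

theorem bet_lint2 {c : ℝ} (hc : 0 < c) {N : ℕ} (hN : 1 ≤ N) : ∫⁻ s, ‖bet c N s‖ₑ ^ 2 = ENNReal.ofReal ((N:ℝ) ^ 2 / (2 * c)) := by
  have hN0 : (0:ℝ) < N := by exact_mod_cast hN
  have e : ∀ s, ‖bet c N s‖ₑ ^ 2 = ENNReal.ofReal ((N:ℝ) ^ 2 / (2 * c)) * ‖bet c N s‖ₑ := by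
    intro s
    rw [bet_eq]
    by_cases h : s ∈ Metric.closedBall (1:ℝ) (c / (N:ℝ) ^ 2)
    · rw [indicator_of_mem h, ← ofReal_norm, Complex.norm_real, Real.norm_of_nonneg (by positivity), sq]
    · rw [indicator_of_notMem h, enorm_zero]; simp
  simp_rw [e]
  rw [lintegral_const_mul' _ _ ENNReal.ofReal_ne_top, bet_lint hc hN, mul_one]

theorem bet_integral {c : ℝ} (hc : 0 < c) {N : ℕ} (hN : 1 ≤ N) : ∫ s, bet c N s = 1 := by
  have hN0 : (0:ℝ) < N := by exact_mod_cast hN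
  rw [bet_eq, integral_indicator Metric.isClosed_closedBall.measurableSet, setIntegral_const, Measure.real, Real.volume_closedBall,
    ENNReal.toReal_ofReal (by positivity), Complex.real_smul, ← Complex.ofReal_mul, ← Complex.ofReal_one]
  congr 1
  field_simp

/-- the Fourier integral of the bump -/
noncomputable def Bet (c : ℝ) (N : ℕ) (t : ℝ) : ℂ := ∫ s, ec (s * t) * bet c N s

theorem Bet_le {c : ℝ} (hc : 0 < c) {N : ℕ} (hN : 1 ≤ N) (t : ℝ) : ‖Bet c N t‖ₑ ≤ 1 := by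
  unfold Bet
  refine (enorm_integral_le_lintegral_enorm _).trans (le_of_eq ?_)
  rw [← bet_lint hc hN]
  refine lintegral_congr fun s => ?_
  rw [enorm_mul, enorm_ec, one_mul]

theorem norm_ec_sub (a b : ℝ) : ‖ec a - ec b‖ ≤ 2 * Real.pi * |a - b| := by
  have e : ec a - ec b = ec b * (cexp (I * ((2 * Real.pi * (a - b) : ℝ) : ℂ)) - 1) := by
    have h : ec a = ec b * ec (a - b) := by rw [← ec_add]; congr 1; ring
    rw [h]
    unfold ec
    rw [mul_comm I]
    ring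
  rw [e, norm_mul, norm_ec, one_mul]
  refine (Real.norm_exp_I_mul_ofReal_sub_one_le).trans (le_of_eq ?_)
  rw [Real.norm_eq_abs, abs_mul, abs_of_pos (by positivity)]

theorem Bet_ge {c : ℝ} (hc : 0 < c) (hc1 : c ≤ 1/100) {N : ℕ} (hN : 1 ≤ N) {t : ℝ} (ht : |t| ≤ (N:ℝ) ^ 2) : 1/2 ≤ ‖Bet c N t‖ := by
  have hN0 : (0:ℝ) < N := by exact_mod_cast hN
  have i1 : Integrable (fun s => ec (s * t) * bet c N s) := by
    refine (bet_int c N).mono (((continuous_ec.comp (by fun_prop)).measurable.mul (bet_meas c N)).aestronglyMeasurable) ?_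
    filter_upwards with s
    rw [norm_mul, norm_ec, one_mul]
  have i2 : Integrable (fun s => ec t * bet c N s) := (bet_int c N).const_mul _
  have h1 : Bet c N t - ec t = ∫ s, (ec (s * t) - ec t) * bet c N s := by
    unfold Bet
    have e0 : ∫ s, ec t * bet c N s = ec t := by rw [integral_const_mul, bet_integral hc hN, mul_one]
    have e1 : ∫ s, (ec (s * t) - ec t) * bet c N s = (∫ s, ec (s * t) * bet c N s) - ∫ s, ec t * bet c N s := by
      rw [← integral_sub i1 i2]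
      congr 1
      ext s
      ring
    rw [e1, e0]
  have h2 : ‖Bet c N t - ec t‖ ≤ 1/2 := by
    rw [h1]
    have hb : ∀ s, ‖(ec (s * t) - ec t) * bet c N s‖ ≤ (1/2) * ‖bet c N s‖ := by
      intro s
      by_cases hs : |s - 1| ≤ c / (N:ℝ) ^ 2
      · rw [norm_mul]
        gcongr
        refine (norm_ec_sub _ _).trans ?_
        have e : s * t - t = (s - 1) * t := by ring
        rw [e, abs_mul]
        have hpi := Real.pi_lt_four
        calc 2 * Real.pi * (|s - 1| * |t|) ≤ 2 * 4 * ((c / (N:ℝ) ^ 2) * (N:ℝ) ^ 2) := by gcongr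
          _ = 8 * c := by field_simp; ring
          _ ≤ 1/2 := by linarith
      · have : bet c N s = 0 := by unfold bet; rw [if_neg hs]
        rw [this]; simp
    calc ‖∫ s, (ec (s * t) - ec t) * bet c N s‖ ≤ ∫ s, (1/2) * ‖bet c N s‖ :=
          norm_integral_le_of_norm_le ((bet_int c N).norm.const_mul _) (Filter.Eventually.of_forall hb)
      _ = 1/2 := by
          rw [integral_const_mul]
          have : ∫ s, ‖bet c N s‖ = 1 := by
            rw [integral_norm_eq_lintegral_enorm (bet_int c N).aestronglyMeasurable, bet_lint hc hN]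
            simp
          rw [this, mul_one]
  have h3 : ‖ec t‖ ≤ ‖Bet c N t - ec t‖ + ‖Bet c N t‖ := by
    calc ‖ec t‖ = ‖Bet c N t - (Bet c N t - ec t)‖ := by congr 1; ring
      _ ≤ ‖Bet c N t‖ + ‖Bet c N t - ec t‖ := norm_sub_le _ _
      _ = _ := by ring
  rw [norm_ec] at h3
  linarith

end Vale.Agent.P117.K.R3
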