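import Vale.Agent.P117.K.RefD

/-! # P117 / K / REF3: the lifted amplitude, properties -/

open MeasureTheory Complex Set
open scoped ENNReal NNReal ContDiff FourierTransform

set_option linter.all false

namespace Vale.Agent.P117.K.R3

open Vale.Agent.P106.G Vale.Agent.P106.Tri

/-- the lifted amplitude -/
noncomputable def lft (c : ℝ) (N : ℕ) (o1 o2 : ℝ) (g : E3 → ℂ) (ζ : E4) : ℂ :=
  tens g (bet c N) (mat4 (Lm (16/9 - 2 * c) (o1 / N) (o2 / N)) ζ)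

theorem L_coord (lam b1 b2 : ℝ) (ζ : E4) (hl : lam ≠ 0) :
    ζ 0 = (mat4 (Lm lam b1 b2) ζ 0 + mat4 (Lm lam b1 b2) ζ 3) / lam ∧
    ζ 1 = (mat4 (Lm lam b1 b2) ζ 1 - b1 * (mat4 (Lm lam b1 b2) ζ 0 + mat4 (Lm lam b1 b2) ζ 3)) / lam ∧
    ζ 2 = (mat4 (Lm lam b1 b2) ζ 2 - b2 * (mat4 (Lm lam b1 b2) ζ 0 + mat4 (Lm lam b1 b2) ζ 3)) / lam ∧
    ζ 3 = (mat4 (Lm lam b1 b2) ζ 0 - mat4 (Lm lam b1 b2) ζ 3 - 2 * b1 * mat4 (Lm lam b1 b2) ζ 1 - 2 * b2 * mat4 (Lm lam b1 b2) ζ 2 +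
      (b1 ^ 2 + b2 ^ 2) * (mat4 (Lm lam b1 b2) ζ 0 + mat4 (Lm lam b1 b2) ζ 3)) / lam := by
  have u0 : mat4 (Lm lam b1 b2) ζ 0 = lam / 2 * (1 + b1 ^ 2 + b2 ^ 2) * ζ 0 + lam * b1 * ζ 1 + lam * b2 * ζ 2 + lam / 2 * ζ 3 := by
    rw [mat4_apply]; simp [Lm]
  have u1 : mat4 (Lm lam b1 b2) ζ 1 = lam * b1 * ζ 0 + lam * ζ 1 := by
    rw [mat4_apply]; simp [Lm]
  have u2 : mat4 (Lm lam b1 b2) ζ 2 = lam * b2 * ζ 0 + lam * ζ 2 := by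
    rw [mat4_apply]; simp [Lm]
  have u3 : mat4 (Lm lam b1 b2) ζ 3 = lam / 2 * (1 - b1 ^ 2 - b2 ^ 2) * ζ 0 - lam * b1 * ζ 1 - lam * b2 * ζ 2 - lam / 2 * ζ 3 := by
    rw [mat4_apply]; simp [Lm]; ring
  rw [u0, u1, u2, u3]
  refine ⟨?_, ?_, ?_, ?_⟩ <;> (rw [eq_div_iff hl]; ring)

theorem abs_coord3' (x : E3) (i : Fin 3) : |x i| ≤ ‖x‖ := by
  have := PiLp.norm_apply_le x i
  simpa using this

theorem tens_ne {g : E3 → ℂ} {c : ℝ} {N : ℕ} {u : E4} (h : tens g (bet c N) u ≠ 0) : g (tl u) ≠ 0 ∧ |u 0 - 1| ≤ c / (N:ℝ) ^ 2 := by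
  unfold tens at h
  refine ⟨left_ne_zero_of_mul h, ?_⟩
  by_contra h1
  apply right_ne_zero_of_mul h
  unfold bet
  rw [if_neg h1]

/-- bounds at a point of the support -/
theorem supp_bd {c : ℝ} (hc : 0 < c) (hc1 : c ≤ 1/100) {N : ℕ} (hN : 1 ≤ N) {o1 o2 : ℝ} {g : E3 → ℂ} (hg : Ams c N o1 o2 g) {u : E4}
    (h : tens g (bet c N) u ≠ 0) :
    (16/9 - 2 * c ≤ u 0 + u 3 ∧ u 0 + u 3 ≤ 16/9 + 2 * c) ∧ (43/100 ≤ u 1 ∧ u 1 ≤ 46/100) ∧ (43/100 ≤ u 2 ∧ u 2 ≤ 46/100) ∧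
    |u 0 ^ 2 - (u 1 ^ 2 + u 2 ^ 2 + u 3 ^ 2)| ≤ 4 * (c / (N:ℝ) ^ 2) ∧ |u 0 - 1| ≤ c ∧ 17/10 ≤ 1 + u 3 := by
  obtain ⟨h1, h2⟩ := tens_ne h
  have hN' : (1:ℝ) ≤ N := by exact_mod_cast hN
  have hloc := hg.loc _ h1
  have hsph := hg.sph _ h1
  rw [norm3_sq, tl0, tl1, tl2] at hsph
  have c0 := (abs_coord3' (tl u - xist) 0).trans hloc
  have c1 := (abs_coord3' (tl u - xist) 1).trans hloc
  have c2 := (abs_coord3' (tl u - xist) 2).trans hloc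
  have e0 : (tl u - xist) 0 = u 1 - 4/9 := rfl
  have e1 : (tl u - xist) 1 = u 2 - 4/9 := rfl
  have e2 : (tl u - xist) 2 = u 3 - 7/9 := rfl
  rw [e0] at c0
  rw [e1] at c1
  rw [e2] at c2
  obtain ⟨a1, a2, a3, a4, a5, a6, a7⟩ := base_bd hc hc1 hN' c0 c1 c2 h2
  refine ⟨⟨a1, a2⟩, ⟨a3, a4⟩, ⟨a5, a6⟩, ?_, a7, ?_⟩
  · have e : u 0 ^ 2 - (u 1 ^ 2 + u 2 ^ 2 + u 3 ^ 2) = (u 0 - 1) * (u 0 + 1) - (u 1 ^ 2 + u 2 ^ 2 + u 3 ^ 2 - 1) := by ring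
    have hτ1 : |u 0 + 1| ≤ 3 := by
      rw [abs_le] at a7 ⊢
      constructor <;> linarith [a7.1, a7.2]
    rw [e]
    calc |(u 0 - 1) * (u 0 + 1) - (u 1 ^ 2 + u 2 ^ 2 + u 3 ^ 2 - 1)| ≤ |(u 0 - 1) * (u 0 + 1)| + |u 1 ^ 2 + u 2 ^ 2 + u 3 ^ 2 - 1| := abs_sub _ _
      _ ≤ (c / (N:ℝ) ^ 2) * 3 + c / (N:ℝ) ^ 2 := by
          rw [abs_mul]
          gcongr
      _ = _ := by ring
  · rw [abs_le] at c2
    linarith [c2.1]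

theorem real_up {c c0 s : ℝ} (hc : 0 < c) (hc1 : c ≤ 1/100) (hc0 : 4 * c ≤ c0) (h : s ≤ 16/9 + 2 * c) : s ≤ (1 + c0) * (16/9 - 2 * c) := by
  have h1 : 4 * c * (16/9 - 2 * c) ≤ c0 * (16/9 - 2 * c) := mul_le_mul_of_nonneg_right hc0 (by linarith)
  have h2 : 4 * c ≤ 4 * c * (16/9 - 2 * c) := by
    have : 4 * c * 1 ≤ 4 * c * (16/9 - 2 * c) := mul_le_mul_of_nonneg_left (by linarith) (by linarith)
    linarith
  linarith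

theorem real_cone {c lam K u0 u1 u2 u3 b1 b2 : ℝ} (hc : 0 < c) (hc1 : c ≤ 1/100) (hl : 17/10 ≤ lam) (hK : 0 < K) (hs : 17/10 ≤ u0 + u3)
    (h : |u0 ^ 2 - (u1 ^ 2 + u2 ^ 2 + u3 ^ 2)| ≤ 4 * (c / K)) :
    |(u0 - u3 - 2 * b1 * u1 - 2 * b2 * u2 + (b1 ^ 2 + b2 ^ 2) * (u0 + u3)) / lam -
          (((u1 - b1 * (u0 + u3)) / lam) ^ 2 + ((u2 - b2 * (u0 + u3)) / lam) ^ 2) / ((u0 + u3) / lam)| ≤ K⁻¹ := by
  have hs0 : 0 < u0 + u3 := by linarith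
  have hl0 : 0 < lam := by linarith
  have e : (u0 - u3 - 2 * b1 * u1 - 2 * b2 * u2 + (b1 ^ 2 + b2 ^ 2) * (u0 + u3)) / lam -
      (((u1 - b1 * (u0 + u3)) / lam) ^ 2 + ((u2 - b2 * (u0 + u3)) / lam) ^ 2) / ((u0 + u3) / lam) =
      (u0 ^ 2 - (u1 ^ 2 + u2 ^ 2 + u3 ^ 2)) / ((u0 + u3) * lam) := by
    field_simp
    ring
  have h1 : (1:ℝ) ≤ (u0 + u3) * lam := by
    calc (1:ℝ) ≤ 17/10 * (17/10) := by norm_num
      _ ≤ _ := by gcongr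
  rw [e, abs_div, abs_of_pos (by positivity : 0 < (u0 + u3) * lam), div_le_iff₀ (by positivity)]
  calc |u0 ^ 2 - (u1 ^ 2 + u2 ^ 2 + u3 ^ 2)| ≤ 4 * (c / K) := h
    _ = (4 * c) * K⁻¹ := by rw [div_eq_mul_inv]; ring
    _ ≤ 1 * K⁻¹ := by gcongr; linarith
    _ = K⁻¹ * 1 := by ring
    _ ≤ _ := by gcongr

theorem real_pos {b s x lam : ℝ} (hl0 : 0 < lam) (hb : 0 ≤ b) (hb' : b ≤ 1/8) (hs : 1 ≤ s) (hs2 : s ≤ 2) (hx : 43/100 ≤ x) (hx' : x ≤ 46/100) :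
    0 ≤ (x - b * s) / lam ∧ (x - b * s) / lam < s / lam := by
  have f1 : b * s ≤ 1/8 * 2 := by gcongr
  have f2 : 0 ≤ b * s := by positivity
  constructor
  · apply div_nonneg _ hl0.le; linarith
  · apply div_lt_div_of_pos_right _ hl0; linarith

/-- the lifted amplitude is an amplitude near the cone -/
theorem lft_amp {c c0 : ℝ} (hc : 0 < c) (hc1 : c ≤ 1/100) (hc0 : 4 * c ≤ c0) {N : ℕ} (hN : 4 ≤ N) {o1 o2 : ℝ} (ho1 : o1 ∈ Icc (0:ℝ) (1/2))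
    (ho2 : o2 ∈ Icc (0:ℝ) (1/2)) {g : E3 → ℂ} (hg : Ams c N o1 o2 g) : Amp c0 ((N:ℝ) ^ 2) (lft c N o1 o2 g) := by
  have hN1 : 1 ≤ N := by omega
  have hN4 : (4:ℝ) ≤ N := by exact_mod_cast hN
  have hN0 : (0:ℝ) < N := by linarith
  set lam := 16/9 - 2 * c with hlam
  have hl : 17/10 ≤ lam := by rw [hlam]; linarith
  have hl0 : 0 < lam := by linarith
  set b1 := o1 / N with hb1
  set b2 := o2 / N with hb2
  have hA : (Lm lam b1 b2).det ≠ 0 := Lm_ne hl0 b1 b2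
  have mt : Measurable (tens g (bet c N)) := (hg.meas.comp measurable_tl).mul ((bet_meas c N).comp (by fun_prop))
  have mL : Measurable (fun ζ : E4 => mat4 (Lm lam b1 b2) ζ) := (mat4 _).continuous_of_finiteDimensional.measurable
  have hbb : ∀ {o : ℝ}, o ∈ Icc (0:ℝ) (1/2) → 0 ≤ o / N ∧ o / N ≤ 1/8 := by
    intro o ho
    refine ⟨div_nonneg ho.1 hN0.le, ?_⟩
    rw [div_le_iff₀ hN0]
    linarith [ho.2]
  obtain ⟨q1, q1'⟩ := hbb ho1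
  obtain ⟨q2, q2'⟩ := hbb ho2
  rw [← hb1] at q1 q1'
  rw [← hb2] at q2 q2'
  refine ⟨?_, ?_, ?_, ?_⟩
  · exact mt.comp mL
  · exact integrable_mat4 hA (integrable_tens hg.int (bet_int c N))
  · have h1 : ∫⁻ ζ, ‖lft c N o1 o2 g ζ‖ₑ ^ 2 = ENNReal.ofReal |(Lm lam b1 b2).det⁻¹| * ((∫⁻ x, ‖g x‖ₑ ^ 2) * ∫⁻ t, ‖bet c N t‖ₑ ^ 2) := by
      rw [← lint_tens (hg.meas.enorm.pow_const 2) ((bet_meas c N).enorm.pow_const 2), ← lintegral_mat4 hA]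
      refine lintegral_congr fun ζ => ?_
      unfold lft tens
      rw [enorm_mul, mul_pow]
    rw [h1, bet_lint2 hc hN1]
    exact ENNReal.mul_lt_top ENNReal.ofReal_lt_top (ENNReal.mul_lt_top hg.sq ENNReal.ofReal_lt_top)
  · intro ζ hζ
    obtain ⟨⟨s1, s2⟩, ⟨x1, x1'⟩, ⟨x2, x2'⟩, hcone, -, -⟩ := supp_bd hc hc1 hN1 hg hζ
    obtain ⟨z0, z1, z2, z3⟩ := L_coord lam b1 b2 ζ hl0.ne'
    rw [← hlam, ← hb1, ← hb2] at s1 s2 x1 x1' x2 x2' hcone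
    rw [z0, z1, z2, z3]
    generalize (mat4 (Lm lam b1 b2)) ζ 0 = u0 at *
    generalize (mat4 (Lm lam b1 b2)) ζ 1 = u1 at *
    generalize (mat4 (Lm lam b1 b2)) ζ 2 = u2 at *
    generalize (mat4 (Lm lam b1 b2)) ζ 3 = u3 at *
    have hs0 : 1 ≤ u0 + u3 := by linarith
    have hs2 : u0 + u3 ≤ 2 := by linarith
    refine ⟨⟨?_, ?_⟩, real_pos hl0 q1 q1' hs0 hs2 x1 x1', real_pos hl0 q2 q2' hs0 hs2 x2 x2', real_cone hc hc1 hl (by positivity) (by linarith) hcone⟩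
    · rw [le_div_iff₀ hl0]; linarith
    · rw [div_le_iff₀ hl0]
      exact real_up hc hc1 hc0 s2

/-- the pieces of the lifted amplitude are the lifts of the pieces -/
theorem ampk_lft {c : ℝ} (hc : 0 < c) (hc1 : c ≤ 1/100) {N : ℕ} (hN : 4 ≤ N) {o1 o2 : ℝ} {g : E3 → ℂ} (hg : Ams c N o1 o2 g) (k : ℤ × ℤ) :
    ampk N k (lft c N o1 o2 g) = lft c N o1 o2 (pc N o1 o2 k g) := by
  have hN1 : 1 ≤ N := by omega
  have hN' : (1:ℝ) ≤ N := by exact_mod_cast hN1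
  have hN0 : (0:ℝ) < N := by linarith
  set lam := 16/9 - 2 * c with hlam
  have hl : 17/10 ≤ lam := by rw [hlam]; linarith
  have hl0 : 0 < lam := by linarith
  ext ζ
  by_cases h0 : lft c N o1 o2 g ζ = 0
  · have e1 : ampk N k (lft c N o1 o2 g) ζ = 0 := by unfold ampk; split_ifs <;> simp [h0]
    have e2 : lft c N o1 o2 (pc N o1 o2 k g) ζ = 0 := by
      unfold lft tens at h0 ⊢
      rcases mul_eq_zero.1 h0 with h | h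
      · have : pc N o1 o2 k g (tl (mat4 (Lm (16/9 - 2 * c) (o1 / N) (o2 / N)) ζ)) = 0 := by unfold pc; split_ifs <;> simp [h]
        rw [this, zero_mul]
      · rw [h, mul_zero]
    rw [e1, e2]
  · obtain ⟨⟨s1, s2⟩, ⟨x1, x1'⟩, ⟨x2, x2'⟩, -, -, h3⟩ := supp_bd hc hc1 hN1 hg h0
    obtain ⟨hgne, hτ⟩ := tens_ne h0
    obtain ⟨z0, z1, z2, z3⟩ := L_coord lam (o1 / N) (o2 / N) ζ hl0.ne'
    have g1 := hg.grid1 _ hgne
    have g2 := hg.grid2 _ hgne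
    have d1 : v1 (tl (mat4 (Lm (16/9 - 2 * c) (o1 / N) (o2 / N)) ζ)) = mat4 (Lm (16/9 - 2 * c) (o1 / N) (o2 / N)) ζ 1 / (1 + mat4 (Lm (16/9 - 2 * c) (o1 / N) (o2 / N)) ζ 3) := rfl
    have d2 : v2 (tl (mat4 (Lm (16/9 - 2 * c) (o1 / N) (o2 / N)) ζ)) = mat4 (Lm (16/9 - 2 * c) (o1 / N) (o2 / N)) ζ 2 / (1 + mat4 (Lm (16/9 - 2 * c) (o1 / N) (o2 / N)) ζ 3) := rfl
    rw [d1] at g1
    rw [d2] at g2
    have key : cpi N ζ = (⌊N * v1 (tl (mat4 (Lm (16/9 - 2 * c) (o1 / N) (o2 / N)) ζ)) - o1⌋, ⌊N * v2 (tl (mat4 (Lm (16/9 - 2 * c) (o1 / N) (o2 / N)) ζ)) - o2⌋) := by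
      unfold cpi
      rw [d1, d2, z0, z1, z2, ← hlam]
      rw [← hlam] at g1 g2 s1 s2 x1 x1' x2 x2' h3 hτ
      generalize (mat4 (Lm lam (o1 / N) (o2 / N))) ζ 0 = u0 at *
      generalize (mat4 (Lm lam (o1 / N) (o2 / N))) ζ 1 = u1 at *
      generalize (mat4 (Lm lam (o1 / N) (o2 / N))) ζ 2 = u2 at *
      generalize (mat4 (Lm lam (o1 / N) (o2 / N))) ζ 3 = u3 at *
      have hs0 : 0 < u0 + u3 := by linarith
      have hs17 : 17/10 ≤ u0 + u3 := by linarith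
      have main : ∀ {x o : ℝ}, 43/100 ≤ x → x ≤ 46/100 → 1/8 ≤ Int.fract (N * (x / (1 + u3)) - o) → Int.fract (N * (x / (1 + u3)) - o) ≤ 7/8 →
          ⌊(N:ℝ) * ((x - o / N * (u0 + u3)) / lam / ((u0 + u3) / lam))⌋ = ⌊N * (x / (1 + u3)) - o⌋ := by
        intro x o hx hx' hf hf'
        apply floor_near hf hf'
        have e : (N:ℝ) * ((x - o / N * (u0 + u3)) / lam / ((u0 + u3) / lam)) = N * (x / (u0 + u3)) - o := by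
          field_simp
        rw [e]
        have := slope_bd hc hc1 hN' (x0 := x) (by rw [abs_le]; constructor <;> linarith) hs17 h3 hτ
        have e2 : N * (x / (u0 + u3)) - o - (N * (x / (1 + u3)) - o) = N * (x / (u0 + u3)) - N * (x / (1 + u3)) := by ring
        rw [e2]
        exact this
      rw [main x1 x1' g1.1 g1.2, main x2 x2' g2.1 g2.2]
    unfold ampk
    rw [key]
    unfold lft tens pc
    split_ifs with h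
    · rfl
    · rw [zero_mul]

end Vale.Agent.P117.K.R3
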