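import Vale.Agent.P117.K.RefE
import Vale.Agent.P106.G.SqR

/-! # P117 / K / REF3: the square functions -/

open MeasureTheory Complex Set
open scoped ENNReal NNReal ContDiff FourierTransform

set_option linter.all false

namespace Vale.Agent.P117.K.R3

open Vale.Agent.P106.G Vale.Agent.P106.Tri

theorem measurable_v1 : Measurable v1 := by unfold v1; fun_prop
theorem measurable_v2 : Measurable v2 := by unfold v2; fun_prop

theorem measurableSet_pc (N : ℕ) (o1 o2 : ℝ) (k : ℤ × ℤ) : MeasurableSet {ξ : E3 | (⌊N * v1 ξ - o1⌋, ⌊N * v2 ξ - o2⌋) = k} := by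
  have h1 : Measurable fun ξ : E3 => ⌊N * v1 ξ - o1⌋ := Int.measurable_floor.comp ((measurable_v1.const_mul _).sub_const _)
  have h2 : Measurable fun ξ : E3 => ⌊N * v2 ξ - o2⌋ := Int.measurable_floor.comp ((measurable_v2.const_mul _).sub_const _)
  exact (h1.prodMk h2) (measurableSet_singleton k)

theorem pc_eq (N : ℕ) (o1 o2 : ℝ) (k : ℤ × ℤ) (g : E3 → ℂ) : pc N o1 o2 k g = {ξ : E3 | (⌊N * v1 ξ - o1⌋, ⌊N * v2 ξ - o2⌋) = k}.indicator g := by
  ext ξ
  unfold pc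
  simp only [indicator, mem_setOf_eq]

theorem pc_int {N : ℕ} {o1 o2 : ℝ} {g : E3 → ℂ} (hg : Integrable g) (k : ℤ × ℤ) : Integrable (pc N o1 o2 k g) := by
  rw [pc_eq]
  exact hg.indicator (measurableSet_pc N o1 o2 k)

theorem continuous_inv3 {g : E3 → ℂ} (hg : Integrable g) : Continuous (𝓕⁻ g) := by
  have h : 𝓕⁻ g = fun x => 𝓕 g (-x) := by
    ext x
    exact Real.fourierInv_eq_fourier_neg _ _
  rw [h]
  exact (VectorFourier.fourierIntegral_continuous Real.continuous_fourierChar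
    (by exact continuous_inner) hg).comp continuous_neg

theorem measurable_Phs (M N : ℕ) (k : ℤ × ℤ) : Measurable (Phs M N k) := by
  unfold Phs gam
  fun_prop

theorem measurable_den {M N : ℕ} {o1 o2 : ℝ} {g : E3 → ℂ} (hg : Integrable g) (k : ℤ × ℤ) : Measurable (den M N o1 o2 g k) := by
  unfold den
  have h1 := (continuous_inv3 (pc_int (N := N) (o1 := o1) (o2 := o2) hg k)).measurable
  have h2 := measurable_Phs M N k
  apply Measurable.lintegral_prod_right' (f := fun p : E3 × E3 => ‖𝓕⁻ (pc N o1 o2 k g) p.2‖ₑ ^ 2 * Phs M N k (p.1 - p.2))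
  exact ((h1.comp measurable_snd).enorm.pow_const 2).mul (h2.comp (measurable_fst.sub measurable_snd))

theorem measurable_SqS {M N : ℕ} {o1 o2 : ℝ} {g : E3 → ℂ} (hg : Integrable g) : Measurable (SqS M N o1 o2 g) := by
  unfold SqS
  exact Finset.measurable_sum _ fun k _ => measurable_den hg k

/-- change of variables -/
theorem cov {A : Matrix (Fin 4) (Fin 4) ℝ} (hA : A.det ≠ 0) (F : E4 → ℝ≥0∞) :
    ∫⁻ z, F z = ENNReal.ofReal |A.det| * ∫⁻ p, F (mat4 A.transpose p) := by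
  have hT : A.transpose.det ≠ 0 := by rwa [Matrix.det_transpose]
  rw [lintegral_mat4 hT, Matrix.det_transpose, ← mul_assoc, ← ENNReal.ofReal_mul (abs_nonneg _), ← abs_mul, mul_inv_cancel₀ hA, abs_one,
    ENNReal.ofReal_one, one_mul]

/-- the inverse Fourier transform of the lift -/
theorem inv_lft {c : ℝ} (hc1 : c ≤ 1/100) {N : ℕ} {o1 o2 : ℝ} {g : E3 → ℂ} (hg : Integrable g) (t : ℝ) (x : E3) :
    𝓕⁻ (lft c N o1 o2 g) (mat4 (Lm (16/9 - 2 * c) (o1 / N) (o2 / N)).transpose (cn t x)) =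
      (|(Lm (16/9 - 2 * c) (o1 / N) (o2 / N)).det⁻¹| : ℝ) • (Bet c N t * 𝓕⁻ g x) :=
  inv_tens (Lm_ne (by linarith) _ _) hg (bet_int c N) t x

theorem inv_lft_le {c : ℝ} (hc : 0 < c) (hc1 : c ≤ 1/100) {N : ℕ} (hN : 1 ≤ N) {o1 o2 : ℝ} {g : E3 → ℂ} (hg : Integrable g) (t : ℝ) (x : E3) :
    ‖𝓕⁻ (lft c N o1 o2 g) (mat4 (Lm (16/9 - 2 * c) (o1 / N) (o2 / N)).transpose (cn t x))‖ₑ ≤
      ENNReal.ofReal |(Lm (16/9 - 2 * c) (o1 / N) (o2 / N)).det⁻¹| * ‖𝓕⁻ g x‖ₑ := by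
  rw [inv_lft hc1 hg, enorm_smul, enorm_mul, Real.enorm_eq_ofReal (abs_nonneg _)]
  gcongr
  calc ‖Bet c N t‖ₑ * ‖𝓕⁻ g x‖ₑ ≤ 1 * ‖𝓕⁻ g x‖ₑ := by gcongr; exact Bet_le hc hN t
    _ = _ := one_mul _

theorem inv_lft_ge {c : ℝ} (hc : 0 < c) (hc1 : c ≤ 1/100) {N : ℕ} (hN : 1 ≤ N) {o1 o2 : ℝ} {g : E3 → ℂ} (hg : Integrable g) {t : ℝ}
    (ht : |t| ≤ (N:ℝ) ^ 2) (x : E3) :
    ENNReal.ofReal (|(Lm (16/9 - 2 * c) (o1 / N) (o2 / N)).det⁻¹| / 2) * ‖𝓕⁻ g x‖ₑ ≤
      ‖𝓕⁻ (lft c N o1 o2 g) (mat4 (Lm (16/9 - 2 * c) (o1 / N) (o2 / N)).transpose (cn t x))‖ₑ := by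
  rw [inv_lft hc1 hg, enorm_smul, enorm_mul, Real.enorm_eq_ofReal (abs_nonneg _), div_eq_mul_inv, ENNReal.ofReal_mul (abs_nonneg _), mul_assoc]
  gcongr
  rw [← ofReal_norm (Bet c N t)]
  apply ENNReal.ofReal_le_ofReal
  have := Bet_ge hc hc1 hN ht
  linarith

theorem LT_mat4_sub (A : Matrix (Fin 4) (Fin 4) ℝ) (t t' : ℝ) (x x' : E3) :
    mat4 A (cn t x) - mat4 A (cn t' x') = mat4 A (cn (t - t') (x - x')) := by
  rw [← map_sub]
  congr 1
  ext i
  fin_cases i <;> rfl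

/-- the square function of the lift is bounded by the square function -/
theorem Sq_lft {c Λ : ℝ} {M : ℕ} (hc : 0 < c) (hc1 : c ≤ 1/100) {C : ℝ} (hC : ∀ (N : ℕ) (k : ℤ × ℤ) (lam b1 b2 : ℝ) (x : E3), 1 ≤ N →
    k ∈ Vale.Agent.P117.K.grd N → 1 ≤ lam → 0 ≤ b1 → b1 ≤ 1 / (2 * N) → 0 ≤ b2 → b2 ≤ 1 / (2 * N) →
    ∫⁻ t : ℝ, phk Λ (M + 2) N k (mat4 (Lm lam b1 b2).transpose (cn t x)) ≤ ENNReal.ofReal C * Phs M N k x)
    {N : ℕ} (hN : 4 ≤ N) {o1 o2 : ℝ} (ho1 : o1 ∈ Icc (0:ℝ) (1/2)) (ho2 : o2 ∈ Icc (0:ℝ) (1/2)) {g : E3 → ℂ} (hg : Ams c N o1 o2 g) (t : ℝ) (x : E3) :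
    Sq Λ (M + 2) N (lft c N o1 o2 g) (mat4 (Lm (16/9 - 2 * c) (o1 / N) (o2 / N)).transpose (cn t x)) ≤
      ENNReal.ofReal (|(Lm (16/9 - 2 * c) (o1 / N) (o2 / N)).det⁻¹| * C) * SqS M N o1 o2 g x := by
  have hN1 : 1 ≤ N := by omega
  have hN0 : (0:ℝ) < N := by exact_mod_cast hN1
  set lam := 16/9 - 2 * c with hlam
  have hl : 1 ≤ lam := by rw [hlam]; linarith
  have hbb : ∀ {o : ℝ}, o ∈ Icc (0:ℝ) (1/2) → 0 ≤ o / N ∧ o / N ≤ 1 / (2 * N) := by
    intro o ho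
    refine ⟨div_nonneg ho.1 hN0.le, ?_⟩
    rw [div_le_div_iff₀ hN0 (by positivity)]
    nlinarith [ho.2]
  obtain ⟨q1, q1'⟩ := hbb ho1
  obtain ⟨q2, q2'⟩ := hbb ho2
  set A := Lm lam (o1 / N) (o2 / N) with hA
  have hdet : A.det ≠ 0 := Lm_ne (by linarith) _ _
  set D := |A.det⁻¹| with hD
  have hD0 : 0 ≤ D := abs_nonneg _
  have hDD : ENNReal.ofReal |A.det| * ENNReal.ofReal D = 1 := by
    rw [← ENNReal.ofReal_mul (abs_nonneg _), hD, ← abs_mul, mul_inv_cancel₀ hdet, abs_one, ENNReal.ofReal_one]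
  have one : ∀ k ∈ Vale.Agent.P106.G.grd N, ∫⁻ y, ‖𝓕⁻ (ampk N k (lft c N o1 o2 g)) y‖ₑ ^ 2 * phk Λ (M + 2) N k (mat4 A.transpose (cn t x) - y) ≤
      ENNReal.ofReal (D * C) * den M N o1 o2 g k x := by
    intro k hk
    have hk' : k ∈ Vale.Agent.P117.K.grd N := hk
    rw [ampk_lft hc hc1 hN hg]
    set gk := pc N o1 o2 k g with hgk
    have hgi : Integrable gk := pc_int hg.int k
    have hli : Integrable (lft c N o1 o2 gk) := integrable_mat4 (Lm_ne (by linarith : (0:ℝ) < 16/9 - 2 * c) _ _) (integrable_tens hgi (bet_int c N))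
    have m1 := (continuous_inv hli).measurable
    have m2 := measurable_phk Λ (M + 2) N k
    have mA : Measurable (fun p : E4 => mat4 A.transpose p) := (mat4 _).continuous_of_finiteDimensional.measurable
    rw [cov hdet]
    have mF : Measurable (fun p : E4 => ‖𝓕⁻ (lft c N o1 o2 gk) (mat4 A.transpose p)‖ₑ ^ 2 *
        phk Λ (M + 2) N k (mat4 A.transpose (cn t x) - mat4 A.transpose p)) :=
      ((m1.comp mA).enorm.pow_const 2).mul (m2.comp (measurable_const.sub mA))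
    rw [lint4' mF]
    have m3 : ∀ x' : E3, Measurable fun t' : ℝ => phk Λ (M + 2) N k (mat4 A.transpose (cn t x) - mat4 A.transpose (cn t' x')) := by
      intro x'
      exact m2.comp (measurable_const.sub (mA.comp (measurable_cn.comp (measurable_id.prodMk measurable_const))))
    calc ENNReal.ofReal |A.det| * ∫⁻ x' : E3, ∫⁻ t' : ℝ, ‖𝓕⁻ (lft c N o1 o2 gk) (mat4 A.transpose (cn t' x'))‖ₑ ^ 2 *
          phk Λ (M + 2) N k (mat4 A.transpose (cn t x) - mat4 A.transpose (cn t' x')) ≤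
        ENNReal.ofReal |A.det| * ∫⁻ x' : E3, (ENNReal.ofReal D * ‖𝓕⁻ gk x'‖ₑ) ^ 2 * (ENNReal.ofReal C * Phs M N k (x - x')) := by
          gcongr with x'
          calc ∫⁻ t' : ℝ, ‖𝓕⁻ (lft c N o1 o2 gk) (mat4 A.transpose (cn t' x'))‖ₑ ^ 2 *
              phk Λ (M + 2) N k (mat4 A.transpose (cn t x) - mat4 A.transpose (cn t' x')) ≤
              ∫⁻ t' : ℝ, (ENNReal.ofReal D * ‖𝓕⁻ gk x'‖ₑ) ^ 2 * phk Λ (M + 2) N k (mat4 A.transpose (cn t x) - mat4 A.transpose (cn t' x')) := by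
                gcongr with t'
                exact inv_lft_le hc hc1 hN1 hgi t' x'
            _ = (ENNReal.ofReal D * ‖𝓕⁻ gk x'‖ₑ) ^ 2 * ∫⁻ t' : ℝ, phk Λ (M + 2) N k (mat4 A.transpose (cn t x) - mat4 A.transpose (cn t' x')) :=
                lintegral_const_mul _ (m3 x')
            _ ≤ _ := by
                gcongr
                have e : ∀ t' : ℝ, phk Λ (M + 2) N k (mat4 A.transpose (cn t x) - mat4 A.transpose (cn t' x')) =
                    (fun s : ℝ => phk Λ (M + 2) N k (mat4 A.transpose (cn s (x - x')))) (t - t') := by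
                  intro t'
                  show _ = phk Λ (M + 2) N k (mat4 A.transpose (cn (t - t') (x - x')))
                  rw [LT_mat4_sub]
                simp_rw [e]
                rw [lintegral_sub_left_eq_self (fun s : ℝ => phk Λ (M + 2) N k (mat4 A.transpose (cn s (x - x')))) t]
                exact hC N k lam (o1 / N) (o2 / N) (x - x') hN1 hk' hl q1 q1' q2 q2'
      _ = ENNReal.ofReal |A.det| * ∫⁻ x' : E3, (ENNReal.ofReal D ^ 2 * ENNReal.ofReal C) * (‖𝓕⁻ gk x'‖ₑ ^ 2 * Phs M N k (x - x')) := by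
          congr 1
          refine lintegral_congr fun x' => ?_
          rw [mul_pow]; ring
      _ = ENNReal.ofReal |A.det| * ((ENNReal.ofReal D ^ 2 * ENNReal.ofReal C) * den M N o1 o2 g k x) := by
          rw [lintegral_const_mul' _ _ (by finiteness)]
          rfl
      _ = (ENNReal.ofReal |A.det| * ENNReal.ofReal D) * (ENNReal.ofReal D * ENNReal.ofReal C) * den M N o1 o2 g k x := by ring
      _ = _ := by rw [hDD, one_mul, ENNReal.ofReal_mul hD0]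
  calc Sq Λ (M + 2) N (lft c N o1 o2 g) (mat4 A.transpose (cn t x)) ≤ ∑ k ∈ Vale.Agent.P106.G.grd N, ENNReal.ofReal (D * C) * den M N o1 o2 g k x := by
        unfold Sq
        exact Finset.sum_le_sum one
    _ = _ := by
        unfold SqS
        rw [Finset.mul_sum]
        rfl

end Vale.Agent.P117.K.R3
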