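import Vale.Agent.P117.K.RefF
import Vale.Agent.P106.G.Ref

/-! # P117 / K / REF3: the refined square function estimate near the sphere -/

open MeasureTheory Complex Set
open scoped ENNReal NNReal ContDiff FourierTransform

set_option linter.all false

namespace Vale.Agent.P117.K.R3

open Vale.Agent.P106.G Vale.Agent.P106.Tri

theorem pt_lower {a d : ℝ} (ha : 0 ≤ a) (hd : 0 < d) {f F s S : ℝ≥0∞} (h1 : ENNReal.ofReal a * f ≤ F) (h2 : s ≤ ENNReal.ofReal d * S) :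
    ENNReal.ofReal (a ^ 3 / d ^ (1/2 : ℝ)) * (f ^ 3 / S ^ (1/2 : ℝ)) ≤ F ^ 3 / s ^ (1/2 : ℝ) := by
  have hd' : 0 < d ^ (1/2 : ℝ) := Real.rpow_pos_of_pos hd _
  calc ENNReal.ofReal (a ^ 3 / d ^ (1/2 : ℝ)) * (f ^ 3 / S ^ (1/2 : ℝ)) = (ENNReal.ofReal a * f) ^ 3 / (ENNReal.ofReal d * S) ^ (1/2 : ℝ) := by
        rw [mul_pow, ENNReal.mul_rpow_of_nonneg _ _ (by norm_num), ENNReal.ofReal_rpow_of_pos hd, ENNReal.ofReal_div_of_pos hd',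
          ENNReal.ofReal_pow ha]
        generalize S ^ (1/2 : ℝ) = S'
        generalize d ^ (1/2 : ℝ) = d' at *
        simp only [div_eq_mul_inv]
        rw [ENNReal.mul_inv (Or.inl (by simpa using hd')) (Or.inl ENNReal.ofReal_ne_top)]
        ring
    _ ≤ _ := by
        gcongr

/-- the constant of the lower bound -/
theorem lower {c Λ : ℝ} {M : ℕ} (hc : 0 < c) (hc1 : c ≤ 1/100) {C : ℝ} (hC0 : 0 < C) (hC : ∀ (N : ℕ) (k : ℤ × ℤ) (lam b1 b2 : ℝ) (x : E3), 1 ≤ N →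
    k ∈ Vale.Agent.P117.K.grd N → 1 ≤ lam → 0 ≤ b1 → b1 ≤ 1 / (2 * N) → 0 ≤ b2 → b2 ≤ 1 / (2 * N) →
    ∫⁻ t : ℝ, phk Λ (M + 2) N k (mat4 (Lm lam b1 b2).transpose (cn t x)) ≤ ENNReal.ofReal C * Phs M N k x)
    {N : ℕ} (hN : 4 ≤ N) {o1 o2 : ℝ} (ho1 : o1 ∈ Icc (0:ℝ) (1/2)) (ho2 : o2 ∈ Icc (0:ℝ) (1/2)) {g : E3 → ℂ} (hg : Ams c N o1 o2 g)
    {Δ : ℝ} (hΔ : Δ = (16/9 - 2 * c) ^ 4 / 2) :
    ENNReal.ofReal ((N:ℝ) ^ 2 * ((1/4) * (Δ⁻¹) ^ 2 / (Δ⁻¹ * C) ^ (1/2 : ℝ))) * ∫⁻ x, ‖𝓕⁻ g x‖ₑ ^ 3 / SqS M N o1 o2 g x ^ (1/2 : ℝ) ≤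
      ∫⁻ z, ‖𝓕⁻ (lft c N o1 o2 g) z‖ₑ ^ 3 / Sq Λ (M + 2) N (lft c N o1 o2 g) z ^ (1/2 : ℝ) := by
  have hN1 : 1 ≤ N := by omega
  have hN0 : (0:ℝ) < N := by exact_mod_cast hN1
  have hl : (0:ℝ) < 16/9 - 2 * c := by linarith
  have hΔ0 : 0 < Δ := by rw [hΔ]; positivity
  have hAd : |(Lm (16/9 - 2 * c) (o1 / N) (o2 / N)).det| = Δ := by
    rw [Lm_det, abs_neg, abs_of_pos (by positivity), hΔ]
  have hAi : |(Lm (16/9 - 2 * c) (o1 / N) (o2 / N)).det⁻¹| = Δ⁻¹ := by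
    rw [abs_inv, hAd]
  have hdet := Lm_ne hl (o1 / N) (o2 / N)
  have e1 : ∀ (t : ℝ) (x : E3), |t| ≤ (N:ℝ) ^ 2 → ENNReal.ofReal ((Δ⁻¹ / 2) ^ 3 / (Δ⁻¹ * C) ^ (1/2 : ℝ)) * (‖𝓕⁻ g x‖ₑ ^ 3 / SqS M N o1 o2 g x ^ (1/2 : ℝ)) ≤
      ‖𝓕⁻ (lft c N o1 o2 g) (mat4 (Lm (16/9 - 2 * c) (o1 / N) (o2 / N)).transpose (cn t x))‖ₑ ^ 3 /
        Sq Λ (M + 2) N (lft c N o1 o2 g) (mat4 (Lm (16/9 - 2 * c) (o1 / N) (o2 / N)).transpose (cn t x)) ^ (1/2 : ℝ) := by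
    intro t x ht
    apply pt_lower (by positivity) (by positivity)
    · have := inv_lft_ge hc hc1 hN1 (o1 := o1) (o2 := o2) hg.int ht x
      rwa [hAi] at this
    · have := Sq_lft hc hc1 hC hN ho1 ho2 hg t x
      rwa [hAi] at this
  have hli : Integrable (lft c N o1 o2 g) := integrable_mat4 hdet (integrable_tens hg.int (bet_int c N))
  have m1 := (continuous_inv hli).measurable
  have m2 := measurable_Sq Λ (M + 2) N hli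
  have mA : Measurable (fun p : E4 => mat4 (Lm (16/9 - 2 * c) (o1 / N) (o2 / N)).transpose p) := (mat4 _).continuous_of_finiteDimensional.measurable
  have mF : Measurable (fun z : E4 => ‖𝓕⁻ (lft c N o1 o2 g) z‖ₑ ^ 3 / Sq Λ (M + 2) N (lft c N o1 o2 g) z ^ (1/2 : ℝ)) :=
    (m1.enorm.pow_const 3).div (m2.pow_const _)
  rw [cov hdet, hAd]
  have l4 := lint4' (mF.comp mA)
  simp only [Function.comp_def] at l4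
  rw [l4]
  have hI : ∀ x : E3, ENNReal.ofReal (2 * (N:ℝ) ^ 2) * (ENNReal.ofReal ((Δ⁻¹ / 2) ^ 3 / (Δ⁻¹ * C) ^ (1/2 : ℝ)) * (‖𝓕⁻ g x‖ₑ ^ 3 / SqS M N o1 o2 g x ^ (1/2 : ℝ))) ≤
      ∫⁻ t : ℝ, ‖𝓕⁻ (lft c N o1 o2 g) (mat4 (Lm (16/9 - 2 * c) (o1 / N) (o2 / N)).transpose (cn t x))‖ₑ ^ 3 /
        Sq Λ (M + 2) N (lft c N o1 o2 g) (mat4 (Lm (16/9 - 2 * c) (o1 / N) (o2 / N)).transpose (cn t x)) ^ (1/2 : ℝ) := by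
    intro x
    have hv : volume (Icc (-((N:ℝ) ^ 2)) ((N:ℝ) ^ 2)) = ENNReal.ofReal (2 * (N:ℝ) ^ 2) := by
      rw [Real.volume_Icc]; congr 1; ring
    rw [← hv, mul_comm, ← setLIntegral_const]
    refine (setLIntegral_mono' measurableSet_Icc ?_).trans (setLIntegral_le_lintegral _ _)
    intro t ht
    exact e1 t x (abs_le.2 ht)
  calc ENNReal.ofReal ((N:ℝ) ^ 2 * ((1/4) * (Δ⁻¹) ^ 2 / (Δ⁻¹ * C) ^ (1/2 : ℝ))) * ∫⁻ x, ‖𝓕⁻ g x‖ₑ ^ 3 / SqS M N o1 o2 g x ^ (1/2 : ℝ) =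
      ENNReal.ofReal Δ * ∫⁻ x : E3, ENNReal.ofReal (2 * (N:ℝ) ^ 2) * (ENNReal.ofReal ((Δ⁻¹ / 2) ^ 3 / (Δ⁻¹ * C) ^ (1/2 : ℝ)) * (‖𝓕⁻ g x‖ₑ ^ 3 / SqS M N o1 o2 g x ^ (1/2 : ℝ))) := by
        rw [lintegral_const_mul' _ _ ENNReal.ofReal_ne_top, lintegral_const_mul' _ _ ENNReal.ofReal_ne_top, ← mul_assoc, ← mul_assoc,
          ← ENNReal.ofReal_mul hΔ0.le, ← ENNReal.ofReal_mul (by positivity)]
        congr 2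
        field_simp
        ring
    _ ≤ _ := by
        gcongr with x
        exact hI x

/-- the energy of the lift -/
theorem lft_sq {c : ℝ} (hc : 0 < c) (hc1 : c ≤ 1/100) {N : ℕ} (hN : 1 ≤ N) (o1 o2 : ℝ) {g : E3 → ℂ} (hg : Measurable g)
    {Δ : ℝ} (hΔ : Δ = (16/9 - 2 * c) ^ 4 / 2) :
    ∫⁻ ζ, ‖lft c N o1 o2 g ζ‖ₑ ^ 2 = ENNReal.ofReal (Δ⁻¹ * ((N:ℝ) ^ 2 / (2 * c))) * ∫⁻ x, ‖g x‖ₑ ^ 2 := by
  have hl : (0:ℝ) < 16/9 - 2 * c := by linarith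
  have hΔ0 : 0 < Δ := by rw [hΔ]; positivity
  have hAi : |(Lm (16/9 - 2 * c) (o1 / N) (o2 / N)).det⁻¹| = Δ⁻¹ := by
    rw [abs_inv, Lm_det, abs_neg, abs_of_pos (by positivity), hΔ]
  have h1 : ∫⁻ ζ, ‖lft c N o1 o2 g ζ‖ₑ ^ 2 = ENNReal.ofReal |(Lm (16/9 - 2 * c) (o1 / N) (o2 / N)).det⁻¹| *
      ((∫⁻ x, ‖g x‖ₑ ^ 2) * ∫⁻ t, ‖bet c N t‖ₑ ^ 2) := by
    rw [← lint_tens (hg.enorm.pow_const 2) ((bet_meas c N).enorm.pow_const 2), ← lintegral_mat4 (Lm_ne hl _ _)]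
    refine lintegral_congr fun ζ => ?_
    unfold lft tens
    rw [enorm_mul, mul_pow]
  rw [h1, bet_lint2 hc hN, hAi, ENNReal.ofReal_mul (by positivity)]
  ring

/-- [REF3] -/
theorem stREF3 : StREF3 := by
  intro ε M hε
  obtain ⟨K0, c0, Λ, C, hK0, hc0, hΛ, hC, h⟩ := stREF ε (M + 2) hε
  obtain ⟨C3, hC3, h3⟩ := int_phk Λ M hΛ
  obtain ⟨c, hc, hc1, hc4⟩ : ∃ c : ℝ, 0 < c ∧ c ≤ 1/100 ∧ 4 * c ≤ c0 := by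
    refine ⟨min (1/100) (c0/4), lt_min (by norm_num) (by linarith), min_le_left _ _, ?_⟩
    have := min_le_right (1/100) (c0/4)
    linarith
  obtain ⟨Δ, hΔ⟩ : ∃ Δ : ℝ, Δ = (16/9 - 2 * c) ^ 4 / 2 := ⟨_, rfl⟩
  have hl : (0:ℝ) < 16/9 - 2 * c := by linarith
  have hΔ0 : 0 < Δ := by rw [hΔ]; positivity
  have hd0 : 0 < Δ⁻¹ * (C3 + 1) := by positivity
  have hd1 : 0 < (Δ⁻¹ * (C3 + 1)) ^ (1/2 : ℝ) := Real.rpow_pos_of_pos hd0 _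
  have h3' : ∀ (N : ℕ) (k : ℤ × ℤ) (lam b1 b2 : ℝ) (x : E3), 1 ≤ N →
      k ∈ Vale.Agent.P117.K.grd N → 1 ≤ lam → 0 ≤ b1 → b1 ≤ 1 / (2 * N) → 0 ≤ b2 → b2 ≤ 1 / (2 * N) →
      ∫⁻ t : ℝ, phk Λ (M + 2) N k (mat4 (Lm lam b1 b2).transpose (cn t x)) ≤ ENNReal.ofReal (C3 + 1) * Phs M N k x := by
    intro N k lam b1 b2 x a1 a2 a3 a4 a5 a6 a7
    refine (h3 N k lam b1 b2 x a1 a2 a3 a4 a5 a6 a7).trans ?_
    gcongr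
    linarith
  refine ⟨K0, c, 2 / c * Δ * (Δ⁻¹ * (C3 + 1)) ^ (1/2 : ℝ) * C, hK0, hc, by positivity, ?_⟩
  intro n o1 o2 g hn ho1 ho2 hg
  have hN : 4 ≤ K0 ^ n := by
    calc 4 = 2 ^ 2 := by norm_num
      _ ≤ K0 ^ 2 := Nat.pow_le_pow_left hK0 2
      _ ≤ K0 ^ n := Nat.pow_le_pow_right (by omega) hn
  have hN1 : 1 ≤ K0 ^ n := by omega
  have hN0 : (0:ℝ) < ((K0 ^ n : ℕ):ℝ) := by exact_mod_cast hN1
  have hNc : ((K0 ^ n : ℕ):ℝ) = (K0:ℝ) ^ n := by push_cast; rfl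
  have A1 := lower hc hc1 (by linarith : 0 < C3 + 1) h3' hN ho1 ho2 hg hΔ
  have A2 : Amp c0 (((K0:ℝ) ^ n) ^ 2) (lft c (K0 ^ n) o1 o2 g) := by
    rw [← hNc]
    exact lft_amp hc hc1 hc4 hN ho1 ho2 hg
  have A3 := h n _ A2
  have A4 := lft_sq hc hc1 hN1 o1 o2 hg.meas hΔ
  rw [A4] at A3
  have A5 := A1.trans A3
  rw [← hNc]
  rw [← hNc] at A5
  generalize ((K0 ^ n : ℕ):ℝ) = N at *
  have hNe : 0 ≤ N ^ ε := by positivity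
  set q := (Δ⁻¹ * (C3 + 1)) ^ (1/2 : ℝ) with hq
  have hp : 0 < N ^ 2 * ((1/4) * (Δ⁻¹) ^ 2 / q) := by positivity
  rw [← ENNReal.mul_le_mul_iff_right (a := ENNReal.ofReal (N ^ 2 * ((1/4) * (Δ⁻¹) ^ 2 / q))) (by simpa using hp) ENNReal.ofReal_ne_top]
  refine A5.trans (le_of_eq ?_)
  rw [← mul_assoc, ← mul_assoc, ← ENNReal.ofReal_mul (by positivity), ← ENNReal.ofReal_mul (by positivity)]
  congr 2
  field_simp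
  ring

end Vale.Agent.P117.K.R3
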