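import Vale.Agent.P117.Bdl.B1

/-! # From restricted to strong estimates: truncations, levels, linearity, averaging over balls -/

open MeasureTheory Complex Set Filter
open scoped ENNReal NNReal Topology

set_option linter.all false

namespace Vale.Agent.P117.Rst

open Vale.Agent.P117 (Adm cv enorm_cv_le young_lintegral E3)

/-! ### Truncation -/

/-- truncation -/
noncomputable def trc (h : E3 → ℂ) (lam : ℝ) (x : E3) : ℂ := {x | ‖h x‖ ≤ lam}.indicator h x

theorem meas_lev {h : E3 → ℂ} (hm : Measurable h) (lam : ℝ) : MeasurableSet {x | ‖h x‖ ≤ lam} :=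
  measurableSet_le hm.norm measurable_const

theorem trc_adm {h : E3 → ℂ} (hh : Adm volume h) (lam : ℝ) : Adm volume (trc h lam) := by
  refine ⟨hh.meas.indicator (meas_lev hh.meas lam), hh.int.indicator (meas_lev hh.meas lam), ?_⟩
  obtain ⟨C, hC⟩ := hh.bdd
  refine ⟨C, fun x => ?_⟩
  refine (norm_indicator_le_norm_self _ _).trans (hC x)

theorem norm_trc_le (h : E3 → ℂ) (lam : ℝ) (x : E3) : ‖trc h lam x‖ ≤ ‖h x‖ := norm_indicator_le_norm_self _ _

theorem norm_trc_le' (h : E3 → ℂ) {lam : ℝ} (h0 : 0 ≤ lam) (x : E3) : ‖trc h lam x‖ ≤ lam := by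
  unfold trc
  by_cases hx : x ∈ {x | ‖h x‖ ≤ lam}
  · rw [indicator_of_mem hx]; exact hx
  · rw [indicator_of_notMem hx, norm_zero]; exact h0

/-- a band -/
def band (h : E3 → ℂ) (a b : ℝ) : Set E3 := {x | a < ‖h x‖ ∧ ‖h x‖ ≤ b}

theorem meas_band {h : E3 → ℂ} (hm : Measurable h) (a b : ℝ) : MeasurableSet (band h a b) :=
  (measurableSet_lt measurable_const hm.norm).inter (measurableSet_le hm.norm measurable_const)

theorem trc_sub {h : E3 → ℂ} {a b : ℝ} (hab : a ≤ b) (x : E3) :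
    trc h b x - trc h a x = (band h a b).indicator h x := by
  unfold trc
  by_cases h1 : ‖h x‖ ≤ a
  · have h2 : ‖h x‖ ≤ b := h1.trans hab
    rw [indicator_of_mem (show x ∈ {x | ‖h x‖ ≤ b} from h2), indicator_of_mem (show x ∈ {x | ‖h x‖ ≤ a} from h1),
      indicator_of_notMem (show x ∉ band h a b from fun hx => absurd hx.1 (not_lt.2 h1)), sub_self]
  · rw [indicator_of_notMem (show x ∉ {x | ‖h x‖ ≤ a} from h1), sub_zero]
    by_cases h2 : ‖h x‖ ≤ b
    · rw [indicator_of_mem (show x ∈ {x | ‖h x‖ ≤ b} from h2),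
        indicator_of_mem (show x ∈ band h a b from ⟨not_le.1 h1, h2⟩)]
    · rw [indicator_of_notMem (show x ∉ {x | ‖h x‖ ≤ b} from h2),
        indicator_of_notMem (show x ∉ band h a b from fun hx => h2 hx.2)]

theorem sub_trc (h : E3 → ℂ) (lam : ℝ) (x : E3) : h x - trc h lam x = {x | ‖h x‖ ≤ lam}ᶜ.indicator h x := by
  unfold trc
  by_cases hx : x ∈ {x | ‖h x‖ ≤ lam}
  · rw [indicator_of_mem hx, sub_self, indicator_of_notMem (by simpa using hx)]
  · rw [indicator_of_notMem hx, sub_zero, indicator_of_mem (show x ∈ {x | ‖h x‖ ≤ lam}ᶜ from hx)]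

/-- the top part -/
theorem top_le {h : E3 → ℂ} {lam p : ℝ} (hl : 0 < lam) (hp : 1 < p) :
    ∫⁻ x, ‖h x - trc h lam x‖ₑ ≤ ENNReal.ofReal (lam ^ (1 - p)) * ∫⁻ x, ‖h x‖ₑ ^ p := by
  rw [← lintegral_const_mul' _ _ ENNReal.ofReal_ne_top]
  apply lintegral_mono
  intro x
  simp only
  rw [sub_trc]
  by_cases hx : ‖h x‖ ≤ lam
  · rw [indicator_of_notMem (show x ∉ {x | ‖h x‖ ≤ lam}ᶜ from fun h' => h' hx)]
    simp
  · have hx' : lam < ‖h x‖ := not_le.1 hx
    have hx0 : 0 < ‖h x‖ := hl.trans hx'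
    rw [indicator_of_mem (show x ∈ {x | ‖h x‖ ≤ lam}ᶜ from hx), ← ofReal_norm,
      ENNReal.ofReal_rpow_of_nonneg (norm_nonneg _) (by linarith), ← ENNReal.ofReal_mul (by positivity)]
    apply ENNReal.ofReal_le_ofReal
    have h1 : ‖h x‖ ^ (1 - p) ≤ lam ^ (1 - p) := Real.rpow_le_rpow_of_nonpos hl hx'.le (by linarith)
    calc ‖h x‖ = ‖h x‖ ^ (1 - p) * ‖h x‖ ^ p := by
          rw [← Real.rpow_add hx0]
          have : 1 - p + p = 1 := by ring
          rw [this, Real.rpow_one]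
      _ ≤ _ := by gcongr

/-- measure of a band -/
theorem band_meas {h : E3 → ℂ} (hm : Measurable h) {a b p : ℝ} (ha : 0 ≤ a) (hp : 0 < p) :
    ENNReal.ofReal (a ^ p) * volume (band h a b) ≤ ∫⁻ x, ‖h x‖ₑ ^ p := by
  have h1 := mul_meas_ge_le_lintegral (μ := (volume : Measure E3)) (hm.enorm.pow_const p) (ENNReal.ofReal (a ^ p))
  refine le_trans ?_ h1
  gcongr
  intro x hx
  show ENNReal.ofReal (a ^ p) ≤ ‖h x‖ₑ ^ p
  rw [← ofReal_norm, ENNReal.ofReal_rpow_of_nonneg (norm_nonneg _) hp.le]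
  apply ENNReal.ofReal_le_ofReal
  exact Real.rpow_le_rpow ha hx.1.le hp.le

/-! ### Elementary inequalities -/

theorem sum_rpow_le {ι : Type*} (s : Finset ι) (x : ι → ℝ≥0∞) {q : ℝ} (hq : 0 < q) :
    (∑ i ∈ s, x i) ^ q ≤ (s.card : ℝ≥0∞) ^ q * ∑ i ∈ s, x i ^ q := by
  classical
  by_cases hs : s.Nonempty
  · obtain ⟨j, hj, hmax⟩ := s.exists_max_image x hs
    calc (∑ i ∈ s, x i) ^ q ≤ (∑ i ∈ s, x j) ^ q := by
          gcongr with i hi
          exact hmax i hi
      _ = ((s.card : ℝ≥0∞) * x j) ^ q := by rw [Finset.sum_const, nsmul_eq_mul]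
      _ = (s.card : ℝ≥0∞) ^ q * x j ^ q := ENNReal.mul_rpow_of_nonneg _ _ hq.le
      _ ≤ _ := by
          gcongr
          exact Finset.single_le_sum (f := fun i => x i ^ q) (fun _ _ => zero_le) hj
  · rw [Finset.not_nonempty_iff_eq_empty] at hs
    subst hs
    simp only [Finset.sum_empty, Finset.card_empty, Nat.cast_zero, mul_zero]
    rw [ENNReal.zero_rpow_of_pos hq]

theorem add_rpow_le' (a b : ℝ≥0∞) {q : ℝ} (hq : 0 ≤ q) : (a + b) ^ q ≤ 2 ^ q * (a ^ q + b ^ q) := by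
  rcases le_total a b with h | h
  · calc (a + b) ^ q ≤ (b + b) ^ q := by gcongr
      _ = 2 ^ q * b ^ q := by rw [← two_mul, ENNReal.mul_rpow_of_nonneg _ _ hq]
      _ ≤ _ := by gcongr; exact le_add_self
  · calc (a + b) ^ q ≤ (a + a) ^ q := by gcongr
      _ = 2 ^ q * a ^ q := by rw [← two_mul, ENNReal.mul_rpow_of_nonneg _ _ hq]
      _ ≤ _ := by gcongr; exact le_self_add

/-- number of levels -/
theorem lev (E : ℝ) (hE : 0 ≤ E) {ε : ℝ} (hε : 0 < ε) : ∃ C : ℝ, 1 ≤ C ∧ ∀ R : ℝ, 1 ≤ R → ∃ J : ℕ,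
    R ^ E ≤ (2:ℝ) ^ J ∧ ((J:ℝ) + 1) ≤ C * R ^ ε := by
  have hl2 : 0 < Real.log 2 := Real.log_pos (by norm_num)
  refine ⟨E / Real.log 2 * (1 / ε) + 2, by
    have : 0 ≤ E / Real.log 2 * (1 / ε) := by positivity
    linarith, ?_⟩
  intro R hR
  have hR0 : 0 < R := by linarith
  have hlR : 0 ≤ Real.log R := Real.log_nonneg hR
  refine ⟨⌈E * Real.log R / Real.log 2⌉₊, ?_, ?_⟩
  · have h1 : E * Real.log R / Real.log 2 ≤ (⌈E * Real.log R / Real.log 2⌉₊ : ℝ) := Nat.le_ceil _
    have h2 : (2:ℝ) ^ (E * Real.log R / Real.log 2) ≤ 2 ^ ((⌈E * Real.log R / Real.log 2⌉₊ : ℕ) : ℝ) :=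
      Real.rpow_le_rpow_of_exponent_le (by norm_num) h1
    rw [Real.rpow_natCast] at h2
    refine le_trans (le_of_eq ?_) h2
    rw [Real.rpow_def_of_pos hR0, Real.rpow_def_of_pos (by norm_num : (0:ℝ) < 2)]
    congr 1
    field_simp
  · have h1 : (⌈E * Real.log R / Real.log 2⌉₊ : ℝ) < E * Real.log R / Real.log 2 + 1 :=
      Nat.ceil_lt_add_one (by positivity)
    have h2 : Real.log R ≤ R ^ ε / ε := Real.log_le_rpow_div hR0.le hε
    have h3 : 1 ≤ R ^ ε := Real.one_le_rpow hR hε.le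
    have h4 : E * Real.log R / Real.log 2 ≤ E / Real.log 2 * (1 / ε) * R ^ ε := by
      calc E * Real.log R / Real.log 2 = E / Real.log 2 * Real.log R := by ring
        _ ≤ E / Real.log 2 * (R ^ ε / ε) := by gcongr
        _ = _ := by ring
    calc (⌈E * Real.log R / Real.log 2⌉₊ : ℝ) + 1 ≤ E / Real.log 2 * (1 / ε) * R ^ ε + 2 * R ^ ε := by
          linarith
      _ = _ := by ring

/-! ### The convolution operator -/

theorem meas_cv {K f : E3 → ℂ} (hK : Measurable K) (hf : Measurable f) : Measurable (cv K f) := by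
  have h : StronglyMeasurable (fun z : E3 × E3 => K (z.1 - z.2) * f z.2) :=
    ((hK.comp (measurable_fst.sub measurable_snd)).mul (hf.comp measurable_snd)).stronglyMeasurable
  exact h.integral_prod_right.measurable

theorem int_ker {K f : E3 → ℂ} (hK : Measurable K) {B : ℝ} (hB : ∀ x, ‖K x‖ ≤ B) (hf : Integrable f) (x : E3) :
    Integrable (fun y => K (x - y) * f y) := by
  refine hf.bdd_mul (c := B) ?_ ?_
  · exact (hK.comp (measurable_const.sub measurable_id)).aestronglyMeasurable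
  · filter_upwards with y
    exact hB _

theorem cv_add {K f g : E3 → ℂ} (hK : Measurable K) {B : ℝ} (hB : ∀ x, ‖K x‖ ≤ B) (hf : Integrable f)
    (hg : Integrable g) (x : E3) : cv K (fun y => f y + g y) x = cv K f x + cv K g x := by
  unfold cv
  rw [← integral_add (int_ker hK hB hf x) (int_ker hK hB hg x)]
  congr 1
  ext y
  ring

theorem cv_fsum {ι : Type*} (s : Finset ι) {K : E3 → ℂ} {f : ι → E3 → ℂ} (hK : Measurable K) {B : ℝ}
    (hB : ∀ x, ‖K x‖ ≤ B) (hf : ∀ i ∈ s, Integrable (f i)) (x : E3) :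
    cv K (fun y => ∑ i ∈ s, f i y) x = ∑ i ∈ s, cv K (f i) x := by
  unfold cv
  rw [← integral_finset_sum _ fun i hi => int_ker hK hB (hf i hi) x]
  congr 1
  ext y
  rw [Finset.mul_sum]

theorem cv_smul (K f : E3 → ℂ) (c : ℂ) (x : E3) : cv K (fun y => c * f y) x = c * cv K f x := by
  unfold cv
  rw [← integral_const_mul]
  congr 1
  ext y
  ring

theorem cv_trans (K f : E3 → ℂ) (y0 x : E3) : cv K (fun y => f (y + y0)) x = cv K f (x + y0) := by
  unfold cv
  rw [← integral_add_right_eq_self (fun y => K (x + y0 - y) * f y) y0]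
  congr 1
  ext y
  rw [show x + y0 - (y + y0) = x - y by abel]

/-- averaging over balls -/
theorem cover {F : E3 → ℝ≥0∞} (hF : Measurable F) (ρ : ℝ) :
    ∫⁻ y0 : E3, ∫⁻ x in Metric.ball y0 ρ, F x = (∫⁻ x, F x) * volume (Metric.ball (0:E3) ρ) := by
  have e1 : ∀ y0 : E3, ∫⁻ x in Metric.ball y0 ρ, F x =
      ∫⁻ x, F x * (Metric.ball (0:E3) ρ).indicator (fun _ => (1:ℝ≥0∞)) (x - y0) := by
    intro y0
    rw [← lintegral_indicator measurableSet_ball]
    congr 1
    ext x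
    by_cases h2 : x ∈ Metric.ball y0 ρ
    · have h3 : x - y0 ∈ Metric.ball (0:E3) ρ := by
        rw [mem_ball_zero_iff, ← dist_eq_norm]
        exact h2
      rw [indicator_of_mem h2, indicator_of_mem h3, mul_one]
    · have h3 : x - y0 ∉ Metric.ball (0:E3) ρ := by
        rw [mem_ball_zero_iff, ← dist_eq_norm]
        exact h2
      rw [indicator_of_notMem h2, indicator_of_notMem h3, mul_zero]
  simp_rw [e1]
  have hbm : Measurable (fun w : E3 × E3 => F w.2 *
      (Metric.ball (0:E3) ρ).indicator (fun _ => (1:ℝ≥0∞)) (w.2 - w.1)) := by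
    apply (hF.comp measurable_snd).mul
    exact (measurable_const.indicator measurableSet_ball).comp (measurable_snd.sub measurable_fst)
  rw [lintegral_lintegral_swap hbm.aemeasurable]
  have e2 : ∀ x : E3, ∫⁻ y0 : E3, F x * (Metric.ball (0:E3) ρ).indicator (fun _ => (1:ℝ≥0∞)) (x - y0) =
      F x * volume (Metric.ball (0:E3) ρ) := by
    intro x
    have hmz : Measurable (fun y0 : E3 => (Metric.ball (0:E3) ρ).indicator (fun _ => (1:ℝ≥0∞)) (x - y0)) :=
      (measurable_const.indicator measurableSet_ball).comp (measurable_const.sub measurable_id)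
    rw [lintegral_const_mul _ hmz]
    congr 1
    rw [lintegral_sub_left_eq_self (fun y => (Metric.ball (0:E3) ρ).indicator (fun _ => (1:ℝ≥0∞)) y) x,
      lintegral_indicator measurableSet_ball, setLIntegral_const, one_mul]
  simp_rw [e2]
  rw [lintegral_mul_const _ hF]

theorem vol_ball {ρ : ℝ} (hρ : 0 ≤ ρ) : volume (Metric.ball (0:E3) ρ) =
    ENNReal.ofReal ((volume (Metric.ball (0:E3) 1)).toReal * ρ ^ 3) := by
  have h4 := Measure.addHaar_ball (volume : Measure E3) (0:E3) hρ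
  simp only [finrank_euclideanSpace, Fintype.card_fin] at h4
  rw [h4, mul_comm (volume (Metric.ball (0:E3) 1)).toReal, ENNReal.ofReal_mul (by positivity),
    ENNReal.ofReal_toReal measure_ball_lt_top.ne]

theorem v_pos : 0 < (volume (Metric.ball (0:E3) 1)).toReal :=
  ENNReal.toReal_pos (Metric.measure_ball_pos _ _ one_pos).ne' measure_ball_lt_top.ne

end Vale.Agent.P117.Rst
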