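import Vale.Agent.P117.K.RstA

/-! # From restricted to strong estimates: functions supported in a ball -/

open MeasureTheory Complex Set Filter
open scoped ENNReal NNReal Topology

set_option linter.all false

namespace Vale.Agent.P117.Rst

open Vale.Agent.P117 (Adm cv enorm_cv_le young_lintegral E3)

/-- local energy of the image -/
noncomputable def D (p R : ℝ) (K g : E3 → ℂ) : ℝ≥0∞ := ∫⁻ x in Metric.ball (0:E3) R, ‖cv K g x‖ₑ ^ p

/-- local restricted estimate: data bounded by the indicator of a subset of the ball of radius `ρ`, image measured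
on the ball of radius `R` -/
def LocR (p R ρ : ℝ) (A : ℝ≥0∞) (K : E3 → ℂ) : Prop :=
  ∀ (f : E3 → ℂ) (E : Set E3), Measurable f → MeasurableSet E → E ⊆ Metric.ball 0 ρ →
    (∀ x, ‖f x‖ ≤ E.indicator (fun _ => (1:ℝ)) x) → ∫⁻ x in Metric.ball (0:E3) R, ‖cv K f x‖ₑ ^ p ≤ A * volume E

theorem D_add {p R : ℝ} (hp : 0 ≤ p) {K f g : E3 → ℂ} (hK : Measurable K) {B : ℝ} (hB : ∀ x, ‖K x‖ ≤ B)
    (hfm : Measurable f) (hf : Integrable f) (hg : Integrable g) :
    D p R K (fun y => f y + g y) ≤ 2 ^ p * (D p R K f + D p R K g) := by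
  unfold D
  rw [← lintegral_add_left ((meas_cv hK hfm).enorm.pow_const p), ← lintegral_const_mul' _ _ (by simp [hp])]
  apply lintegral_mono
  intro x
  simp only
  rw [cv_add hK hB hf hg]
  calc ‖cv K f x + cv K g x‖ₑ ^ p ≤ (‖cv K f x‖ₑ + ‖cv K g x‖ₑ) ^ p := by
        gcongr
        exact enorm_add_le _ _
    _ ≤ _ := add_rpow_le' _ _ hp

theorem D_sum {p R : ℝ} (hp : 0 < p) {ι : Type*} (s : Finset ι) {K : E3 → ℂ} {f : ι → E3 → ℂ} (hK : Measurable K)
    {B : ℝ} (hB : ∀ x, ‖K x‖ ≤ B) (hfm : ∀ i ∈ s, Measurable (f i)) (hf : ∀ i ∈ s, Integrable (f i)) :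
    D p R K (fun y => ∑ i ∈ s, f i y) ≤ (s.card : ℝ≥0∞) ^ p * ∑ i ∈ s, D p R K (f i) := by
  unfold D
  rw [← lintegral_finset_sum' _ fun i hi => ((meas_cv hK (hfm i hi)).enorm.pow_const p).aemeasurable,
    ← lintegral_const_mul' _ _ (by
      apply ENNReal.rpow_ne_top_of_nonneg hp.le
      exact ENNReal.natCast_ne_top _)]
  apply lintegral_mono
  intro x
  simp only
  rw [cv_fsum s hK hB hf]
  calc ‖∑ i ∈ s, cv K (f i) x‖ₑ ^ p ≤ (∑ i ∈ s, ‖cv K (f i) x‖ₑ) ^ p := by
        gcongr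
        exact enorm_sum_le _ _
    _ ≤ _ := sum_rpow_le s _ hp

/-- the restricted estimate at height `lam` -/
theorem loc_scaled {p R ρ : ℝ} (hp : 0 < p) {A : ℝ≥0∞} {K : E3 → ℂ} (h : LocR p R ρ A K) {lam : ℝ} (hl : 0 < lam)
    {g : E3 → ℂ} {E : Set E3} (hg : Measurable g) (hE : MeasurableSet E) (hEs : E ⊆ Metric.ball 0 ρ)
    (hb : ∀ x, ‖g x‖ ≤ E.indicator (fun _ => lam) x) :
    D p R K g ≤ ENNReal.ofReal (lam ^ p) * (A * volume E) := by
  have hl' : (lam : ℂ) ≠ 0 := by exact_mod_cast hl.ne'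
  have h1 := h (fun x => ((lam:ℂ))⁻¹ * g x) E (hg.const_mul _) hE hEs (by
    intro x
    rw [norm_mul, norm_inv, Complex.norm_real, Real.norm_of_nonneg hl.le]
    have := hb x
    by_cases hx : x ∈ E
    · rw [indicator_of_mem hx] at this ⊢
      rw [inv_mul_le_iff₀ hl, mul_one]
      exact this
    · rw [indicator_of_notMem hx] at this ⊢
      have h0 : ‖g x‖ = 0 := le_antisymm this (norm_nonneg _)
      rw [h0, mul_zero])
  have e : ∀ x, ‖cv K g x‖ₑ ^ p = ENNReal.ofReal (lam ^ p) * ‖cv K (fun x => ((lam:ℂ))⁻¹ * g x) x‖ₑ ^ p := by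
    intro x
    rw [cv_smul, enorm_mul, ENNReal.mul_rpow_of_nonneg _ _ hp.le, ← mul_assoc]
    have : ENNReal.ofReal (lam ^ p) * ‖((lam:ℂ))⁻¹‖ₑ ^ p = 1 := by
      rw [← ofReal_norm, norm_inv, Complex.norm_real, Real.norm_of_nonneg hl.le,
        ENNReal.ofReal_rpow_of_nonneg (by positivity) hp.le, ← ENNReal.ofReal_mul (by positivity),
        ← Real.mul_rpow hl.le (by positivity), mul_inv_cancel₀ hl.ne', Real.one_rpow, ENNReal.ofReal_one]
    rw [this, one_mul]
  unfold D
  simp_rw [e]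
  rw [lintegral_const_mul' _ _ ENNReal.ofReal_ne_top]
  gcongr

theorem lp_fin {h : E3 → ℂ} (hh : Adm volume h) {p : ℝ} (hp : 1 ≤ p) : ∫⁻ x, ‖h x‖ₑ ^ p < ⊤ := by
  have h1 : (1:ℝ≥0∞) ≤ ENNReal.ofReal p := by
    rw [← ENNReal.ofReal_one]
    exact ENNReal.ofReal_le_ofReal hp
  have h2 := (hh.memLp h1).2
  rw [eLpNorm_lt_top_iff_lintegral_rpow_enorm_lt_top (by
    rw [ne_eq, ENNReal.ofReal_eq_zero, not_le]
    linarith) ENNReal.ofReal_ne_top, ENNReal.toReal_ofReal (by linarith)] at h2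
  exact h2

/-- strong estimate for data supported in the ball -/
theorem ball_strong {p R ρ : ℝ} (hp : 1 < p) (hR : 0 < R) (hρ : 0 < ρ) {A : ℝ≥0∞} {K : E3 → ℂ} (hK : Measurable K)
    {B : ℝ} (hB0 : 0 ≤ B) (hB : ∀ x, ‖K x‖ ≤ B) (hloc : LocR p R ρ A K) (J : ℕ) {h : E3 → ℂ} (hh : Adm volume h)
    (hs : ∀ x, h x ≠ 0 → x ∈ Metric.ball (0:E3) ρ) :
    D p R K h ≤ ENNReal.ofReal (16 ^ p * ((J:ℝ) + 1) ^ (p + 1)) *
      (A + ENNReal.ofReal ((volume (Metric.ball (0:E3) 1)).toReal * R ^ 3 * B ^ p *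
        ((volume (Metric.ball (0:E3) 1)).toReal * ρ ^ 3) ^ (p - 1) * ((2:ℝ) ^ J) ^ (-((p - 1) * p)))) *
      ∫⁻ x, ‖h x‖ₑ ^ p := by
  have hp0 : 0 < p := by linarith
  set v := (volume (Metric.ball (0:E3) 1)).toReal with hv
  have hv0 : 0 < v := v_pos
  set I := ∫⁻ x, ‖h x‖ₑ ^ p with hI
  have hIf : I ≠ ⊤ := (lp_fin hh hp.le).ne
  by_cases hI0 : I = 0
  · -- the data vanishes
    have h1 : (fun x => ‖h x‖ₑ ^ p) =ᵐ[volume] 0 := (lintegral_eq_zero_iff (hh.meas.enorm.pow_const p)).1 hI0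
    have h2 : h =ᵐ[volume] 0 := by
      filter_upwards [h1] with x hx
      have hx' : ‖h x‖ₑ ^ p = 0 := hx
      rw [ENNReal.rpow_eq_zero_iff_of_pos hp0, enorm_eq_zero] at hx'
      exact hx'
    have h3 : ∀ x, cv K h x = 0 := by
      intro x
      unfold cv
      apply integral_eq_zero_of_ae
      filter_upwards [h2] with y hy
      rw [hy]
      simp
    rw [hI0, mul_zero]
    unfold D
    simp_rw [h3]
    simp [hp0]
  set i := I.toReal with hi
  have hi0 : 0 < i := ENNReal.toReal_pos hI0 hIf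
  have hIi : I = ENNReal.ofReal i := (ENNReal.ofReal_toReal hIf).symm
  set vB := v * ρ ^ 3 with hvB
  have hvB0 : 0 < vB := by positivity
  set lam := (i / vB) ^ (1 / p) with hlam
  have hlam0 : 0 < lam := by positivity
  have hlamp : lam ^ p = i / vB := by
    rw [hlam, ← Real.rpow_mul (by positivity), one_div, inv_mul_cancel₀ hp0.ne', Real.rpow_one]
  -- heights
  set t : ℕ → ℝ := fun j => 2 ^ j * lam with ht
  have ht0 : ∀ j, 0 < t j := fun j => by positivity
  have htm : ∀ j, t j ≤ t (j + 1) := fun j => by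
    simp only [ht, pow_succ]
    have : 0 < 2 ^ j * lam := by positivity
    nlinarith
  set low := trc h lam with hlow
  set mid : ℕ → E3 → ℂ := fun j => (band h (t j) (t (j + 1))).indicator h with hmid
  set high : E3 → ℂ := fun x => h x - trc h (t J) x with hhigh
  have hdec : h = fun x => low x + ((∑ j ∈ Finset.range J, mid j x) + high x) := by
    ext x
    have h1 : ∑ j ∈ Finset.range J, mid j x = trc h (t J) x - trc h (t 0) x := by
      rw [← Finset.sum_range_sub (fun j => trc h (t j) x) J]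
      apply Finset.sum_congr rfl
      intro j _
      exact (trc_sub (htm j) x).symm
    have h2 : t 0 = lam := by simp [ht]
    rw [h1, h2]
    simp only [hhigh, hlow]
    ring
  have alow : Adm volume low := trc_adm hh lam
  have amid : ∀ j, Adm volume (mid j) := fun j => hh.indicator (meas_band hh.meas _ _)
  have ahigh : Adm volume high := hh.sub (trc_adm hh (t J))
  have asum : Adm volume (fun x => ∑ j ∈ Finset.range J, mid j x) := by
    have : (fun x => ∑ j ∈ Finset.range J, mid j x) = ∑ j ∈ Finset.range J, mid j := by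
      ext x; simp
    rw [this]
    exact Adm.finsum _ fun j _ => amid j
  have a2 : Adm volume (fun x => (∑ j ∈ Finset.range J, mid j x) + high x) := asum.add ahigh
  -- low
  have dlow : D p R K low ≤ A * I := by
    have h1 := loc_scaled hp0 hloc hlam0 (g := low) (E := Metric.ball 0 ρ) alow.meas measurableSet_ball subset_rfl (by
      intro x
      by_cases hx : x ∈ Metric.ball (0:E3) ρ
      · rw [indicator_of_mem hx]
        exact norm_trc_le' h hlam0.le x
      · rw [indicator_of_notMem hx]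
        have h0 : h x = 0 := by
          by_contra hne
          exact hx (hs x hne)
        refine (norm_trc_le h lam x).trans ?_
        rw [h0, norm_zero])
    refine h1.trans_eq ?_
    rw [vol_ball hρ.le, ← hv, ← hvB, hlamp, hIi, mul_left_comm, ← ENNReal.ofReal_mul (by positivity)]
    congr 2
    field_simp
  -- middle
  have dmid : ∀ j, D p R K (mid j) ≤ ENNReal.ofReal (2 ^ p) * (A * I) := by
    intro j
    set E := band h (t j) (t (j + 1)) with hE
    have hEs : E ⊆ Metric.ball (0:E3) ρ := by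
      intro x hx
      apply hs x
      intro h0
      have := hx.1
      rw [h0, norm_zero] at this
      exact absurd this (not_lt.2 (ht0 j).le)
    have h1 := loc_scaled hp0 hloc (ht0 (j + 1)) (g := mid j) (E := E) (amid j).meas (meas_band hh.meas _ _) hEs (by
      intro x
      simp only [hmid]
      by_cases hx : x ∈ E
      · rw [indicator_of_mem hx, indicator_of_mem hx]
        exact hx.2
      · rw [indicator_of_notMem hx, indicator_of_notMem hx, norm_zero])
    refine h1.trans ?_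
    have h2 := band_meas hh.meas (a := t j) (b := t (j + 1)) (ht0 j).le hp0
    have e3 : t (j + 1) ^ p = 2 ^ p * t j ^ p := by
      rw [← Real.mul_rpow (by norm_num) (ht0 j).le]
      congr 1
      simp only [ht, pow_succ]
      ring
    rw [e3, ENNReal.ofReal_mul (by positivity)]
    calc ENNReal.ofReal (2 ^ p) * ENNReal.ofReal (t j ^ p) * (A * volume E) =
          ENNReal.ofReal (2 ^ p) * (A * (ENNReal.ofReal (t j ^ p) * volume E)) := by ring
      _ ≤ _ := by gcongr
  -- high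
  have dhigh : D p R K high ≤ ENNReal.ofReal (v * R ^ 3 * B ^ p * vB ^ (p - 1) * ((2:ℝ) ^ J) ^ (-((p - 1) * p))) * I := by
    have h1 : ∀ x, ‖cv K high x‖ₑ ^ p ≤ ENNReal.ofReal ((B * (t J ^ (1 - p) * i)) ^ p) := by
      intro x
      rw [← ENNReal.ofReal_rpow_of_nonneg (by positivity) hp0.le]
      gcongr
      calc ‖cv K high x‖ₑ ≤ ∫⁻ y, ‖K (x - y)‖ₑ * ‖high y‖ₑ := enorm_cv_le K high x
        _ ≤ ∫⁻ y, ENNReal.ofReal B * ‖high y‖ₑ := by
            apply lintegral_mono
            intro y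
            simp only
            gcongr
            rw [← ofReal_norm]
            exact ENNReal.ofReal_le_ofReal (hB _)
        _ = ENNReal.ofReal B * ∫⁻ y, ‖high y‖ₑ := lintegral_const_mul' _ _ ENNReal.ofReal_ne_top
        _ ≤ ENNReal.ofReal B * (ENNReal.ofReal (t J ^ (1 - p)) * I) := by
            gcongr
            exact top_le (ht0 J) hp
        _ = _ := by
            rw [hIi, ← ENNReal.ofReal_mul (by positivity), ← ENNReal.ofReal_mul hB0]
    have h2 : D p R K high ≤ ENNReal.ofReal ((B * (t J ^ (1 - p) * i)) ^ p) * ENNReal.ofReal (v * R ^ 3) := by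
      unfold D
      calc ∫⁻ x in Metric.ball (0:E3) R, ‖cv K high x‖ₑ ^ p ≤
            ∫⁻ x in Metric.ball (0:E3) R, ENNReal.ofReal ((B * (t J ^ (1 - p) * i)) ^ p) := lintegral_mono h1
        _ = _ := by rw [setLIntegral_const, vol_ball hR.le]
    refine h2.trans_eq ?_
    rw [hIi, ← ENNReal.ofReal_mul (by positivity), ← ENNReal.ofReal_mul (by positivity)]
    congr 1
    have e1 : (t J ^ (1 - p)) ^ p = ((2:ℝ) ^ J) ^ (-((p - 1) * p)) * (i / vB) ^ (1 - p) := by
      rw [← hlamp]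
      simp only [ht]
      rw [Real.mul_rpow (by positivity) hlam0.le, Real.mul_rpow (by positivity) (by positivity),
        ← Real.rpow_mul (by positivity), ← Real.rpow_mul hlam0.le, ← Real.rpow_mul hlam0.le]
      congr 2 <;> ring
    have e2 : (i / vB) ^ (1 - p) * i ^ p = vB ^ (p - 1) * i := by
      rw [Real.div_rpow hi0.le hvB0.le]
      have e3 : i ^ (1 - p) * i ^ p = i := by
        rw [← Real.rpow_add hi0, show 1 - p + p = 1 by ring, Real.rpow_one]
      have e4 : (vB ^ (1 - p))⁻¹ = vB ^ (p - 1) := by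
        rw [← Real.rpow_neg hvB0.le]
        congr 1
        ring
      rw [div_eq_mul_inv, e4]
      calc i ^ (1 - p) * vB ^ (p - 1) * i ^ p = vB ^ (p - 1) * (i ^ (1 - p) * i ^ p) := by ring
        _ = _ := by rw [e3]
    rw [Real.mul_rpow hB0 (by positivity), Real.mul_rpow (by positivity) hi0.le, e1]
    calc B ^ p * (((2:ℝ) ^ J) ^ (-((p - 1) * p)) * (i / vB) ^ (1 - p) * i ^ p) * (v * R ^ 3) =
          v * R ^ 3 * B ^ p * ((2:ℝ) ^ J) ^ (-((p - 1) * p)) * ((i / vB) ^ (1 - p) * i ^ p) := by ring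
      _ = _ := by rw [e2]; ring
  set Tl := ENNReal.ofReal (v * R ^ 3 * B ^ p * vB ^ (p - 1) * ((2:ℝ) ^ J) ^ (-((p - 1) * p))) with hTl
  -- assembly
  have d1 : D p R K h ≤ 2 ^ p * (D p R K low + 2 ^ p * (D p R K (fun x => ∑ j ∈ Finset.range J, mid j x) + D p R K high)) := by
    calc D p R K h = D p R K (fun x => low x + ((∑ j ∈ Finset.range J, mid j x) + high x)) := by rw [← hdec]
      _ ≤ 2 ^ p * (D p R K low + D p R K (fun x => (∑ j ∈ Finset.range J, mid j x) + high x)) :=
          D_add hp0.le hK hB alow.meas alow.int a2.int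
      _ ≤ _ := by
          gcongr
          exact D_add hp0.le hK hB asum.meas asum.int ahigh.int
  have d2 : D p R K (fun x => ∑ j ∈ Finset.range J, mid j x) ≤ (J:ℝ≥0∞) ^ p * (J * (ENNReal.ofReal (2 ^ p) * (A * I))) := by
    refine (D_sum hp0 (Finset.range J) hK hB (fun j _ => (amid j).meas) (fun j _ => (amid j).int)).trans ?_
    rw [Finset.card_range]
    gcongr
    calc ∑ j ∈ Finset.range J, D p R K (mid j) ≤ ∑ j ∈ Finset.range J, ENNReal.ofReal (2 ^ p) * (A * I) :=
          Finset.sum_le_sum fun j _ => dmid j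
      _ = _ := by rw [Finset.sum_const, Finset.card_range, nsmul_eq_mul]
  have e2p : (2:ℝ≥0∞) ^ p = ENNReal.ofReal (2 ^ p) := by
    rw [← ENNReal.ofReal_rpow_of_nonneg (by norm_num) hp0.le, ENNReal.ofReal_ofNat]
  have eJ : (J:ℝ≥0∞) ^ p * J ≤ ENNReal.ofReal (((J:ℝ) + 1) ^ (p + 1)) := by
    calc (J:ℝ≥0∞) ^ p * J = ENNReal.ofReal ((J:ℝ) ^ p * J) := by
          rw [ENNReal.ofReal_mul (by positivity), ← ENNReal.ofReal_rpow_of_nonneg (by positivity) hp0.le,
            ENNReal.ofReal_natCast]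
      _ ≤ _ := by
          apply ENNReal.ofReal_le_ofReal
          rw [Real.rpow_add (by positivity), Real.rpow_one]
          gcongr <;> linarith
  have e1J : (1:ℝ≥0∞) ≤ ENNReal.ofReal (((J:ℝ) + 1) ^ (p + 1)) := by
    rw [← ENNReal.ofReal_one]
    apply ENNReal.ofReal_le_ofReal
    apply Real.one_le_rpow _ (by linarith)
    have : (0:ℝ) ≤ J := Nat.cast_nonneg _
    linarith
  set X := ENNReal.ofReal (((J:ℝ) + 1) ^ (p + 1)) with hX
  set P := ENNReal.ofReal (2 ^ p) with hP
  have eP1 : 1 ≤ P := by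
    rw [hP, ← ENNReal.ofReal_one]
    exact ENNReal.ofReal_le_ofReal (Real.one_le_rpow (by norm_num) hp0.le)
  have e16 : ENNReal.ofReal (16 ^ p * ((J:ℝ) + 1) ^ (p + 1)) = P * P * P * P * X := by
    rw [hP, hX, ← ENNReal.ofReal_mul (by positivity), ← ENNReal.ofReal_mul (by positivity),
      ← ENNReal.ofReal_mul (by positivity), ← ENNReal.ofReal_mul (by positivity), ← Real.mul_rpow (by norm_num) (by norm_num),
      ← Real.mul_rpow (by norm_num) (by norm_num), ← Real.mul_rpow (by norm_num) (by norm_num)]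
    norm_num
  rw [e16]
  rw [e2p] at d1
  have hmul : ∀ Z : ℝ≥0∞, Z ≤ X * Z := fun Z => le_mul_of_one_le_left (zero_le) e1J
  have hPm : ∀ Z : ℝ≥0∞, Z ≤ P * Z := fun Z => le_mul_of_one_le_left (zero_le) eP1
  have h2P : (2:ℝ≥0∞) ≤ P := by
    rw [hP, ← ENNReal.ofReal_ofNat]
    apply ENNReal.ofReal_le_ofReal
    calc (2:ℝ) = 2 ^ (1:ℝ) := by norm_num
      _ ≤ 2 ^ p := Real.rpow_le_rpow_of_exponent_le (by norm_num) hp.le
  calc D p R K h ≤ P * (D p R K low + P * (D p R K (fun x => ∑ j ∈ Finset.range J, mid j x) + D p R K high)) := d1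
    _ ≤ P * (A * I + P * ((J:ℝ≥0∞) ^ p * (J * (P * (A * I))) + Tl * I)) := by gcongr
    _ = P * (A * I) + P * (P * (P * ((J:ℝ≥0∞) ^ p * J * (A * I)))) + P * (P * (Tl * I)) := by ring
    _ ≤ P * (P * (P * (X * (A * I)))) + P * (P * (P * (X * (A * I)))) + P * (P * (P * (P * (X * (Tl * I))))) := by
        refine add_le_add (add_le_add ?_ ?_) ?_
        · refine mul_le_mul' le_rfl ?_
          exact (hmul _).trans ((hPm _).trans (hPm _))
        · refine mul_le_mul' le_rfl (mul_le_mul' le_rfl (mul_le_mul' le_rfl ?_))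
          exact mul_le_mul' eJ le_rfl
        · refine mul_le_mul' le_rfl (mul_le_mul' le_rfl ?_)
          exact (hmul _).trans ((hPm _).trans (hPm _))
    _ = 2 * (P * (P * (P * (X * (A * I))))) + P * (P * (P * (P * (X * (Tl * I))))) := by ring
    _ ≤ P * (P * (P * (P * (X * (A * I))))) + P * (P * (P * (P * (X * (Tl * I))))) := by
        refine add_le_add (mul_le_mul' h2P le_rfl) le_rfl
    _ = _ := by ring

end Vale.Agent.P117.Rst
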