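import Vale.Agent.P117.K.RstB

/-! # From local restricted to global strong estimates for convolution operators -/

open MeasureTheory Complex Set Filter
open scoped ENNReal NNReal Topology

set_option linter.all false

namespace Vale.Agent.P117.Rst

open Vale.Agent.P117 (Adm cv enorm_cv_le young_lintegral E3)

theorem lintegral_smul3 {Λ : ℝ} (hΛ : 0 < Λ) (F : E3 → ℝ≥0∞) :
    ∫⁻ x : E3, F (Λ • x) = ENNReal.ofReal ((Λ ^ 3)⁻¹) * ∫⁻ x, F x := by
  have h1 := Measure.map_addHaar_smul (volume : Measure E3) hΛ.ne'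
  simp only [finrank_euclideanSpace, Fintype.card_fin] at h1
  have h2 : ∫⁻ x : E3, F (Λ • x) = ∫⁻ x, F x ∂(Measure.map (Λ • ·) (volume : Measure E3)) :=
    (MeasureTheory.lintegral_map_equiv F (Homeomorph.smulOfNeZero Λ hΛ.ne').toMeasurableEquiv).symm
  rw [h2, h1, lintegral_smul_measure, abs_of_pos (by positivity)]
  rfl

/-- localization weight -/
noncomputable def wl (ρ : ℝ) (x : E3) : ℝ := ((1 + ‖x‖ / ρ) ^ 4)⁻¹

theorem cont_wl {ρ : ℝ} (hρ : 0 < ρ) : Continuous (wl ρ) := by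
  unfold wl
  apply Continuous.inv₀ (by fun_prop)
  intro x
  positivity

theorem wl_int : ∃ C4 : ℝ, 1 ≤ C4 ∧ ∀ ρ : ℝ, 0 < ρ → ∫⁻ x : E3, ENNReal.ofReal (wl ρ x) ≤ ENNReal.ofReal (C4 * ρ ^ 3) := by
  have hI : Integrable (fun x : E3 => (1 + ‖x‖) ^ (-(4 : ℝ))) := by
    apply integrable_one_add_norm
    simp only [finrank_euclideanSpace, Fintype.card_fin, Nat.cast_ofNat]
    norm_num
  refine ⟨max 1 (∫ x : E3, (1 + ‖x‖) ^ (-(4 : ℝ))), le_max_left _ _, ?_⟩
  intro ρ hρ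
  have h1 := lintegral_smul3 (inv_pos.2 hρ) (fun x : E3 => ENNReal.ofReal ((1 + ‖x‖) ^ (-(4:ℝ))))
  have h2 : ∀ x : E3, ENNReal.ofReal (wl ρ x) = ENNReal.ofReal ((1 + ‖ρ⁻¹ • x‖) ^ (-(4:ℝ))) := by
    intro x
    unfold wl
    rw [norm_smul, Real.norm_of_nonneg (inv_nonneg.2 hρ.le), div_eq_inv_mul, Real.rpow_neg (by positivity)]
    norm_cast
  simp_rw [h2]
  rw [h1, ← ofReal_integral_eq_lintegral_ofReal hI (Eventually.of_forall fun x => by positivity),
    ← ENNReal.ofReal_mul (by positivity)]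
  apply ENNReal.ofReal_le_ofReal
  rw [inv_pow, inv_inv, mul_comm]
  gcongr
  exact le_max_right _ _

/-- decay of the kernel far away -/
theorem ker_far {R δ B : ℝ} {M : ℕ} (hR : 1 ≤ R) (hδ : 0 < δ) (hM : 4 ≤ M) (hB : 0 ≤ B) {K : E3 → ℂ}
    (hK : ∀ x, ‖K x‖ ≤ B * ((1 + ‖x‖ / R) ^ M)⁻¹) {x y : E3} (hx : ‖x‖ < R) (hy : 2 * R ^ (1 + δ) ≤ ‖y‖) :
    ‖K (x - y)‖ ≤ B * R ^ (-(δ * ((M:ℝ) - 4))) * wl R (x - y) := by
  have hR0 : 0 < R := by linarith
  have h1 : R ^ (1 + δ) ≤ ‖x - y‖ := by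
    have h2 : ‖y‖ - ‖x‖ ≤ ‖x - y‖ := by
      rw [norm_sub_rev]
      exact norm_sub_norm_le y x
    have h3 : R ≤ R ^ (1 + δ) := by
      calc R = R ^ (1:ℝ) := (Real.rpow_one R).symm
        _ ≤ _ := Real.rpow_le_rpow_of_exponent_le hR (by linarith)
    linarith
  have h4 : R ^ δ ≤ 1 + ‖x - y‖ / R := by
    have h5 : R ^ δ ≤ ‖x - y‖ / R := by
      rw [le_div_iff₀ hR0]
      calc R ^ δ * R = R ^ (1 + δ) := by
            rw [Real.rpow_add hR0, Real.rpow_one, mul_comm]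
        _ ≤ _ := h1
    linarith
  set u := 1 + ‖x - y‖ / R with hu
  have hu0 : 0 < u := by positivity
  refine (hK (x - y)).trans ?_
  rw [mul_assoc]
  refine mul_le_mul_of_nonneg_left ?_ hB
  unfold wl
  rw [← hu]
  have e : u ^ M = u ^ (M - 4) * u ^ 4 := by
    rw [← pow_add]
    congr 1
    omega
  rw [e, mul_inv]
  refine mul_le_mul_of_nonneg_right ?_ (by positivity)
  have h6 : R ^ (δ * ((M:ℝ) - 4)) ≤ u ^ (M - 4) := by
    calc R ^ (δ * ((M:ℝ) - 4)) = (R ^ δ) ^ (M - 4) := by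
          rw [← Real.rpow_natCast, ← Real.rpow_mul hR0.le]
          congr 1
          push_cast [Nat.cast_sub hM]
          ring
      _ ≤ _ := by gcongr
  rw [Real.rpow_neg hR0.le]
  exact inv_anti₀ (by positivity) h6

/-- the local energy of a translated function -/
theorem D_trans (p R : ℝ) {K f : E3 → ℂ} (y0 : E3) :
    D p R K (fun y => f (y + y0)) = ∫⁻ x in Metric.ball y0 R, ‖cv K f x‖ₑ ^ p := by
  unfold D
  simp_rw [cv_trans]
  rw [← lintegral_indicator measurableSet_ball, ← lintegral_indicator measurableSet_ball,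
    ← lintegral_add_right_eq_self (fun x => (Metric.ball y0 R).indicator (fun x => ‖cv K f x‖ₑ ^ p) x) y0]
  congr 1
  ext x
  by_cases hx : x ∈ Metric.ball (0:E3) R
  · have h2 : x + y0 ∈ Metric.ball y0 R := by
      rw [mem_ball_iff_norm]
      rw [mem_ball_zero_iff] at hx
      simpa using hx
    rw [indicator_of_mem hx, indicator_of_mem h2]
  · have h2 : x + y0 ∉ Metric.ball y0 R := by
      rw [mem_ball_iff_norm]
      rw [mem_ball_zero_iff] at hx
      simpa using hx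
    rw [indicator_of_notMem hx, indicator_of_notMem h2]

theorem meas_avg {F : E3 → ℝ≥0∞} (hF : Measurable F) (R : ℝ) :
    Measurable (fun y0 : E3 => ∫⁻ x in Metric.ball y0 R, F x) := by
  have e1 : ∀ y0 : E3, ∫⁻ x in Metric.ball y0 R, F x =
      ∫⁻ x, F x * (Metric.ball (0:E3) R).indicator (fun _ => (1:ℝ≥0∞)) (x - y0) := by
    intro y0
    rw [← lintegral_indicator measurableSet_ball]
    congr 1
    ext x
    by_cases h2 : x ∈ Metric.ball y0 R
    · have h3 : x - y0 ∈ Metric.ball (0:E3) R := by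
        rw [mem_ball_zero_iff, ← dist_eq_norm]
        exact h2
      rw [indicator_of_mem h2, indicator_of_mem h3, mul_one]
    · have h3 : x - y0 ∉ Metric.ball (0:E3) R := by
        rw [mem_ball_zero_iff, ← dist_eq_norm]
        exact h2
      rw [indicator_of_notMem h2, indicator_of_notMem h3, mul_zero]
  simp_rw [e1]
  have hbm : Measurable (fun w : E3 × E3 => F w.2 *
      (Metric.ball (0:E3) R).indicator (fun _ => (1:ℝ≥0∞)) (w.2 - w.1)) := by
    apply (hF.comp measurable_snd).mul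
    exact (measurable_const.indicator measurableSet_ball).comp (measurable_snd.sub measurable_fst)
  exact hbm.lintegral_prod_right'

/-- the global step -/
theorem glob {p R δ B : ℝ} {M : ℕ} (hp : 1 < p) (hR : 1 ≤ R) (hδ : 0 < δ) (hM : 4 ≤ M) (hB : 0 ≤ B) {K : E3 → ℂ}
    (hKm : Measurable K) (hK : ∀ x, ‖K x‖ ≤ B * ((1 + ‖x‖ / R) ^ M)⁻¹) {Q : ℝ≥0∞}
    (hQ : ∀ h : E3 → ℂ, Adm volume h → (∀ x, h x ≠ 0 → x ∈ Metric.ball (0:E3) (2 * R ^ (1 + δ))) →
      D p R K h ≤ Q * ∫⁻ x, ‖h x‖ₑ ^ p) {C4 : ℝ} (hC4 : 1 ≤ C4)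
    (hw : ∀ ρ : ℝ, 0 < ρ → ∫⁻ x : E3, ENNReal.ofReal (wl ρ x) ≤ ENNReal.ofReal (C4 * ρ ^ 3))
    {f : E3 → ℂ} (hf : Adm volume f) :
    ∫⁻ x, ‖cv K f x‖ₑ ^ p ≤ ENNReal.ofReal (2 ^ p) * (Q * ENNReal.ofReal (8 * R ^ (3 * δ)) +
      ENNReal.ofReal ((B * R ^ (-(δ * ((M:ℝ) - 4))) * (C4 * R ^ 3)) ^ p)) * ∫⁻ x, ‖f x‖ₑ ^ p := by
  have hR0 : 0 < R := by linarith
  have hp0 : 0 < p := by linarith
  have hKb : ∀ x, ‖K x‖ ≤ B := by
    intro x
    refine (hK x).trans ?_
    have h1 : ((1 + ‖x‖ / R) ^ M)⁻¹ ≤ 1 := by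
      apply inv_le_one_of_one_le₀
      apply one_le_pow₀
      have : 0 ≤ ‖x‖ / R := by positivity
      linarith
    nlinarith
  set ρ := 2 * R ^ (1 + δ) with hρ
  have hρ0 : 0 < ρ := by positivity
  set β := B * R ^ (-(δ * ((M:ℝ) - 4))) with hβ
  have hβ0 : 0 ≤ β := by positivity
  set k2 : E3 → ℝ≥0∞ := fun z => ENNReal.ofReal (β * wl R z) with hk2
  have hk2m : Measurable k2 := ENNReal.measurable_ofReal.comp ((cont_wl hR0).measurable.const_mul β)
  have hfm : Measurable (fun y => ‖f y‖ₑ) := hf.meas.enorm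
  set G : E3 → ℝ≥0∞ := fun x => ∫⁻ y, k2 (x - y) * ‖f y‖ₑ with hG
  have hGm : Measurable G := by
    have hm : Measurable (fun z : E3 × E3 => k2 (z.1 - z.2) * ‖f z.2‖ₑ) :=
      (hk2m.comp (measurable_fst.sub measurable_snd)).mul (hfm.comp measurable_snd)
    exact hm.lintegral_prod_right'
  have hk2I : ∫⁻ y, k2 y ≤ ENNReal.ofReal (β * (C4 * R ^ 3)) := by
    simp only [hk2]
    simp_rw [ENNReal.ofReal_mul hβ0]
    rw [lintegral_const_mul' _ _ ENNReal.ofReal_ne_top]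
    gcongr
    exact hw R hR0
  have hGI : ∫⁻ x, G x ^ p ≤ ENNReal.ofReal ((β * (C4 * R ^ 3)) ^ p) * ∫⁻ x, ‖f x‖ₑ ^ p := by
    refine (young_lintegral hk2m hfm hp.le).trans ?_
    gcongr
    rw [← ENNReal.ofReal_rpow_of_nonneg (by positivity) hp0.le]
    gcongr
  -- one ball
  have hball : ∀ y0 : E3, ∫⁻ x in Metric.ball y0 R, ‖cv K f x‖ₑ ^ p ≤
      ENNReal.ofReal (2 ^ p) * (Q * (∫⁻ x in Metric.ball y0 ρ, ‖f x‖ₑ ^ p) + ∫⁻ x in Metric.ball y0 R, G x ^ p) := by
    intro y0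
    rw [← D_trans]
    set g : E3 → ℂ := fun y => f (y + y0) with hg
    have ag : Adm volume g := by
      refine ⟨hf.meas.comp (measurable_id.add_const y0), hf.int.comp_add_right y0, ?_⟩
      obtain ⟨C, hC⟩ := hf.bdd
      exact ⟨C, fun x => hC _⟩
    set g1 := (Metric.ball (0:E3) ρ).indicator g with hg1
    set g2 := (Metric.ball (0:E3) ρ)ᶜ.indicator g with hg2
    have a1 : Adm volume g1 := ag.indicator measurableSet_ball
    have a2 : Adm volume g2 := ag.indicator measurableSet_ball.compl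
    have hdec : g = fun y => g1 y + g2 y := by
      ext y
      by_cases hy : y ∈ Metric.ball (0:E3) ρ
      · simp only [hg1, hg2]
        rw [indicator_of_mem hy, indicator_of_notMem (show y ∉ (Metric.ball (0:E3) ρ)ᶜ from fun h => h hy), add_zero]
      · simp only [hg1, hg2]
        rw [indicator_of_notMem hy, indicator_of_mem (show y ∈ (Metric.ball (0:E3) ρ)ᶜ from hy), zero_add]
    have e2p : (2:ℝ≥0∞) ^ p = ENNReal.ofReal (2 ^ p) := by
      rw [← ENNReal.ofReal_rpow_of_nonneg (by norm_num) hp0.le, ENNReal.ofReal_ofNat]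
    have h1 : D p R K g ≤ ENNReal.ofReal (2 ^ p) * (D p R K g1 + D p R K g2) := by
      rw [← e2p]
      conv_lhs => rw [hdec]
      exact D_add hp0.le hKm hKb a1.meas a1.int a2.int
    have h2 : D p R K g1 ≤ Q * ∫⁻ x in Metric.ball y0 ρ, ‖f x‖ₑ ^ p := by
      refine (hQ g1 a1 (fun x hx => by
        by_contra hn
        exact hx (indicator_of_notMem hn _))).trans (le_of_eq ?_)
      congr 1
      rw [← lintegral_indicator measurableSet_ball,
        ← lintegral_add_right_eq_self (fun x => (Metric.ball y0 ρ).indicator (fun x => ‖f x‖ₑ ^ p) x) y0]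
      congr 1
      ext x
      simp only [hg1]
      by_cases hx : x ∈ Metric.ball (0:E3) ρ
      · have h3 : x + y0 ∈ Metric.ball y0 ρ := by
          rw [mem_ball_iff_norm]
          rw [mem_ball_zero_iff] at hx
          simpa using hx
        rw [indicator_of_mem hx, indicator_of_mem h3]
      · have h3 : x + y0 ∉ Metric.ball y0 ρ := by
          rw [mem_ball_iff_norm]
          rw [mem_ball_zero_iff] at hx
          simpa using hx
        rw [indicator_of_notMem hx, indicator_of_notMem h3]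
        simp [hp0]
    have h3 : D p R K g2 ≤ ∫⁻ x in Metric.ball y0 R, G x ^ p := by
      have e3 : ∫⁻ x in Metric.ball y0 R, G x ^ p = ∫⁻ x in Metric.ball (0:E3) R, G (x + y0) ^ p := by
        rw [← lintegral_indicator measurableSet_ball, ← lintegral_indicator measurableSet_ball,
          ← lintegral_add_right_eq_self (fun x => (Metric.ball y0 R).indicator (fun x => G x ^ p) x) y0]
        congr 1
        ext x
        by_cases hx : x ∈ Metric.ball (0:E3) R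
        · have h2 : x + y0 ∈ Metric.ball y0 R := by
            rw [mem_ball_iff_norm]
            rw [mem_ball_zero_iff] at hx
            simpa using hx
          rw [indicator_of_mem hx, indicator_of_mem h2]
        · have h2 : x + y0 ∉ Metric.ball y0 R := by
            rw [mem_ball_iff_norm]
            rw [mem_ball_zero_iff] at hx
            simpa using hx
          rw [indicator_of_notMem hx, indicator_of_notMem h2]
      rw [e3]
      unfold D
      apply setLIntegral_mono' measurableSet_ball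
      intro x hx
      rw [mem_ball_zero_iff] at hx
      gcongr
      refine (enorm_cv_le K g2 x).trans ?_
      calc ∫⁻ y, ‖K (x - y)‖ₑ * ‖g2 y‖ₑ ≤ ∫⁻ y, k2 (x - y) * ‖f (y + y0)‖ₑ := by
            apply lintegral_mono
            intro y
            simp only [hg2]
            by_cases hy : y ∈ Metric.ball (0:E3) ρ
            · rw [indicator_of_notMem (show y ∉ (Metric.ball (0:E3) ρ)ᶜ from fun h => h hy)]
              simp
            · rw [indicator_of_mem (show y ∈ (Metric.ball (0:E3) ρ)ᶜ from hy)]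
              gcongr
              rw [mem_ball_zero_iff, not_lt] at hy
              rw [← ofReal_norm]
              exact ENNReal.ofReal_le_ofReal (ker_far hR hδ hM hB hK hx hy)
        _ = G (x + y0) := by
            simp only [hG]
            rw [← lintegral_add_right_eq_self (fun y => k2 (x + y0 - y) * ‖f y‖ₑ) y0]
            congr 1
            ext y
            rw [show x + y0 - (y + y0) = x - y by abel]
    exact h1.trans (mul_le_mul' le_rfl (add_le_add h2 h3))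
  -- averaging
  have hcm : Measurable (fun x => ‖cv K f x‖ₑ ^ p) := (meas_cv hKm hf.meas).enorm.pow_const p
  have hfp : Measurable (fun x => ‖f x‖ₑ ^ p) := hfm.pow_const p
  have hGp : Measurable (fun x => G x ^ p) := hGm.pow_const p
  set v := (volume (Metric.ball (0:E3) 1)).toReal with hv
  have hv0 : 0 < v := v_pos
  set F := ∫⁻ x, ‖f x‖ₑ ^ p with hF
  have hmeasY := meas_avg hGp R
  have h5 : (∫⁻ x, ‖cv K f x‖ₑ ^ p) * ENNReal.ofReal (v * R ^ 3) ≤
      ENNReal.ofReal (2 ^ p) * (Q * (F * ENNReal.ofReal (v * ρ ^ 3)) +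
        ENNReal.ofReal ((β * (C4 * R ^ 3)) ^ p) * F * ENNReal.ofReal (v * R ^ 3)) := by
    rw [hv, ← vol_ball hR0.le, ← cover hcm R]
    calc ∫⁻ y0 : E3, ∫⁻ x in Metric.ball y0 R, ‖cv K f x‖ₑ ^ p ≤
          ∫⁻ y0 : E3, ENNReal.ofReal (2 ^ p) * (Q * (∫⁻ x in Metric.ball y0 ρ, ‖f x‖ₑ ^ p) +
            ∫⁻ x in Metric.ball y0 R, G x ^ p) := lintegral_mono hball
      _ = ENNReal.ofReal (2 ^ p) * ((∫⁻ y0 : E3, Q * ∫⁻ x in Metric.ball y0 ρ, ‖f x‖ₑ ^ p) +
            ∫⁻ y0 : E3, ∫⁻ x in Metric.ball y0 R, G x ^ p) := by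
          rw [lintegral_const_mul' _ _ ENNReal.ofReal_ne_top, lintegral_add_right _ hmeasY]
      _ ≤ _ := by
          rw [cover hGp R, vol_ball hR0.le, ← vol_ball hρ0.le]
          gcongr
          rw [lintegral_const_mul _ (meas_avg hfp ρ), cover hfp ρ]
  have h6 : (∫⁻ x, ‖cv K f x‖ₑ ^ p) = (∫⁻ x, ‖cv K f x‖ₑ ^ p) * ENNReal.ofReal (v * R ^ 3) *
      ENNReal.ofReal ((v * R ^ 3)⁻¹) := by
    rw [mul_assoc, ← ENNReal.ofReal_mul (by positivity), mul_inv_cancel₀ (by positivity), ENNReal.ofReal_one, mul_one]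
  have h7 : ENNReal.ofReal (v * ρ ^ 3) * ENNReal.ofReal ((v * R ^ 3)⁻¹) = ENNReal.ofReal (8 * R ^ (3 * δ)) := by
    rw [← ENNReal.ofReal_mul (by positivity)]
    congr 1
    have e1 : ρ ^ 3 = 8 * (R ^ 3 * R ^ (3 * δ)) := by
      have : (R ^ (1 + δ)) ^ 3 = R ^ 3 * R ^ (3 * δ) := by
        rw [← Real.rpow_natCast, ← Real.rpow_mul hR0.le, ← Real.rpow_natCast R 3, ← Real.rpow_add hR0]
        congr 1
        push_cast
        ring
      rw [hρ, mul_pow, this]
      ring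
    rw [e1]
    field_simp
  have h8 : ENNReal.ofReal (v * R ^ 3) * ENNReal.ofReal ((v * R ^ 3)⁻¹) = 1 := by
    rw [← ENNReal.ofReal_mul (by positivity), mul_inv_cancel₀ (by positivity), ENNReal.ofReal_one]
  rw [h6]
  calc _ ≤ ENNReal.ofReal (2 ^ p) * (Q * (F * ENNReal.ofReal (v * ρ ^ 3)) +
        ENNReal.ofReal ((β * (C4 * R ^ 3)) ^ p) * F * ENNReal.ofReal (v * R ^ 3)) * ENNReal.ofReal ((v * R ^ 3)⁻¹) := by
        gcongr
    _ = ENNReal.ofReal (2 ^ p) * (Q * (F * (ENNReal.ofReal (v * ρ ^ 3) * ENNReal.ofReal ((v * R ^ 3)⁻¹))) +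
        ENNReal.ofReal ((β * (C4 * R ^ 3)) ^ p) * F * (ENNReal.ofReal (v * R ^ 3) * ENNReal.ofReal ((v * R ^ 3)⁻¹))) := by
        ring
    _ = _ := by
        rw [h7, h8]
        ring

theorem num_tail {p R v CM a0 L0 δ : ℝ} {J : ℕ} (hp : 1 < p) (hR : 1 ≤ R) (hv0 : 0 < v) (hCM : 0 ≤ CM) (ha00 : 0 ≤ a0)
    (hL00 : 0 ≤ L0) (hδ : 0 ≤ δ)
    (hJ1 : R ^ ((L0 + 3 + a0 * p + 3 * (1 + δ) * (p - 1)) / ((p - 1) * p)) ≤ (2:ℝ) ^ J) :
    v * R ^ 3 * (CM * R ^ a0) ^ p * (v * (2 * R ^ (1 + δ)) ^ 3) ^ (p - 1) * ((2:ℝ) ^ J) ^ (-((p - 1) * p)) ≤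
      v * CM ^ p * (v * 8) ^ (p - 1) * R ^ (-L0) := by
  have hR0 : 0 < R := by linarith
  have hp0 : 0 < p := by linarith
  have hp1 : 0 < p - 1 := by linarith
  have e1 : (2 * R ^ (1 + δ)) ^ 3 = 8 * R ^ (3 * (1 + δ)) := by
    have : (R ^ (1 + δ)) ^ 3 = R ^ (3 * (1 + δ)) := by
      rw [← Real.rpow_natCast, ← Real.rpow_mul hR0.le]
      congr 1
      push_cast
      ring
    rw [mul_pow, this]
    norm_num
  have e2 : ((2:ℝ) ^ J) ^ (-((p - 1) * p)) ≤ R ^ (-(L0 + 3 + a0 * p + 3 * (1 + δ) * (p - 1))) := by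
    calc ((2:ℝ) ^ J) ^ (-((p - 1) * p)) ≤ (R ^ ((L0 + 3 + a0 * p + 3 * (1 + δ) * (p - 1)) / ((p - 1) * p))) ^ (-((p - 1) * p)) := by
          apply Real.rpow_le_rpow_of_nonpos (by positivity) hJ1
          have : 0 < (p - 1) * p := by positivity
          linarith
      _ = _ := by
          rw [← Real.rpow_mul hR0.le]
          congr 1
          field_simp
  calc v * R ^ 3 * (CM * R ^ a0) ^ p * (v * (2 * R ^ (1 + δ)) ^ 3) ^ (p - 1) * ((2:ℝ) ^ J) ^ (-((p - 1) * p)) ≤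
        v * R ^ 3 * (CM * R ^ a0) ^ p * (v * (2 * R ^ (1 + δ)) ^ 3) ^ (p - 1) *
          R ^ (-(L0 + 3 + a0 * p + 3 * (1 + δ) * (p - 1))) := by gcongr
    _ = v * CM ^ p * (v * 8) ^ (p - 1) * R ^ (-L0) := by
        rw [e1, ← mul_assoc v 8, Real.mul_rpow (by positivity : (0:ℝ) ≤ v * 8) (by positivity),
          Real.mul_rpow hCM (by positivity), ← Real.rpow_mul hR0.le, ← Real.rpow_mul hR0.le, ← Real.rpow_natCast R 3]
        have e3 : R ^ (((3:ℕ):ℝ)) * R ^ (a0 * p) * R ^ (3 * (1 + δ) * (p - 1)) *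
            R ^ (-(L0 + 3 + a0 * p + 3 * (1 + δ) * (p - 1))) = R ^ (-L0) := by
          rw [← Real.rpow_add hR0, ← Real.rpow_add hR0, ← Real.rpow_add hR0]
          congr 1
          push_cast
          ring
        rw [← e3]
        ring

theorem num_far {p R CM a0 L0 C4 m : ℝ} (hp : 1 < p) (hR : 1 ≤ R) (hCM : 0 ≤ CM) (hC4 : 0 ≤ C4) (hL00 : 0 ≤ L0)
    (hm : a0 + 3 + L0 ≤ m) :
    (CM * R ^ a0 * R ^ (-m) * (C4 * R ^ 3)) ^ p ≤ (CM * C4) ^ p * R ^ (-L0) := by
  have hR0 : 0 < R := by linarith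
  have hp0 : 0 < p := by linarith
  have h10 : CM * R ^ a0 * R ^ (-m) * (C4 * R ^ 3) ≤ (CM * C4) * R ^ (-L0) := by
    calc CM * R ^ a0 * R ^ (-m) * (C4 * R ^ 3) ≤ CM * R ^ a0 * R ^ (-(a0 + 3 + L0)) * (C4 * R ^ 3) := by
          gcongr
      _ = (CM * C4) * R ^ (-L0) := by
          rw [← Real.rpow_natCast R 3]
          have e3 : R ^ a0 * R ^ (-(a0 + 3 + L0)) * R ^ (((3:ℕ):ℝ)) = R ^ (-L0) := by
            rw [← Real.rpow_add hR0, ← Real.rpow_add hR0]
            congr 1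
            push_cast
            ring
          rw [← e3]
          ring
  calc (CM * R ^ a0 * R ^ (-m) * (C4 * R ^ 3)) ^ p ≤ ((CM * C4) * R ^ (-L0)) ^ p := by gcongr
    _ = (CM * C4) ^ p * (R ^ (-L0)) ^ p := by rw [Real.mul_rpow (by positivity) (by positivity)]
    _ ≤ (CM * C4) ^ p * R ^ (-L0) := by
        gcongr
        rw [← Real.rpow_mul hR0.le]
        apply Real.rpow_le_rpow_of_exponent_le hR
        have := mul_le_mul_of_nonneg_left hp.le hL00
        linarith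

/-- **from local restricted to global strong estimates** for convolution operators: `K` is a kernel which decays
fast outside the ball of radius `R`; `A` is the constant of the restricted estimate for data supported in the ball of
radius `2 R ^ (1 + δ)`, measured on the ball of radius `R`. -/
theorem rst (p : ℝ) (hp : 1 < p) (a ε L : ℝ) (hε : 0 < ε) : ∃ (δ : ℝ) (M : ℕ), 0 < δ ∧
    ∀ CM : ℝ, 0 ≤ CM → ∃ C : ℝ, 0 ≤ C ∧ ∀ (R : ℝ) (K : E3 → ℂ) (A : ℝ≥0∞), 1 ≤ R → Measurable K →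
      (∀ x, ‖K x‖ ≤ CM * R ^ a * ((1 + ‖x‖ / R) ^ M)⁻¹) → LocR p R (2 * R ^ (1 + δ)) A K →
      ∀ f : E3 → ℂ, Adm volume f → ∫⁻ x, ‖cv K f x‖ₑ ^ p ≤
        ENNReal.ofReal (C * R ^ ε) * (A + ENNReal.ofReal (R ^ (-L))) * ∫⁻ x, ‖f x‖ₑ ^ p := by
  obtain ⟨C4, hC4, hw⟩ := wl_int
  have hp0 : 0 < p := by linarith
  have hp1 : 0 < p - 1 := by linarith
  set v := (volume (Metric.ball (0:E3) 1)).toReal with hv
  have hv0 : 0 < v := v_pos
  set a0 := |a| with ha0
  set L0 := |L| with hL0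
  have ha00 : 0 ≤ a0 := abs_nonneg _
  have hL00 : 0 ≤ L0 := abs_nonneg _
  set δ := min 1 (ε / 6) with hδd
  have hδ : 0 < δ := lt_min one_pos (by linarith)
  have hδ3 : 3 * δ ≤ ε / 2 := by
    have : δ ≤ ε / 6 := min_le_right _ _
    linarith
  set M : ℕ := ⌈4 + (a0 + 3 + L0) / δ⌉₊ with hM
  have hM1 : 4 + (a0 + 3 + L0) / δ ≤ (M:ℝ) := Nat.le_ceil _
  have hM4 : 4 ≤ M := by
    have : (4:ℝ) ≤ M := by
      have : 0 ≤ (a0 + 3 + L0) / δ := by positivity
      linarith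
    exact_mod_cast this
  have hM2 : a0 + 3 + L0 ≤ δ * ((M:ℝ) - 4) := by
    have h1 : (a0 + 3 + L0) / δ ≤ (M:ℝ) - 4 := by linarith
    rw [div_le_iff₀ hδ] at h1
    linarith
  set ε' := ε / (2 * (p + 1)) with hε'
  have hε'0 : 0 < ε' := by positivity
  set E0 := (L0 + 3 + a0 * p + 3 * (1 + δ) * (p - 1)) / ((p - 1) * p) with hE0
  have hE00 : 0 ≤ E0 := by positivity
  obtain ⟨CJ, hCJ, hlev⟩ := lev E0 hE00 hε'0
  refine ⟨δ, M, hδ, ?_⟩
  intro CM hCM
  set C1 := v * CM ^ p * (v * 8) ^ (p - 1) with hC1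
  have hC10 : 0 ≤ C1 := by positivity
  set Cq := 16 ^ p * CJ ^ (p + 1) * (1 + C1) with hCq
  set C2 := (CM * C4) ^ p with hC2
  have hC20 : 0 ≤ C2 := by positivity
  refine ⟨2 ^ p * (Cq * 8 + C2), by positivity, ?_⟩
  intro R K A hR hKm hK hloc f hf
  have hR0 : 0 < R := by linarith
  have hRa : R ^ a ≤ R ^ a0 := Real.rpow_le_rpow_of_exponent_le hR (le_abs_self a)
  set B := CM * R ^ a0 with hB
  have hB0 : 0 ≤ B := by positivity
  have hK' : ∀ x, ‖K x‖ ≤ B * ((1 + ‖x‖ / R) ^ M)⁻¹ := by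
    intro x
    refine (hK x).trans ?_
    rw [hB]
    gcongr
  have hKb : ∀ x, ‖K x‖ ≤ B := by
    intro x
    refine (hK' x).trans ?_
    have h1 : ((1 + ‖x‖ / R) ^ M)⁻¹ ≤ 1 := by
      apply inv_le_one_of_one_le₀
      apply one_le_pow₀
      have : 0 ≤ ‖x‖ / R := by positivity
      linarith
    nlinarith
  obtain ⟨J, hJ1, hJ2⟩ := hlev R hR
  set ρ := 2 * R ^ (1 + δ) with hρ
  have hρ0 : 0 < ρ := by positivity
  have hRL : R ^ (-L0) ≤ R ^ (-L) := Real.rpow_le_rpow_of_exponent_le hR (by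
    have := le_abs_self L
    linarith)
  set T := A + ENNReal.ofReal (R ^ (-L)) with hT
  -- the tail of the levels
  have htail : v * R ^ 3 * B ^ p * (v * ρ ^ 3) ^ (p - 1) * ((2:ℝ) ^ J) ^ (-((p - 1) * p)) ≤ C1 * R ^ (-L) :=
    (num_tail hp hR hv0 hCM ha00 hL00 hδ.le hJ1).trans (by gcongr)
  have hQ : ∀ h : E3 → ℂ, Adm volume h → (∀ x, h x ≠ 0 → x ∈ Metric.ball (0:E3) (2 * R ^ (1 + δ))) →
      D p R K h ≤ (ENNReal.ofReal (Cq * R ^ (ε / 2)) * T) * ∫⁻ x, ‖h x‖ₑ ^ p := by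
    intro h hh hs
    refine (ball_strong hp hR0 hρ0 hKm hB0 hKb hloc J hh hs).trans ?_
    refine mul_le_mul' ?_ le_rfl
    rw [← hv]
    have h1 : A + ENNReal.ofReal (v * R ^ 3 * B ^ p * (v * ρ ^ 3) ^ (p - 1) * ((2:ℝ) ^ J) ^ (-((p - 1) * p))) ≤
        ENNReal.ofReal (1 + C1) * T := by
      calc A + ENNReal.ofReal (v * R ^ 3 * B ^ p * (v * ρ ^ 3) ^ (p - 1) * ((2:ℝ) ^ J) ^ (-((p - 1) * p))) ≤
            A + ENNReal.ofReal (C1 * R ^ (-L)) := by gcongr
        _ ≤ ENNReal.ofReal (1 + C1) * A + ENNReal.ofReal (1 + C1) * ENNReal.ofReal (R ^ (-L)) := by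
            have h2 : (1:ℝ≥0∞) ≤ ENNReal.ofReal (1 + C1) := by
              rw [← ENNReal.ofReal_one]
              exact ENNReal.ofReal_le_ofReal (by linarith)
            refine add_le_add (le_mul_of_one_le_left (zero_le) h2) ?_
            rw [← ENNReal.ofReal_mul (by positivity)]
            apply ENNReal.ofReal_le_ofReal
            gcongr
            linarith
        _ = _ := by rw [hT]; ring
    calc ENNReal.ofReal (16 ^ p * ((J:ℝ) + 1) ^ (p + 1)) *
          (A + ENNReal.ofReal (v * R ^ 3 * B ^ p * (v * ρ ^ 3) ^ (p - 1) * ((2:ℝ) ^ J) ^ (-((p - 1) * p)))) ≤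
          ENNReal.ofReal (16 ^ p * ((J:ℝ) + 1) ^ (p + 1)) * (ENNReal.ofReal (1 + C1) * T) := by gcongr
      _ = ENNReal.ofReal (16 ^ p * ((J:ℝ) + 1) ^ (p + 1) * (1 + C1)) * T := by
          rw [← mul_assoc, ← ENNReal.ofReal_mul (by positivity)]
      _ ≤ _ := by
          refine mul_le_mul' (ENNReal.ofReal_le_ofReal ?_) le_rfl
          have h3 : ((J:ℝ) + 1) ^ (p + 1) ≤ CJ ^ (p + 1) * R ^ (ε / 2) := by
            calc ((J:ℝ) + 1) ^ (p + 1) ≤ (CJ * R ^ ε') ^ (p + 1) := by gcongr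
              _ = CJ ^ (p + 1) * R ^ (ε / 2) := by
                  rw [Real.mul_rpow (by positivity) (by positivity), ← Real.rpow_mul hR0.le]
                  congr 2
                  rw [hε']
                  field_simp
          calc 16 ^ p * ((J:ℝ) + 1) ^ (p + 1) * (1 + C1) ≤ 16 ^ p * (CJ ^ (p + 1) * R ^ (ε / 2)) * (1 + C1) := by gcongr
            _ = _ := by rw [hCq]; ring
  refine (glob hp hR hδ hM4 hB0 hKm hK' hQ hC4 hw hf).trans ?_
  refine mul_le_mul' ?_ le_rfl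
  have h9 : (B * R ^ (-(δ * ((M:ℝ) - 4))) * (C4 * R ^ 3)) ^ p ≤ C2 * R ^ (-L) := by
    exact (num_far hp hR hCM (by linarith) hL00 hM2).trans (by gcongr)
  have h11 : ENNReal.ofReal ((B * R ^ (-(δ * ((M:ℝ) - 4))) * (C4 * R ^ 3)) ^ p) ≤ ENNReal.ofReal (C2 * R ^ ε) * T := by
    calc ENNReal.ofReal ((B * R ^ (-(δ * ((M:ℝ) - 4))) * (C4 * R ^ 3)) ^ p) ≤ ENNReal.ofReal (C2 * R ^ (-L)) :=
          ENNReal.ofReal_le_ofReal h9
      _ = ENNReal.ofReal C2 * ENNReal.ofReal (R ^ (-L)) := ENNReal.ofReal_mul hC20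
      _ ≤ ENNReal.ofReal (C2 * R ^ ε) * T := by
          gcongr
          · exact le_mul_of_one_le_right hC20 (Real.one_le_rpow hR hε.le)
          · exact le_add_self
  calc ENNReal.ofReal (2 ^ p) * (ENNReal.ofReal (Cq * R ^ (ε / 2)) * T * ENNReal.ofReal (8 * R ^ (3 * δ)) +
        ENNReal.ofReal ((B * R ^ (-(δ * ((M:ℝ) - 4))) * (C4 * R ^ 3)) ^ p)) ≤
        ENNReal.ofReal (2 ^ p) * (ENNReal.ofReal (Cq * 8 * R ^ ε) * T + ENNReal.ofReal (C2 * R ^ ε) * T) := by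
        refine mul_le_mul' le_rfl (add_le_add ?_ h11)
        calc ENNReal.ofReal (Cq * R ^ (ε / 2)) * T * ENNReal.ofReal (8 * R ^ (3 * δ)) =
              ENNReal.ofReal (Cq * R ^ (ε / 2)) * ENNReal.ofReal (8 * R ^ (3 * δ)) * T := by ring
          _ = ENNReal.ofReal (Cq * R ^ (ε / 2) * (8 * R ^ (3 * δ))) * T := by
              rw [← ENNReal.ofReal_mul (by positivity)]
          _ ≤ _ := by
              refine mul_le_mul' (ENNReal.ofReal_le_ofReal ?_) le_rfl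
              have h12 : R ^ (ε / 2) * R ^ (3 * δ) ≤ R ^ ε := by
                rw [← Real.rpow_add hR0]
                apply Real.rpow_le_rpow_of_exponent_le hR
                linarith
              calc Cq * R ^ (ε / 2) * (8 * R ^ (3 * δ)) = Cq * 8 * (R ^ (ε / 2) * R ^ (3 * δ)) := by ring
                _ ≤ _ := by gcongr
    _ = ENNReal.ofReal (2 ^ p) * (ENNReal.ofReal (Cq * 8 * R ^ ε) + ENNReal.ofReal (C2 * R ^ ε)) * T := by ring
    _ = _ := by
        rw [← ENNReal.ofReal_add (by positivity) (by positivity), ← ENNReal.ofReal_mul (by positivity)]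
        congr 2
        ring

end Vale.Agent.P117.Rst
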