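import Mathlib.Geometry.Manifold.PartitionOfUnity
import Mathlib.Analysis.InnerProductSpace.PiL2
import Mathlib.Topology.Compactness.Compact

/-! # [TOP3] Smooth partition of unity on a neighbourhood of the unit sphere, rotations -/

open Set
open scoped ContDiff Manifold

set_option linter.all false

namespace Vale.Agent.P117.Top

abbrev V3 := EuclideanSpace ℝ (Fin 3)

theorem exists_partition (r : ℝ) (hr : 0 < r) : ∃ (s : Finset V3) (χ : V3 → V3 → ℝ),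
    (∀ w ∈ s, ‖w‖ = 1) ∧ (∀ w ∈ s, ContDiff ℝ ∞ (χ w)) ∧ (∀ w ∈ s, ∀ ξ, χ w ξ ≠ 0 → ‖ξ - w‖ ≤ r) ∧
    ∀ ξ : V3, |‖ξ‖ ^ 2 - 1| ≤ min (r / 2) (1/2) → ∑ w ∈ s, χ w ξ = 1 := by
  classical
  set K : Set V3 := {ξ | |‖ξ‖ ^ 2 - 1| ≤ min (r / 2) (1/2)} with hK
  have hKc : IsClosed K := isClosed_le (by fun_prop) continuous_const
  have hKb : K ⊆ Metric.closedBall (0:V3) 2 := by
    intro ξ hξ
    rw [mem_closedBall_zero_iff]
    have h1 : |‖ξ‖ ^ 2 - 1| ≤ 1/2 := le_trans hξ (min_le_right _ _)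
    have h2 := (abs_le.1 h1).2
    have := norm_nonneg ξ
    nlinarith
  have hKcomp : IsCompact K := (isCompact_closedBall (0:V3) 2).of_isClosed_subset hKc hKb
  set S : Set V3 := Metric.sphere (0:V3) 1 with hS
  have hcov : K ⊆ ⋃ w : S, Metric.ball (w : V3) r := by
    intro ξ hξ
    have h1 : |‖ξ‖ ^ 2 - 1| ≤ 1/2 := le_trans hξ (min_le_right _ _)
    have h2 : |‖ξ‖ ^ 2 - 1| ≤ r/2 := le_trans hξ (min_le_left _ _)
    have hpos : 0 < ‖ξ‖ := by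
      rcases (norm_nonneg ξ).eq_or_lt with h | h
      · rw [← h] at h1; norm_num at h1
      · exact h
    have hw : (‖ξ‖⁻¹ • ξ) ∈ S := by
      rw [hS, mem_sphere_zero_iff_norm, norm_smul, norm_inv, norm_norm, inv_mul_cancel₀ hpos.ne']
    refine mem_iUnion.2 ⟨⟨_, hw⟩, ?_⟩
    rw [Metric.mem_ball, dist_eq_norm]
    have e : ξ - ‖ξ‖⁻¹ • ξ = (1 - ‖ξ‖⁻¹) • ξ := by rw [sub_smul, one_smul]
    simp only
    rw [e, norm_smul, Real.norm_eq_abs]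
    have e2 : |1 - ‖ξ‖⁻¹| * ‖ξ‖ = |‖ξ‖ - 1| := by
      rw [← abs_of_pos hpos, ← abs_mul, abs_of_pos hpos, sub_mul, one_mul, inv_mul_cancel₀ hpos.ne']
    rw [e2]
    have e3 : |‖ξ‖ ^ 2 - 1| = |‖ξ‖ - 1| * (‖ξ‖ + 1) := by
      rw [show ‖ξ‖ ^ 2 - 1 = (‖ξ‖ - 1) * (‖ξ‖ + 1) by ring, abs_mul, abs_of_pos (show (0:ℝ) < ‖ξ‖ + 1 by linarith)]
    rw [e3] at h2
    have h4 := abs_nonneg (‖ξ‖ - 1)
    nlinarith
  obtain ⟨t, ht⟩ := hKcomp.elim_finite_subcover (fun w : S => Metric.ball (w : V3) r)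
    (fun _ => Metric.isOpen_ball) hcov
  -- partition of unity indexed by t
  have hcov2 : K ⊆ ⋃ w : t, Metric.ball ((w : S) : V3) r := by
    intro ξ hξ
    have := ht hξ
    simp only [mem_iUnion] at this ⊢
    obtain ⟨w, hw, h⟩ := this
    exact ⟨⟨w, hw⟩, h⟩
  obtain ⟨f, hf⟩ := SmoothPartitionOfUnity.exists_isSubordinate 𝓘(ℝ, V3) hKc
    (fun w : t => Metric.ball ((w : S) : V3) r) (fun _ => Metric.isOpen_ball) hcov2
  set s : Finset V3 := t.image (fun w : S => (w : V3)) with hs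
  have hmem : ∀ w ∈ s, ∃ h : w ∈ S, (⟨w, h⟩ : S) ∈ t := by
    intro w hw
    rw [hs, Finset.mem_image] at hw
    obtain ⟨a, ha, rfl⟩ := hw
    exact ⟨a.2, ha⟩
  set χ : V3 → V3 → ℝ := fun w ξ => if h : ∃ h : w ∈ S, (⟨w, h⟩ : S) ∈ t then f ⟨⟨w, h.1⟩, h.2⟩ ξ else 0 with hχ
  have hχe : ∀ a : t, χ ((a : S) : V3) = fun ξ => f a ξ := by
    intro a
    ext ξ
    have h : ∃ h : ((a : S) : V3) ∈ S, (⟨((a : S) : V3), h⟩ : S) ∈ t := ⟨(a : S).2, a.2⟩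
    simp only [hχ]
    rw [dif_pos h]
  refine ⟨s, χ, ?_, ?_, ?_, ?_⟩
  · intro w hw
    obtain ⟨h, -⟩ := hmem w hw
    simpa [hS] using h
  · intro w hw
    obtain ⟨h1, h2⟩ := hmem w hw
    have e := hχe ⟨⟨w, h1⟩, h2⟩
    simp only at e
    rw [e]
    exact (f ⟨⟨w, h1⟩, h2⟩).contMDiff.contDiff
  · intro w hw ξ hξ
    obtain ⟨h1, h2⟩ := hmem w hw
    have e := congrFun (hχe ⟨⟨w, h1⟩, h2⟩) ξ
    simp only at e
    rw [e] at hξ
    have h3 : ξ ∈ tsupport (f ⟨⟨w, h1⟩, h2⟩) := subset_tsupport _ hξ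
    have h4 := hf ⟨⟨w, h1⟩, h2⟩ h3
    simp only [Metric.mem_ball, dist_eq_norm] at h4
    exact h4.le
  · intro ξ hξ
    have h1 := f.sum_eq_one (x := ξ) hξ
    rw [finsum_eq_sum_of_fintype] at h1
    rw [hs, Finset.sum_image (fun a _ b _ hab => Subtype.ext hab), ← Finset.sum_coe_sort t, ← h1]
    apply Finset.sum_congr rfl
    intro a _
    exact congrFun (hχe a) ξ

/-- a rotation (or reflection) taking a unit vector to another one -/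
theorem exists_rot {v w : V3} (h : ‖v‖ = ‖w‖) : ∃ ρ : V3 ≃ₗᵢ[ℝ] V3, ρ v = w :=
  ⟨(ℝ ∙ (v - w))ᗮ.reflection, Submodule.reflection_sub h⟩

end Vale.Agent.P117.Top
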