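import Vale.Agent.P117.K.TopMul
import Vale.Agent.P117.K.TopPart

/-! # [TOP3] Decomposition of the Bochner-Riesz symbol in the base `b` -/

open MeasureTheory Complex Set Filter
open scoped ENNReal NNReal ContDiff FourierTransform SchwartzMap ComplexConjugate Topology

set_option linter.all false

namespace Vale.Agent.P117.Top

open Vale.Agent.P117

/-- smooth step: one on `v ≤ c/2`, zero on `c ≤ v` -/
noncomputable def hst (c v : ℝ) : ℝ := Real.smoothTransition (2 - 2 * v / c)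

theorem hst_one {c v : ℝ} (hc : 0 < c) (h : v ≤ c / 2) : hst c v = 1 := by
  unfold hst
  apply Real.smoothTransition.one_of_one_le
  have : 2 * v / c ≤ 1 := by rw [div_le_one hc]; linarith
  linarith

theorem hst_zero {c v : ℝ} (hc : 0 < c) (h : c ≤ v) : hst c v = 0 := by
  unfold hst
  apply Real.smoothTransition.zero_of_nonpos
  have : 2 ≤ 2 * v / c := by rw [le_div_iff₀ hc]; linarith
  linarith

theorem hst_nonneg (c v : ℝ) : 0 ≤ hst c v := Real.smoothTransition.nonneg _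
theorem hst_le_one (c v : ℝ) : hst c v ≤ 1 := Real.smoothTransition.le_one _

theorem contDiff_hst (c : ℝ) : ContDiff ℝ ∞ (hst c) := by
  unfold hst
  exact Real.smoothTransition.contDiff.comp (by fun_prop)

theorem hst_anti {c v w : ℝ} (hc : 0 < c) (h : v ≤ w) : hst c w ≤ hst c v := by
  unfold hst
  apply Real.smoothTransition.monotone
  have : 2 * v / c ≤ 2 * w / c := by gcongr
  linarith

/-- profile -/
noncomputable def pfr (δ b c v : ℝ) : ℝ := v ^ δ * (hst c v - hst c (b * v))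

theorem pfr_zero {δ b c v : ℝ} (hc : 0 < c) (hb : 1 ≤ b) (h : b * v ≤ c / 2) : pfr δ b c v = 0 := by
  unfold pfr
  have h1 : v ≤ c / 2 := by
    rcases le_or_gt v 0 with h0 | h0
    · linarith
    · nlinarith
  rw [hst_one hc h1, hst_one hc h, sub_self, mul_zero]

theorem pfr_zero' {δ b c v : ℝ} (hc : 0 < c) (hb : 1 ≤ b) (h : c ≤ v) : pfr δ b c v = 0 := by
  unfold pfr
  have h1 : c ≤ b * v := by nlinarith
  rw [hst_zero hc h, hst_zero hc h1, sub_self, mul_zero]

theorem pfr_supp {δ b c v : ℝ} (hc : 0 < c) (hb : 1 ≤ b) (h : pfr δ b c v ≠ 0) : 0 < v ∧ v ≤ c := by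
  constructor
  · by_contra hcon
    push Not at hcon
    apply h
    apply pfr_zero hc hb
    nlinarith
  · by_contra hcon
    push Not at hcon
    exact h (pfr_zero' hc hb hcon.le)

theorem contDiff_pfr {δ b c : ℝ} (hc : 0 < c) (hb : 1 ≤ b) : ContDiff ℝ ∞ (pfr δ b c) := by
  rw [contDiff_iff_contDiffAt]
  intro v
  rcases le_or_gt v 0 with h | h
  · have : pfr δ b c =ᶠ[𝓝 v] fun _ => 0 := by
      have h1 : ∀ᶠ w in 𝓝 v, b * w < c / 2 := by
        apply (continuous_const.mul continuous_id).continuousAt.eventually_lt continuousAt_const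
        show b * v < c / 2
        nlinarith
      filter_upwards [h1] with w hw
      exact pfr_zero hc hb hw.le
    exact contDiffAt_const.congr_of_eventuallyEq this
  · unfold pfr
    have h1 : ContDiffAt ℝ ∞ (fun v : ℝ => v ^ δ) v := Real.contDiffAt_rpow_const_of_ne h.ne'
    have h2 : ContDiff ℝ ∞ (fun v : ℝ => hst c v - hst c (b * v)) :=
      (contDiff_hst c).sub ((contDiff_hst c).comp (by fun_prop))
    exact h1.mul h2.contDiffAt

theorem pfr_nonneg {δ b c v : ℝ} (hc : 0 < c) (hb : 1 ≤ b) : 0 ≤ pfr δ b c v := by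
  rcases le_or_gt v 0 with h | h
  · rw [pfr_zero hc hb (by nlinarith)]
  · unfold pfr
    have : hst c (b * v) ≤ hst c v := hst_anti hc (by nlinarith)
    have h2 : 0 ≤ v ^ δ := Real.rpow_nonneg h.le _
    exact mul_nonneg h2 (by linarith)

theorem pfr_le {δ b c v : ℝ} (hδ : 0 ≤ δ) (hc : 0 < c) (hc1 : c ≤ 1) (hb : 1 ≤ b) : pfr δ b c v ≤ 1 := by
  by_cases h : pfr δ b c v = 0
  · rw [h]; norm_num
  · obtain ⟨h1, h2⟩ := pfr_supp hc hb h
    unfold pfr
    have h3 : v ^ δ ≤ 1 := Real.rpow_le_one h1.le (h2.trans hc1) hδ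
    have h4 : hst c v - hst c (b * v) ≤ 1 := by
      have := hst_le_one c v
      have := hst_nonneg c (b * v)
      linarith
    have h5 : 0 ≤ hst c v - hst c (b * v) := by
      have : hst c (b * v) ≤ hst c v := hst_anti hc (by nlinarith)
      linarith
    have h6 : 0 ≤ v ^ δ := Real.rpow_nonneg h1.le _
    nlinarith

/-- smooth part of the symbol -/
noncomputable def m0 (δ c : ℝ) (ξ : E3) : ℂ := (((1 - ‖ξ‖ ^ 2) ^ δ * (1 - hst c (1 - ‖ξ‖ ^ 2)) : ℝ) : ℂ)

theorem contDiff_m0 {δ c : ℝ} (hc : 0 < c) : ContDiff ℝ ∞ (m0 δ c) := by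
  have hn : ContDiff ℝ ∞ (fun ξ : E3 => 1 - ‖ξ‖ ^ 2) := contDiff_const.sub (contDiff_norm_sq ℝ)
  have key : ContDiff ℝ ∞ (fun u : ℝ => u ^ δ * (1 - hst c u)) := by
    rw [contDiff_iff_contDiffAt]
    intro v
    rcases le_or_gt v 0 with h | h
    · have : (fun u : ℝ => u ^ δ * (1 - hst c u)) =ᶠ[𝓝 v] fun _ => 0 := by
        have h1 : ∀ᶠ w in 𝓝 v, w < c / 2 := by
          apply continuousAt_id.eventually_lt continuousAt_const
          simp only [id]
          linarith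
        filter_upwards [h1] with w hw
        rw [hst_one hc hw.le, sub_self, mul_zero]
      exact contDiffAt_const.congr_of_eventuallyEq this
    · have h1 : ContDiffAt ℝ ∞ (fun v : ℝ => v ^ δ) v := Real.contDiffAt_rpow_const_of_ne h.ne'
      exact h1.mul ((contDiff_const.sub (contDiff_hst c)).contDiffAt)
  have h2 : ContDiff ℝ ∞ (fun ξ : E3 => (1 - ‖ξ‖ ^ 2) ^ δ * (1 - hst c (1 - ‖ξ‖ ^ 2))) := key.comp hn
  exact Complex.ofRealCLM.contDiff.comp h2

theorem m0_supp {δ c : ℝ} (hc : 0 < c) : HasCompactSupport (m0 δ c) := by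
  apply HasCompactSupport.of_support_subset_isCompact (isCompact_closedBall (0:E3) 1)
  intro ξ hξ
  rw [mem_closedBall_zero_iff]
  by_contra hcon
  push Not at hcon
  apply hξ
  unfold m0
  rw [hst_one hc (by nlinarith)]
  simp

/-- pieces -/
noncomputable def mpc (δ b c : ℝ) (n : ℕ) (ξ : E3) : ℂ := ((pfr δ b c (b ^ n * (1 - ‖ξ‖ ^ 2)) : ℝ) : ℂ)

theorem brm_hasSum {δ b c : ℝ} (hδ : 0 < δ) (hb : 1 < b) (hc : 0 < c) (ξ : E3) :
    HasSum (fun n : ℕ => (((b ^ n) ^ (-δ) : ℝ) : ℂ) * mpc δ b c n ξ) (brm δ ‖ξ‖ - m0 δ c ξ) := by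
  set u := 1 - ‖ξ‖ ^ 2 with hu
  have hb0 : 0 < b := by linarith
  rcases le_or_gt u 0 with h | h
  · have e1 : ∀ n : ℕ, mpc δ b c n ξ = 0 := by
      intro n
      unfold mpc
      rw [← hu, pfr_zero hc hb.le, Complex.ofReal_zero]
      have : b ^ n * u ≤ 0 := mul_nonpos_of_nonneg_of_nonpos (by positivity) h
      nlinarith
    have e2 : m0 δ c ξ = 0 := by
      unfold m0
      rw [← hu, hst_one hc (by linarith)]
      simp
    have e3 : brm δ ‖ξ‖ = 0 := by
      unfold brm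
      rw [if_neg]
      intro hlt
      have := norm_nonneg ξ
      nlinarith
    rw [e2, e3, sub_zero]
    simp_rw [e1, mul_zero]
    exact hasSum_zero
  · have e3 : brm δ ‖ξ‖ = ((u ^ δ : ℝ) : ℂ) := by
      unfold brm
      rw [if_pos]
      have := norm_nonneg ξ
      nlinarith
    have e4 : brm δ ‖ξ‖ - m0 δ c ξ = ((u ^ δ * hst c u : ℝ) : ℂ) := by
      rw [e3]
      unfold m0
      rw [← hu, ← Complex.ofReal_sub]
      congr 1; ring
    have e5 : ∀ n : ℕ, (((b ^ n) ^ (-δ) : ℝ) : ℂ) * mpc δ b c n ξ =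
        ((u ^ δ * (hst c (b ^ n * u) - hst c (b ^ (n + 1) * u)) : ℝ) : ℂ) := by
      intro n
      unfold mpc pfr
      rw [← hu, ← Complex.ofReal_mul]
      congr 1
      have hbn : (0:ℝ) < b ^ n := by positivity
      rw [Real.mul_rpow hbn.le h.le, ← mul_assoc, ← mul_assoc, ← Real.rpow_add hbn, neg_add_cancel, Real.rpow_zero, one_mul]
      have e6 : b * (b ^ n * u) = b ^ (n + 1) * u := by rw [pow_succ]; ring
      rw [e6]
    rw [e4]
    simp_rw [e5]
    rw [Complex.hasSum_ofReal]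
    rw [hasSum_iff_tendsto_nat_of_nonneg]
    · have h1 : ∀ n : ℕ, ∑ i ∈ Finset.range n, u ^ δ * (hst c (b ^ i * u) - hst c (b ^ (i + 1) * u)) =
          u ^ δ * (hst c u - hst c (b ^ n * u)) := by
        intro n
        rw [← Finset.mul_sum, Finset.sum_range_sub' (fun i => hst c (b ^ i * u))]
        simp
      simp_rw [h1]
      have h2 : ∀ᶠ n : ℕ in atTop, c ≤ b ^ n * u := by
        have : Tendsto (fun n : ℕ => b ^ n * u) atTop atTop :=
          (tendsto_pow_atTop_atTop_of_one_lt hb).atTop_mul_const h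
        exact this.eventually_ge_atTop c
      apply tendsto_const_nhds.congr'
      filter_upwards [h2] with n hn
      rw [hst_zero hc hn, sub_zero]
    · intro n
      have : hst c (b ^ (n + 1) * u) ≤ hst c (b ^ n * u) := by
        apply hst_anti hc
        have : b ^ n ≤ b ^ (n + 1) := pow_le_pow_right₀ hb.le (Nat.le_succ n)
        nlinarith
      have h2 : 0 ≤ u ^ δ := Real.rpow_nonneg h.le _
      exact mul_nonneg h2 (by linarith)

theorem mpc_norm {δ b c : ℝ} (hδ : 0 ≤ δ) (hc : 0 < c) (hc1 : c ≤ 1) (hb : 1 ≤ b) (n : ℕ) (ξ : E3) : ‖mpc δ b c n ξ‖ ≤ 1 := by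
  unfold mpc
  rw [Complex.norm_real, Real.norm_of_nonneg (pfr_nonneg hc hb)]
  exact pfr_le hδ hc hc1 hb

theorem mpc_cont {δ b c : ℝ} (hc : 0 < c) (hb : 1 ≤ b) (n : ℕ) : Continuous (mpc δ b c n) := by
  unfold mpc
  have := (contDiff_pfr (δ := δ) hc hb).continuous
  fun_prop

theorem mpc_supp {δ b c : ℝ} (hc : 0 < c) (hb : 1 ≤ b) (n : ℕ) : HasCompactSupport (mpc δ b c n) := by
  apply HasCompactSupport.of_support_subset_isCompact (isCompact_closedBall (0:E3) 1)
  intro ξ hξ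
  rw [mem_closedBall_zero_iff]
  by_contra hcon
  push Not at hcon
  apply hξ
  unfold mpc
  rw [pfr_zero hc hb, Complex.ofReal_zero]
  have h1 : 1 - ‖ξ‖ ^ 2 ≤ 0 := by nlinarith
  have : b ^ n * (1 - ‖ξ‖ ^ 2) ≤ 0 := mul_nonpos_of_nonneg_of_nonpos (by positivity) h1
  nlinarith

theorem mpc_int {δ b c : ℝ} (hc : 0 < c) (hb : 1 ≤ b) (n : ℕ) : Integrable (mpc δ b c n) :=
  (mpc_cont hc hb n).integrable_of_hasCompactSupport (mpc_supp hc hb n)

theorem m0_int {δ c : ℝ} (hc : 0 < c) : Integrable (m0 δ c) :=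
  (contDiff_m0 hc).continuous.integrable_of_hasCompactSupport (m0_supp hc)

/-- expansion of the Bochner-Riesz operator -/
theorem TB_hasSum {δ b c : ℝ} (hδ : 0 < δ) (hb : 1 < b) (hc : 0 < c) (hc1 : c ≤ 1) {f : E3 → ℂ} (hf : Integrable f)
    (hF : Integrable (𝓕 f)) (x : E3) :
    HasSum (fun n : ℕ => (((b ^ n) ^ (-δ) : ℝ) : ℂ) * LM (mpc δ b c n) f x) (TB δ f x - LM (m0 δ c) f x) := by
  have hb0 : 0 < b := by linarith
  set F : ℕ → E3 → ℂ := fun n ξ => Real.fourierChar (inner ℝ ξ x) • ((((b ^ n) ^ (-δ) : ℝ) : ℂ) * (mpc δ b c n ξ * 𝓕 f ξ)) with hFd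
  have hI : ∀ n, Integrable (F n) := fun n => int_phaseV ((int_mul (mpc_int hc hb.le n) hf).const_mul _) x
  have hnorm : ∀ n, ∫ ξ, ‖F n ξ‖ ≤ (b ^ (-δ)) ^ n * ∫ ξ, ‖𝓕 f ξ‖ := by
    intro n
    rw [← integral_const_mul]
    apply integral_mono (hI n).norm (hF.norm.const_mul _)
    intro ξ
    simp only [hFd, Circle.norm_smul, norm_mul, Complex.norm_real]
    have h1 := mpc_norm hδ.le hc hc1 hb.le n ξ
    have h2 : ‖((b ^ n) ^ (-δ) : ℝ)‖ = (b ^ (-δ)) ^ n := by
      rw [Real.norm_of_nonneg (by positivity), ← Real.rpow_natCast, ← Real.rpow_natCast, ← Real.rpow_mul hb0.le,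
        ← Real.rpow_mul hb0.le, mul_comm]
    rw [h2]
    have h3 : 0 ≤ (b ^ (-δ)) ^ n := by positivity
    have h4 := norm_nonneg (𝓕 f ξ)
    have h5 : ‖mpc δ b c n ξ‖ * ‖𝓕 f ξ‖ ≤ 1 * ‖𝓕 f ξ‖ := mul_le_mul_of_nonneg_right h1 h4
    rw [one_mul] at h5
    exact mul_le_mul_of_nonneg_left h5 h3
  have hsum : Summable (fun n => ∫ ξ, ‖F n ξ‖) := by
    refine Summable.of_nonneg_of_le (fun n => integral_nonneg fun _ => norm_nonneg _) hnorm ?_
    apply Summable.mul_right
    apply summable_geometric_of_lt_one (by positivity)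
    exact Real.rpow_lt_one_of_one_lt_of_neg hb (by linarith)
  have h1 := hasSum_integral_of_summable_integral_norm hI hsum
  have e1 : ∀ n, ∫ ξ, F n ξ = (((b ^ n) ^ (-δ) : ℝ) : ℂ) * LM (mpc δ b c n) f x := by
    intro n
    unfold LM
    rw [Real.fourierInv_eq, ← integral_const_mul]
    congr 1
    ext ξ
    simp only [hFd, Circle.smul_def, smul_eq_mul]
    ring
  simp_rw [e1] at h1
  have e2 : ∫ ξ, ∑' n, F n ξ = TB δ f x - LM (m0 δ c) f x := by
    have e3 : ∀ ξ, ∑' n, F n ξ = Real.fourierChar (inner ℝ ξ x) • ((brm δ ‖ξ‖ - m0 δ c ξ) * 𝓕 f ξ) := by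
      intro ξ
      have h2 := (brm_hasSum hδ hb hc ξ).mul_right (𝓕 f ξ)
      have h3 := h2.mul_left ((Real.fourierChar (inner ℝ ξ x) : Circle) : ℂ)
      have h4 : HasSum (fun n => F n ξ) (Real.fourierChar (inner ℝ ξ x) • ((brm δ ‖ξ‖ - m0 δ c ξ) * 𝓕 f ξ)) := by
        simp only [hFd, Circle.smul_def, smul_eq_mul]
        have e7 : (fun n : ℕ => ((Real.fourierChar (inner ℝ ξ x) : Circle) : ℂ) * ((((b ^ n) ^ (-δ) : ℝ) : ℂ) * (mpc δ b c n ξ * 𝓕 f ξ))) =
            fun n : ℕ => ((Real.fourierChar (inner ℝ ξ x) : Circle) : ℂ) * ((((b ^ n) ^ (-δ) : ℝ) : ℂ) * mpc δ b c n ξ * 𝓕 f ξ) := by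
          ext n; ring
        rw [e7]
        exact h3
      exact h4.tsum_eq
    simp_rw [e3]
    unfold TB LM
    rw [Real.fourierInv_eq, Real.fourierInv_eq, ← integral_sub]
    · congr 1
      ext ξ
      simp only [Circle.smul_def, smul_eq_mul]
      ring
    · exact int_phaseV (TB_int hδ.le hf hF) x
    · exact int_phaseV (int_mul (m0_int hc) hf) x
  rwa [e2] at h1

end Vale.Agent.P117.Top
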