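import Vale.Agent.P117.K.TopMain

/-! # [TOP3] Interpolation with `L²` and the statement for all exponents between `p0'` and `p0` -/

open MeasureTheory Complex Set Filter
open scoped ENNReal NNReal ContDiff FourierTransform SchwartzMap ComplexConjugate Topology

set_option linter.all false

namespace Vale.Agent.P117.Top

open Vale.Agent.P117

variable {m : E3 → ℂ}

theorem one_div_toReal {p : ℝ} (hp : 0 < p) : (1 / ENNReal.ofReal p).toReal = 1 / p := by
  rw [one_div, ENNReal.toReal_inv, ENNReal.toReal_ofReal hp.le, one_div]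

theorem conj_ofReal {p : ℝ} (hp : 1 < p) : (ENNReal.ofReal p)⁻¹ + (ENNReal.ofReal (p / (p - 1)))⁻¹ = 1 := by
  have h1 : 0 < p - 1 := by linarith
  have h0 : 0 < p := by linarith
  rw [← ENNReal.ofReal_inv_of_pos h0, ← ENNReal.ofReal_inv_of_pos (by positivity),
    ← ENNReal.ofReal_add (by positivity) (by positivity), ← ENNReal.ofReal_one]
  congr 1
  field_simp
  ring

theorem Bd.form {p q : ℝ≥0∞} (hpq : p⁻¹ + q⁻¹ = 1) (hm : Integrable m) {A : ℝ} (hA : 0 ≤ A)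
    (h : Bd m p (ENNReal.ofReal A)) (f g : E3 → ℂ) (hf : Adm volume f) (hg : Adm volume g) :
    ‖BK (𝓕⁻ m) f g‖ ≤ A * nrm p f volume * nrm q g volume := by
  have hp1 := one_le_of_conj hpq
  have hq1 : 1 ≤ q := one_le_of_conj (by rwa [add_comm] at hpq)
  unfold BK
  rw [← LM_cv hm hf.int]
  apply norm_integral_mul_le (LM_cont hm hf.int).aestronglyMeasurable hg p q hpq hq1 (mul_nonneg hA nrm_nonneg)
  rw [ENNReal.ofReal_mul hA, hf.ofReal_nrm hp1]
  exact h f hf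

theorem Bd.of_form {p q : ℝ≥0∞} (hpq : p⁻¹ + q⁻¹ = 1) (hp' : p ≠ ⊤) (hm : Integrable m) {A : ℝ} (hA : 0 ≤ A)
    (h : ∀ f g : E3 → ℂ, Adm volume f → Adm volume g → ‖BK (𝓕⁻ m) f g‖ ≤ A * nrm p f volume * nrm q g volume) :
    Bd m p (ENNReal.ofReal A) := by
  have hp1 := one_le_of_conj hpq
  intro f hf
  rw [← hf.ofReal_nrm hp1, ← ENNReal.ofReal_mul hA]
  apply dual_fi hpq hp' (LM_cont hm hf.int).measurable (LM_bdd m f) (mul_nonneg hA nrm_nonneg)
  intro g hg
  have := h f g hf hg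
  unfold BK at this
  rwa [← LM_cv hm hf.int] at this

theorem Bd.interp {p p0 t : ℝ} (hp0 : 2 < p0) (ht0 : 0 < t) (ht1 : t < 1)
    (hp : 1 < p) (hpt : 1 / p = (1 - t) * (1 / 2) + t * (1 / p0)) (hm : Integrable m) {B0 B1 : ℝ} (hB0 : 0 ≤ B0) (hB1 : 0 ≤ B1)
    (h0 : Bd m 2 (ENNReal.ofReal B0)) (h1 : Bd m (ENNReal.ofReal p0) (ENNReal.ofReal B1)) :
    Bd m (ENNReal.ofReal p) (ENNReal.ofReal (B0 ^ (1 - t) * B1 ^ t)) := by
  have h22 : (2:ℝ≥0∞)⁻¹ + (2:ℝ≥0∞)⁻¹ = 1 := ENNReal.inv_two_add_inv_two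
  have c0 := conj_ofReal (p := p0) (by linarith)
  have cp := conj_ofReal hp
  have b0 := h0.form h22 hm hB0
  have b1 := h1.form c0 hm hB1
  have hK : Continuous (𝓕⁻ m) := continuous_fourierInv hm
  have hB := bilAdm_BK hK (norm_fourierInv_le m)
  have hp1 : 1 ≤ ENNReal.ofReal p := one_le_of_conj cp
  have hq1 : 1 ≤ ENNReal.ofReal (p / (p - 1)) := one_le_of_conj (by rw [add_comm]; exact cp)
  have hp01 : 1 ≤ ENNReal.ofReal p0 := one_le_of_conj c0
  have hq01 : 1 ≤ ENNReal.ofReal (p0 / (p0 - 1)) := one_le_of_conj (by rw [add_comm]; exact c0)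
  have h2 : (1 / (2:ℝ≥0∞)).toReal = 1 / 2 := by rw [one_div, ENNReal.toReal_inv]; norm_num
  apply Bd.of_form cp ENNReal.ofReal_ne_top hm (by positivity)
  intro f g hf hg
  refine T01 hB (p0 := 2) (p1 := ENNReal.ofReal p0) (q0 := 2) (q1 := ENNReal.ofReal (p0 / (p0 - 1))) (t := t) (by norm_num)
    (by norm_num) hp01 (by norm_num) (by norm_num) hq01 ht0 ht1 ?_ ?_ hp1 hq1 hB0 hB1 b0 b1 hf hg
  · rw [one_div_toReal (by linarith), one_div_toReal (by linarith), h2, hpt]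
  · have hp' : 0 < p - 1 := by linarith
    have hp0' : 0 < p0 - 1 := by linarith
    rw [one_div_toReal (by positivity), one_div_toReal (by positivity), h2]
    have e1 : 1 / (p / (p - 1)) = 1 - 1 / p := by field_simp
    have e2 : 1 / (p0 / (p0 - 1)) = 1 - 1 / p0 := by
      have : p0 ≠ 0 := by linarith
      field_simp
    rw [e1, e2, hpt]
    ring

/-- **[TOP3], all exponents**: if `StTop p0 α0` holds for one exponent `p0 > 2` then the Bochner-Riesz operator of order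
`δ` is bounded on `L^P` for all `P` with `|1/P - 1/2| ≤ 1/2 - 1/p0` and `δ > α0 |1/P - 1/2| / (1/2 - 1/p0)`, `δ > 0` -/
theorem top_all {p0 α0 : ℝ} (hp0 : 2 < p0) (hα0 : 0 ≤ α0) (h : StTop p0 α0) {P : ℝ≥0∞} (hP : 1 ≤ P)
    (hPp : |(1 / P).toReal - 1 / 2| ≤ 1 / 2 - 1 / p0) {δ : ℝ} (hδ0 : 0 < δ)
    (hδ : α0 * (|(1 / P).toReal - 1 / 2| / (1 / 2 - 1 / p0)) < δ) :
    ∃ C : ℝ, 0 ≤ C ∧ ∀ f : E3 → ℂ, Adm volume f → Integrable (𝓕 f) →
      eLpNorm (TB δ f) P volume ≤ ENNReal.ofReal C * eLpNorm f P volume := by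
  have hd : 0 < 1 / 2 - 1 / p0 := by
    have : 1 / p0 < 1 / 2 := one_div_lt_one_div_of_lt (by norm_num) hp0
    linarith
  have hPt : P ≠ ⊤ := by
    rintro rfl
    rw [ENNReal.div_top, ENNReal.toReal_zero, zero_sub, abs_neg, abs_of_pos (by norm_num)] at hPp
    have : 0 < 1 / p0 := by positivity
    linarith
  have hP0 : P ≠ 0 := by rintro rfl; exact absurd hP (by norm_num)
  set a := (1 / P).toReal with ha
  have hPpos : 0 < P.toReal := ENNReal.toReal_pos hP0 hPt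
  have ha1 : a = 1 / P.toReal := by rw [ha, one_div, ENNReal.toReal_inv, one_div]
  have hPe : P = ENNReal.ofReal P.toReal := (ENNReal.ofReal_toReal hPt).symm
  set t := |a - 1 / 2| / (1 / 2 - 1 / p0) with ht
  have ht0 : 0 ≤ t := by positivity
  have ht1 : t ≤ 1 := by rw [ht, div_le_one hd]; exact hPp
  -- a bound for exponents ≥ 2
  have key : ∀ p : ℝ, 1 < p → 1 / p = (1 - t) * (1 / 2) + t * (1 / p0) → ∃ (K0 : ℕ) (c C s : ℝ), 2 ≤ K0 ∧ 0 < c ∧ c ≤ 1 ∧
      0 ≤ C ∧ s < δ ∧ ∀ n : ℕ,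
      Bd (mpc δ ((K0:ℝ) ^ 2) c n) (ENNReal.ofReal p) (ENNReal.ofReal (C * (((K0:ℝ) ^ 2) ^ n) ^ s)) := by
    intro p hp hpt
    obtain ⟨K0, c, C, hK0, hc, hc1, hC, hB⟩ := pieces_of_cap (p := p0) (by linarith) h (ε := (δ - α0 * t) / 2) (by linarith) δ
    have hK0r : (2:ℝ) ≤ K0 := by exact_mod_cast hK0
    have hb : (1:ℝ) < (K0:ℝ) ^ 2 := by nlinarith
    have hB2 : ∀ n : ℕ, Bd (mpc δ ((K0:ℝ) ^ 2) c n) 2 (ENNReal.ofReal 1) := fun n =>
      Bd.two (mpc_int hc hb.le n) (fun ξ => mpc_norm hδ0.le hc hc1 hb.le n ξ)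
    refine ⟨K0, c, C ^ t, (α0 + (δ - α0 * t) / 2) * t, hK0, hc, hc1, by positivity, ?_, ?_⟩
    · nlinarith
    intro n
    rcases ht0.eq_or_lt with h0 | h0
    · rw [← h0]
      have e : ENNReal.ofReal p = 2 := by
        rw [← h0] at hpt
        have : p = 2 := by
          have h3 : 1 / p = 1 / 2 := by rw [hpt]; ring
          rw [div_eq_div_iff (by linarith) (by norm_num)] at h3
          linarith
        rw [this]; norm_num
      rw [e, mul_zero, Real.rpow_zero, Real.rpow_zero, one_mul]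
      exact hB2 n
    · rcases ht1.eq_or_lt with h1 | h1
      · have e : p = p0 := by
          rw [h1] at hpt
          have h3 : 1 / p = 1 / p0 := by rw [hpt]; ring
          rw [div_eq_div_iff (by linarith) (by linarith)] at h3
          linarith
        rw [e, h1, Real.rpow_one]
        have := hB n
        rw [h1] at this
        simpa using this
      · have h2 := Bd.interp hp0 h0 h1 hp hpt (mpc_int hc hb.le n) (by norm_num) (by positivity) (hB2 n) (hB n)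
        refine h2.mono (le_of_eq ?_)
        congr 1
        rw [Real.one_rpow, one_mul, Real.mul_rpow hC (by positivity), ← Real.rpow_mul (by positivity)]
  rcases le_total a (1 / 2) with hcase | hcase
  · -- P ≥ 2
    have e1 : |a - 1 / 2| = 1 / 2 - a := by rw [abs_of_nonpos (by linarith)]; ring
    have e2 : t * (1 / 2 - 1 / p0) = 1 / 2 - a := by rw [ht, div_mul_cancel₀ _ hd.ne', e1]
    have h3 : 1 / P.toReal = (1 - t) * (1 / 2) + t * (1 / p0) := by rw [← ha1]; linarith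
    have hP1 : 1 < P.toReal := by
      have h4 : 1 / P.toReal ≤ 1 / 2 := by rw [← ha1]; exact hcase
      rw [div_le_div_iff₀ hPpos (by norm_num)] at h4
      linarith
    obtain ⟨K0, c, C, s, hK0, hc, hc1, hC, hs, hB⟩ := key P.toReal hP1 h3
    have hK0r : (2:ℝ) ≤ K0 := by exact_mod_cast hK0
    have hb : (1:ℝ) < (K0:ℝ) ^ 2 := by nlinarith
    rw [← hPe] at hB
    exact TB_of_pieces hP hδ0 hb hc hc1 hC hs hB
  · -- P ≤ 2
    have e1 : |a - 1 / 2| = a - 1 / 2 := abs_of_nonneg (by linarith)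
    have e2 : t * (1 / 2 - 1 / p0) = a - 1 / 2 := by rw [ht, div_mul_cancel₀ _ hd.ne', e1]
    have ha2 : a ≤ 1 - 1 / p0 := by rw [e1] at hPp; linarith
    have hap : 0 < 1 - a := by
      have : 0 < 1 / p0 := by positivity
      linarith
    set Q : ℝ := 1 / (1 - a) with hQ
    have hQ2 : 1 < Q := by
      rw [hQ, lt_div_iff₀ hap]; linarith
    have h3 : 1 / Q = (1 - t) * (1 / 2) + t * (1 / p0) := by rw [hQ, one_div_one_div]; linarith
    obtain ⟨K0, c, C, s, hK0, hc, hc1, hC, hs, hB⟩ := key Q hQ2 h3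
    have hK0r : (2:ℝ) ≤ K0 := by exact_mod_cast hK0
    have hb : (1:ℝ) < (K0:ℝ) ^ 2 := by nlinarith
    have hPQ : (ENNReal.ofReal Q)⁻¹ + P⁻¹ = 1 := by
      rw [hPe, ← ENNReal.ofReal_inv_of_pos (by linarith), ← ENNReal.ofReal_inv_of_pos hPpos,
        ← ENNReal.ofReal_add (by positivity) (by positivity), ← ENNReal.ofReal_one]
      congr 1
      rw [hQ, ← one_div, one_div_one_div, ← one_div, ← ha1]
      ring
    exact TB_of_pieces hP hδ0 hb hc hc1 hC hs
      (fun n => Bd.dual hPQ hPt (mpc_int hc hb.le n) (by positivity) (hB n))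

end Vale.Agent.P117.Top

namespace Vale.Agent.P117.Top

open Vale.Agent.P117

/-- the statement for Schwartz functions and the conjectured range of orders -/
theorem top_range {p0 : ℝ} (hp0 : 2 < p0) (h : StTop p0 0) {P : ℝ≥0∞} (hP : 1 ≤ P)
    (hPp : |(1 / P).toReal - 1 / 2| ≤ 1 / 2 - 1 / p0) {δ : ℝ} (hδ : max (3 * |(1 / P).toReal - 1 / 2| - 1 / 2) 0 < δ) :
    ∃ C : ℝ≥0, ∀ f : 𝓢(E3, ℂ), eLpNorm (TB δ (f : E3 → ℂ)) P volume ≤ C * eLpNorm (f : E3 → ℂ) P volume := by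
  have hδ0 : 0 < δ := lt_of_le_of_lt (le_max_right _ _) hδ
  obtain ⟨C, hC, h1⟩ := top_all hp0 le_rfl h hP hPp hδ0 (by rw [zero_mul]; exact hδ0)
  exact ⟨C.toNNReal, fun f => h1 f (adm_sch f) (fint_sch f)⟩

end Vale.Agent.P117.Top
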