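import Vale.Agent.P117.K.TopDec

/-! # [TOP3] From the estimate for one small cap of the sphere to the Bochner-Riesz operator -/

open MeasureTheory Complex Set Filter
open scoped ENNReal NNReal ContDiff FourierTransform SchwartzMap ComplexConjugate Topology

set_option linter.all false

namespace Vale.Agent.P117.Top

open Vale.Agent.P117

/-- [input of TOP3] the estimate with loss `N^(2α+ε)` on `L^p` for the multipliers `φ(N² (|ξ|²-1)) χ(ξ)`, `N = K0^n`,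
`χ` supported in one small ball with centre on the unit sphere -/
def StTop (p α : ℝ) : Prop := ∀ ε : ℝ, 0 < ε → ∃ (K0 : ℕ) (ξ0 : E3) (r c : ℝ), 2 ≤ K0 ∧ ‖ξ0‖ = 1 ∧ 0 < r ∧ 0 < c ∧
  ∀ (φ : ℝ → ℂ) (χ : E3 → ℂ), ContDiff ℝ ∞ φ → (∀ t, φ t ≠ 0 → |t| ≤ c) → ContDiff ℝ ∞ χ →
    (∀ ξ, χ ξ ≠ 0 → ‖ξ - ξ0‖ ≤ r) → ∃ C : ℝ, 0 ≤ C ∧ ∀ (n : ℕ) (f : E3 → ℂ), Adm volume f →
      eLpNorm (𝓕⁻ (fun ξ => φ (((K0:ℝ) ^ n) ^ 2 * (‖ξ‖ ^ 2 - 1)) * χ ξ * 𝓕 f ξ)) (ENNReal.ofReal p) volume ≤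
        ENNReal.ofReal (C * ((K0:ℝ) ^ n) ^ (2 * α + ε)) * eLpNorm f (ENNReal.ofReal p) volume

theorem geo_sum {b δ s : ℝ} (hb : 1 < b) (hs : s < δ) :
    Summable (fun n : ℕ => (b ^ n) ^ (-δ) * (b ^ n) ^ s) := by
  have hb0 : 0 < b := by linarith
  have e : ∀ n : ℕ, (b ^ n) ^ (-δ) * (b ^ n) ^ s = (b ^ (s - δ)) ^ n := by
    intro n
    rw [← Real.rpow_add (by positivity), ← Real.rpow_natCast, ← Real.rpow_natCast, ← Real.rpow_mul hb0.le,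
      ← Real.rpow_mul hb0.le]
    congr 1; ring
  simp_rw [e]
  exact summable_geometric_of_lt_one (by positivity) (Real.rpow_lt_one_of_one_lt_of_neg hb (by linarith))

theorem eLpNorm_le_tsum_nat {u : E3 → ℂ} {v : ℕ → E3 → ℂ} (hv : ∀ m, AEStronglyMeasurable (v m) volume)
    (h : ∀ x, HasSum (fun m => v m x) (u x)) {p : ℝ≥0∞} (hp : 1 ≤ p) :
    eLpNorm u p volume ≤ ∑' m, eLpNorm (v m) p volume := by
  have h1 : ∀ x, Tendsto (fun n : ℕ => (∑ i ∈ Finset.range n, v i) x) atTop (𝓝 (u x)) := by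
    intro x
    have h3 := (h x).tendsto_sum_nat
    simpa [Finset.sum_apply] using h3
  have h4 := Lp.eLpNorm_lim_le_liminf_eLpNorm (p := p) (μ := (volume : Measure E3))
    (f := fun n : ℕ => ∑ i ∈ Finset.range n, v i)
    (fun n => Finset.aestronglyMeasurable_sum _ (fun i _ => hv i)) u
    (Filter.Eventually.of_forall h1)
  refine h4.trans ?_
  have h5 : ∀ n : ℕ, eLpNorm (∑ i ∈ Finset.range n, v i) p volume ≤ ∑' m, eLpNorm (v m) p volume := by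
    intro n
    exact (eLpNorm_sum_le (fun i _ => hv i) hp).trans (ENNReal.sum_le_tsum _)
  exact (Filter.liminf_le_liminf (Filter.Eventually.of_forall h5)).trans (by simp)

/-- summation of the pieces -/
theorem TB_of_pieces {P : ℝ≥0∞} (hP : 1 ≤ P) {δ b c : ℝ} (hδ : 0 < δ) (hb : 1 < b) (hc : 0 < c) (hc1 : c ≤ 1)
    {C s : ℝ} (hC : 0 ≤ C) (hs : s < δ) (h : ∀ n : ℕ, Bd (mpc δ b c n) P (ENNReal.ofReal (C * (b ^ n) ^ s))) :
    ∃ C' : ℝ, 0 ≤ C' ∧ ∀ f : E3 → ℂ, Adm volume f → Integrable (𝓕 f) →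
      eLpNorm (TB δ f) P volume ≤ ENNReal.ofReal C' * eLpNorm f P volume := by
  have hb0 : 0 < b := by linarith
  obtain ⟨A, hA, hAb⟩ := Bd.smooth (contDiff_m0 (δ := δ) hc) (m0_supp hc)
  have hsum := geo_sum hb hs
  refine ⟨A + C * ∑' n : ℕ, (b ^ n) ^ (-δ) * (b ^ n) ^ s, ?_, ?_⟩
  · have : 0 ≤ ∑' n : ℕ, (b ^ n) ^ (-δ) * (b ^ n) ^ s := tsum_nonneg fun n => by positivity
    positivity
  intro f hf hF
  have h1 := fun x => TB_hasSum hδ hb hc hc1 hf.int hF x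
  have h2 := eLpNorm_le_tsum_nat (u := fun x => TB δ f x - LM (m0 δ c) f x)
    (v := fun n x => (((b ^ n) ^ (-δ) : ℝ) : ℂ) * LM (mpc δ b c n) f x)
    (fun n => (continuous_const.mul (LM_cont (mpc_int hc hb.le n) hf.int)).aestronglyMeasurable) h1 hP
  have h3 : ∀ n : ℕ, eLpNorm (fun x => (((b ^ n) ^ (-δ) : ℝ) : ℂ) * LM (mpc δ b c n) f x) P volume ≤
      ENNReal.ofReal (C * ((b ^ n) ^ (-δ) * (b ^ n) ^ s)) * eLpNorm f P volume := by
    intro n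
    have e : (fun x => (((b ^ n) ^ (-δ) : ℝ) : ℂ) * LM (mpc δ b c n) f x) =
        (((b ^ n) ^ (-δ) : ℝ) : ℂ) • LM (mpc δ b c n) f := by
      ext x; rfl
    rw [e, eLpNorm_const_smul, ← ofReal_norm, Complex.norm_real, Real.norm_of_nonneg (by positivity)]
    calc _ ≤ ENNReal.ofReal ((b ^ n) ^ (-δ)) * (ENNReal.ofReal (C * (b ^ n) ^ s) * eLpNorm f P volume) :=
          mul_le_mul' le_rfl (h n f hf)
      _ = _ := by
          rw [← mul_assoc, ← ENNReal.ofReal_mul (by positivity)]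
          congr 2; ring
  have h4 : eLpNorm (fun x => TB δ f x - LM (m0 δ c) f x) P volume ≤
      ENNReal.ofReal (C * ∑' n : ℕ, (b ^ n) ^ (-δ) * (b ^ n) ^ s) * eLpNorm f P volume := by
    refine h2.trans ((ENNReal.tsum_le_tsum h3).trans (le_of_eq ?_))
    rw [ENNReal.tsum_mul_right, ← tsum_mul_left, ENNReal.ofReal_tsum_of_nonneg (fun n => by positivity) (hsum.mul_left C)]
  have hdec : TB δ f = LM (m0 δ c) f + fun x => TB δ f x - LM (m0 δ c) f x := by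
    ext x; simp
  have hTc : Continuous (TB δ f) := continuous_fourierInv (TB_int hδ.le hf.int hF)
  have hLc : Continuous (LM (m0 δ c) f) := LM_cont (m0_int hc) hf.int
  rw [hdec]
  refine (eLpNorm_add_le hLc.aestronglyMeasurable (hTc.sub hLc).aestronglyMeasurable hP).trans ?_
  rw [ENNReal.ofReal_add hA (by
    have : 0 ≤ ∑' n : ℕ, (b ^ n) ^ (-δ) * (b ^ n) ^ s := tsum_nonneg fun n => by positivity
    positivity), add_mul]
  exact add_le_add (hAb P hP f hf) h4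

/-- the pieces of the Bochner-Riesz symbol: from one cap to the sphere -/
theorem pieces_of_cap {p α : ℝ} (hp : 1 ≤ p) (h : StTop p α) {ε : ℝ} (hε : 0 < ε) (δ : ℝ) :
    ∃ (K0 : ℕ) (c C : ℝ), 2 ≤ K0 ∧ 0 < c ∧ c ≤ 1 ∧ 0 ≤ C ∧ ∀ n : ℕ,
      Bd (mpc δ ((K0:ℝ) ^ 2) c n) (ENNReal.ofReal p) (ENNReal.ofReal (C * (((K0:ℝ) ^ 2) ^ n) ^ (α + ε))) := by
  obtain ⟨K0, ξ0, r, c', hK0, hξ0, hr, hc', hcap⟩ := h (2 * ε) (by linarith)
  obtain ⟨S, χ, hS1, hS2, hS3, hS4⟩ := exists_partition r hr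
  set c := min c' (min (r / 2) (1/2)) with hcdef
  have hc : 0 < c := lt_min hc' (lt_min (by linarith) (by norm_num))
  have hcc : c ≤ c' := min_le_left _ _
  have hc2 : c ≤ min (r / 2) (1/2) := min_le_right _ _
  have hc1 : c ≤ 1 := hc2.trans ((min_le_right _ _).trans (by norm_num))
  have hK0r : (2:ℝ) ≤ K0 := by exact_mod_cast hK0
  have hb : (1:ℝ) < (K0:ℝ) ^ 2 := by nlinarith
  set b : ℝ := (K0:ℝ) ^ 2 with hbdef
  -- profile
  set φ : ℝ → ℂ := fun t => ((pfr δ b c (-t) : ℝ) : ℂ) with hφ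
  have hφs : ContDiff ℝ ∞ φ := by
    have h1 : ContDiff ℝ ∞ (fun t : ℝ => pfr δ b c (-t)) := (contDiff_pfr hc hb.le).comp contDiff_neg
    exact Complex.ofRealCLM.contDiff.comp h1
  have hφsupp : ∀ t, φ t ≠ 0 → |t| ≤ c := by
    intro t ht
    have h1 : pfr δ b c (-t) ≠ 0 := by
      intro h0; apply ht; simp only [hφ]; rw [h0, Complex.ofReal_zero]
    obtain ⟨h2, h3⟩ := pfr_supp hc hb.le h1
    rw [abs_of_neg (by linarith)]
    exact h3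
  have hrot : ∀ w ∈ S, ∃ ρ : E3 ≃ₗᵢ[ℝ] E3, ρ ξ0 = w := fun w hw => exists_rot (by rw [hξ0, hS1 w hw])
  choose! ρ hρ using hrot
  have hpc : ∀ w ∈ S, ∃ C : ℝ, 0 ≤ C ∧ ∀ n : ℕ,
      Bd (fun ξ => φ (((K0:ℝ) ^ n) ^ 2 * (‖ξ‖ ^ 2 - 1)) * ((χ w ξ : ℝ) : ℂ)) (ENNReal.ofReal p)
        (ENNReal.ofReal (C * ((K0:ℝ) ^ n) ^ (2 * α + 2 * ε))) := by
    intro w hw
    have hs : ContDiff ℝ ∞ (fun ξ : E3 => ((χ w (ρ w ξ) : ℝ) : ℂ)) :=
      Complex.ofRealCLM.contDiff.comp ((hS2 w hw).comp (ρ w).contDiff)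
    have hsup : ∀ ξ : E3, ((χ w (ρ w ξ) : ℝ) : ℂ) ≠ 0 → ‖ξ - ξ0‖ ≤ r := by
      intro ξ hξ
      have h1 : χ w (ρ w ξ) ≠ 0 := by
        intro h0; apply hξ; rw [h0, Complex.ofReal_zero]
      have h2 := hS3 w hw _ h1
      have h3 : ρ w ξ - w = ρ w (ξ - ξ0) := by rw [map_sub, hρ w hw]
      rwa [h3, LinearIsometryEquiv.norm_map] at h2
    obtain ⟨C, hC, hb1⟩ := hcap φ _ hφs (fun t ht => (hφsupp t ht).trans hcc) hs hsup
    refine ⟨C, hC, fun n => ?_⟩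
    apply Bd.isom (ρ w)
    intro f hf
    have e : ((fun ξ => φ (((K0:ℝ) ^ n) ^ 2 * (‖ξ‖ ^ 2 - 1)) * ((χ w ξ : ℝ) : ℂ)) ∘ (ρ w)) =
        fun ξ => φ (((K0:ℝ) ^ n) ^ 2 * (‖ξ‖ ^ 2 - 1)) * ((χ w (ρ w ξ) : ℝ) : ℂ) := by
      ext ξ
      simp only [Function.comp_apply, LinearIsometryEquiv.norm_map]
    rw [e]
    exact hb1 n f hf
  choose! Cw hCw hCb using hpc
  refine ⟨K0, c, ∑ w ∈ S, Cw w, hK0, hc, hc1, Finset.sum_nonneg hCw, ?_⟩
  intro n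
  have hR : ((K0:ℝ) ^ n) ^ 2 = b ^ n := by rw [hbdef, ← pow_mul, ← pow_mul, mul_comm]
  have hint : ∀ w ∈ S, Integrable (fun ξ : E3 => φ (((K0:ℝ) ^ n) ^ 2 * (‖ξ‖ ^ 2 - 1)) * ((χ w ξ : ℝ) : ℂ)) := by
    intro w hw
    have h1 : Continuous (fun ξ : E3 => ((χ w ξ : ℝ) : ℂ)) := Complex.continuous_ofReal.comp (hS2 w hw).continuous
    have h2 : Continuous φ := hφs.continuous
    have h3 : Continuous (fun ξ : E3 => φ (((K0:ℝ) ^ n) ^ 2 * (‖ξ‖ ^ 2 - 1)) * ((χ w ξ : ℝ) : ℂ)) := by fun_prop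
    apply h3.integrable_of_hasCompactSupport
    apply HasCompactSupport.of_support_subset_isCompact (isCompact_closedBall w r)
    intro ξ hξ
    rw [mem_closedBall_iff_norm]
    apply hS3 w hw
    intro h0
    apply hξ
    simp only
    rw [h0, Complex.ofReal_zero, mul_zero]
  have hsum := Bd.sum S hint (p := ENNReal.ofReal p) (by
    rw [← ENNReal.ofReal_one]; exact ENNReal.ofReal_le_ofReal hp) (fun w hw => hCb w hw n)
  have e1 : mpc δ b c n = fun ξ => ∑ w ∈ S, φ (((K0:ℝ) ^ n) ^ 2 * (‖ξ‖ ^ 2 - 1)) * ((χ w ξ : ℝ) : ℂ) := by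
    ext ξ
    rw [← Finset.mul_sum, ← Complex.ofReal_sum]
    have e2 : φ (((K0:ℝ) ^ n) ^ 2 * (‖ξ‖ ^ 2 - 1)) = mpc δ b c n ξ := by
      simp only [hφ, mpc]
      rw [hR]
      congr 2
      ring
    rw [e2]
    by_cases h0 : mpc δ b c n ξ = 0
    · rw [h0, zero_mul]
    · have h1 : |b ^ n * (‖ξ‖ ^ 2 - 1)| ≤ c := by
        apply hφsupp
        rw [← hR, e2]; exact h0
      have h2 : |‖ξ‖ ^ 2 - 1| ≤ c := by
        rw [abs_mul, abs_of_pos (by positivity)] at h1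
        have h3 : (1:ℝ) ≤ b ^ n := one_le_pow₀ hb.le
        have h4 := abs_nonneg (‖ξ‖ ^ 2 - 1)
        nlinarith
      rw [hS4 ξ (h2.trans hc2), Complex.ofReal_one, mul_one]
  rw [e1]
  refine hsum.mono (le_of_eq ?_)
  rw [← ENNReal.ofReal_sum_of_nonneg (fun w hw => mul_nonneg (hCw w hw) (by positivity)), ← Finset.sum_mul]
  congr 2
  rw [← hR, ← Real.rpow_natCast ((K0:ℝ) ^ n) 2, ← Real.rpow_mul (by positivity)]
  congr 1
  push_cast; ring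

/-- **[TOP3]** the Bochner-Riesz operator of every order `δ > α` is bounded on `L^p` and on `L^q`, `q` the dual
exponent -/
theorem top3 {p α : ℝ} (hp : 2 ≤ p) (hα : 0 ≤ α) (h : StTop p α) {δ : ℝ} (hδ : α < δ) {q : ℝ≥0∞}
    (hq : (ENNReal.ofReal p)⁻¹ + q⁻¹ = 1) :
    ∃ C : ℝ, 0 ≤ C ∧ ∀ f : E3 → ℂ, Adm volume f → Integrable (𝓕 f) →
      eLpNorm (TB δ f) (ENNReal.ofReal p) volume ≤ ENNReal.ofReal C * eLpNorm f (ENNReal.ofReal p) volume ∧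
      eLpNorm (TB δ f) q volume ≤ ENNReal.ofReal C * eLpNorm f q volume := by
  have hδ0 : 0 < δ := by linarith
  obtain ⟨K0, c, C, hK0, hc, hc1, hC, hB⟩ := pieces_of_cap (by linarith) h (ε := (δ - α) / 2) (by linarith) δ
  have hK0r : (2:ℝ) ≤ K0 := by exact_mod_cast hK0
  have hb : (1:ℝ) < (K0:ℝ) ^ 2 := by nlinarith
  have hs : α + (δ - α) / 2 < δ := by linarith
  have hP1 : 1 ≤ ENNReal.ofReal p := one_le_of_conj hq
  have hq1 : 1 ≤ q := one_le_of_conj (by rwa [add_comm] at hq)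
  have hqt : q ≠ ⊤ := by
    rintro rfl
    rw [ENNReal.inv_top, add_zero, ENNReal.inv_eq_one] at hq
    have h1 := congrArg ENNReal.toReal hq
    rw [ENNReal.toReal_ofReal (by linarith), ENNReal.toReal_one] at h1
    linarith
  obtain ⟨C1, hC1, h1⟩ := TB_of_pieces hP1 hδ0 hb hc hc1 hC hs hB
  obtain ⟨C2, hC2, h2⟩ := TB_of_pieces hq1 hδ0 hb hc hc1 hC hs
    (fun n => Bd.dual hq hqt (mpc_int hc hb.le n) (by positivity) (hB n))
  refine ⟨max C1 C2, le_max_of_le_left hC1, fun f hf hF => ⟨?_, ?_⟩⟩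
  · exact (h1 f hf hF).trans (mul_le_mul' (ENNReal.ofReal_le_ofReal (le_max_left _ _)) le_rfl)
  · exact (h2 f hf hF).trans (mul_le_mul' (ENNReal.ofReal_le_ofReal (le_max_right _ _)) le_rfl)

/-- the case `p = 2` -/
theorem top_two {δ : ℝ} (hδ : 0 < δ) : ∃ C : ℝ, 0 ≤ C ∧ ∀ f : E3 → ℂ, Adm volume f → Integrable (𝓕 f) →
      eLpNorm (TB δ f) 2 volume ≤ ENNReal.ofReal C * eLpNorm f 2 volume := by
  apply TB_of_pieces (P := 2) (by norm_num) hδ (b := 4) (c := 1/2) (C := 1) (s := 0) (by norm_num) (by norm_num) (by norm_num)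
    (by norm_num) hδ
  intro n
  rw [Real.rpow_zero, one_mul]
  exact Bd.two (mpc_int (by norm_num) (by norm_num) n) (fun ξ => mpc_norm hδ.le (by norm_num) (by norm_num) (by norm_num) n ξ)

end Vale.Agent.P117.Top
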