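import Vale.Agent.P117.Bdl.B2

/-! # [TOP3] Fourier multiplier operators on admissible functions: sums, rotations, duality -/

open MeasureTheory Complex Set Filter
open scoped ENNReal NNReal ContDiff FourierTransform SchwartzMap ComplexConjugate Topology

set_option linter.all false

namespace Vale.Agent.P117.Top

open Vale.Agent.P117

/-- Fourier multiplier operator -/
noncomputable def LM (m f : E3 → ℂ) : E3 → ℂ := 𝓕⁻ (fun ξ => m ξ * 𝓕 f ξ)

/-- `L^p` bound of a multiplier on admissible functions -/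
def Bd (m : E3 → ℂ) (p A : ℝ≥0∞) : Prop :=
  ∀ f : E3 → ℂ, Adm volume f → eLpNorm (LM m f) p volume ≤ A * eLpNorm f p volume

variable {m f g : E3 → ℂ}

theorem int_mul (hm : Integrable m) (hf : Integrable f) : Integrable (fun ξ => m ξ * 𝓕 f ξ) := by
  apply hm.mul_bdd (c := ∫ v, ‖f v‖) (continuous_fourier hf).aestronglyMeasurable
  filter_upwards with x
  exact norm_fourier_le f x

theorem LM_cont (hm : Integrable m) (hf : Integrable f) : Continuous (LM m f) :=
  continuous_fourierInv (int_mul hm hf)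

theorem LM_bdd (m f : E3 → ℂ) (x : E3) : ‖LM m f x‖ ≤ ∫ ξ, ‖m ξ * 𝓕 f ξ‖ := norm_fourierInv_le _ x

theorem LM_cv (hm : Integrable m) (hf : Integrable f) : LM m f = cv (𝓕⁻ m) f := (cv_inv_eq hm hf).symm

theorem LM_sum {ι : Type*} (s : Finset ι) {m : ι → E3 → ℂ} (hm : ∀ i ∈ s, Integrable (m i)) (hf : Integrable f) :
    LM (fun ξ => ∑ i ∈ s, m i ξ) f = ∑ i ∈ s, LM (m i) f := by
  ext x
  rw [Finset.sum_apply]
  unfold LM
  simp_rw [Real.fourierInv_eq]
  rw [← integral_finsetSum]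
  · congr 1
    ext ξ
    rw [Finset.sum_mul, Finset.smul_sum]
  · intro i hi
    exact int_phaseV (int_mul (hm i hi) hf) x

theorem LM_const_mul (c : ℂ) (m f : E3 → ℂ) : LM (fun ξ => c * m ξ) f = c • LM m f := by
  ext x
  unfold LM
  rw [Pi.smul_apply, Real.fourierInv_eq, Real.fourierInv_eq, smul_eq_mul, ← integral_const_mul]
  congr 1
  ext ξ
  simp only [Circle.smul_def, smul_eq_mul]
  ring

theorem Bd.mono {p A B : ℝ≥0∞} (h : Bd m p A) (hAB : A ≤ B) : Bd m p B :=
  fun f hf => (h f hf).trans (mul_le_mul' hAB le_rfl)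

theorem Bd.const_mul {p A : ℝ≥0∞} (h : Bd m p A) (c : ℂ) : Bd (fun ξ => c * m ξ) p (‖c‖ₑ * A) := by
  intro f hf
  rw [LM_const_mul, eLpNorm_const_smul, mul_assoc]
  exact mul_le_mul' le_rfl (h f hf)

theorem Bd.sum {ι : Type*} (s : Finset ι) {m : ι → E3 → ℂ} (hm : ∀ i ∈ s, Integrable (m i)) {p : ℝ≥0∞} (hp : 1 ≤ p)
    {A : ι → ℝ≥0∞} (h : ∀ i ∈ s, Bd (m i) p (A i)) : Bd (fun ξ => ∑ i ∈ s, m i ξ) p (∑ i ∈ s, A i) := by
  intro f hf
  rw [LM_sum s hm hf.int]
  refine (eLpNorm_sum_le (fun i hi => (LM_cont (hm i hi) hf.int).aestronglyMeasurable) hp).trans ?_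
  rw [Finset.sum_mul]
  exact Finset.sum_le_sum fun i hi => h i hi f hf

/-! ## rotations -/

theorem adm_isom (hf : Adm volume f) (R : E3 ≃ₗᵢ[ℝ] E3) : Adm volume (f ∘ R) := by
  refine ⟨hf.meas.comp R.continuous.measurable, ?_, ?_⟩
  · exact (R.measurePreserving.integrable_comp_emb R.toHomeomorph.measurableEmbedding).2 hf.int
  · obtain ⟨C, hC⟩ := hf.bdd
    exact ⟨C, fun x => hC _⟩

theorem eLpNorm_isom (F : E3 → ℂ) (R : E3 ≃ₗᵢ[ℝ] E3) (p : ℝ≥0∞) :
    eLpNorm (F ∘ R) p volume = eLpNorm F p volume := by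
  have := R.toHomeomorph.measurableEmbedding.eLpNorm_map_measure (p := p) (g := F) (μ := volume)
  have h2 : Measure.map R (volume : Measure E3) = volume := R.measurePreserving.map_eq
  change eLpNorm F p (Measure.map R volume) = eLpNorm (F ∘ R) p volume at this
  rw [h2] at this
  exact this.symm

theorem LM_isom (m f : E3 → ℂ) (R : E3 ≃ₗᵢ[ℝ] E3) : LM m f = (LM (m ∘ R) (f ∘ R)) ∘ R.symm := by
  unfold LM
  have h1 : 𝓕 (f ∘ R) = (𝓕 f) ∘ R := by
    ext ξ; exact Real.fourier_comp_linearIsometry R f ξ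
  have h2 : (fun ξ => (m ∘ R) ξ * 𝓕 (f ∘ R) ξ) = (fun ξ => m ξ * 𝓕 f ξ) ∘ R := by
    rw [h1]; rfl
  rw [h2]
  ext x
  have h3 := Real.fourierInv_comp_linearIsometry R (fun ξ => m ξ * 𝓕 f ξ) (R.symm x)
  rw [Function.comp_apply, h3]
  simp

theorem Bd.isom {p A : ℝ≥0∞} (R : E3 ≃ₗᵢ[ℝ] E3) (h : Bd (m ∘ R) p A) : Bd m p A := by
  intro f hf
  rw [LM_isom m f R, eLpNorm_isom]
  refine (h _ (adm_isom hf R)).trans_eq ?_
  rw [eLpNorm_isom]

/-! ## duality -/

theorem LM_pair (hm : Integrable m) (hf : Adm volume f) (hg : Adm volume g) :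
    ∫ x, LM m f x * g x = ∫ x, LM (fun ξ => m (-ξ)) g x * f x := by
  have hmn : Integrable (fun ξ => m (-ξ)) := hm.comp_neg
  unfold LM
  rw [integral_fourierInv_mul (int_mul hm hf.int) hg.int, integral_fourierInv_mul (int_mul hmn hg.int) hf.int,
    ← integral_neg_eq_self]
  congr 1
  ext ξ
  rw [Real.fourierInv_eq_fourier_neg, Real.fourierInv_eq_fourier_neg, neg_neg]
  ring

/-- local bound, finite exponent -/
theorem dual_loc {p q : ℝ≥0∞} (hpq : p⁻¹ + q⁻¹ = 1) (hp' : p ≠ ⊤) {u : E3 → ℂ}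
    (hu : Measurable u) {C : ℝ} (hC : ∀ x, ‖u x‖ ≤ C) {D : ℝ} (hD : 0 ≤ D)
    (h : ∀ g, Adm volume g → ‖∫ x, u x * g x‖ ≤ D * nrm q g volume) (R : ℝ) :
    (∫ x in Metric.ball (0:E3) R, ‖u x‖ ^ p.toReal) ^ (1 / p.toReal) ≤ D := by
  have hp1 := one_le_of_conj hpq
  have hq1 : 1 ≤ q := one_le_of_conj (by rwa [add_comm] at hpq)
  set P := p.toReal with hP
  set E := Metric.ball (0:E3) R with hE
  have hEm : MeasurableSet E := Metric.isOpen_ball.measurableSet
  have hEf : volume E ≠ ⊤ := measure_ball_lt_top.ne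
  have hP1 : 1 ≤ P := by
    rw [hP, ← ENNReal.toReal_one]
    exact ENNReal.toReal_mono hp' hp1
  set g := wt (P - 2) E u with hg
  have hga : Adm volume g := wt_adm (by linarith) hEm hEf hu hC
  have h1 := h g hga
  have h2 := wt_integral (a := P - 2) (E := E) (u := u) (by linarith) hEm
  have e1 : P - 2 + 2 = P := by ring
  rw [e1] at h2
  rw [hg, h2, Complex.norm_real] at h1
  set J := ∫ x in E, ‖u x‖ ^ P with hJ
  have hJ0 : 0 ≤ J := integral_nonneg fun x => by positivity
  rw [Real.norm_of_nonneg hJ0, ← hg] at h1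
  have hgn : ∀ x, ‖g x‖ ≤ E.indicator (fun x => ‖u x‖ ^ (P - 1)) x := by
    intro x
    have := norm_wt_le (a := P - 2) (E := E) (u := u) x
    have e2 : P - 2 + 1 = P - 1 := by ring
    rwa [e2] at this
  have hC0 : 0 ≤ C := (norm_nonneg _).trans (hC 0)
  rcases eq_or_ne q ⊤ with hq | hq
  · -- p = 1
    have hPe : P = 1 := by
      have h3 := conj_sum hpq
      rw [hq, ENNReal.div_top, ENNReal.toReal_zero, add_zero, one_div, ENNReal.toReal_inv] at h3
      rw [hP]
      exact inv_eq_one.1 h3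
    have h3 : nrm q g volume ≤ 1 := by
      unfold nrm
      rw [hq, eLpNorm_exponent_top]
      have h4 : eLpNormEssSup g volume ≤ ENNReal.ofReal 1 := by
        apply eLpNormEssSup_le_of_ae_bound
        filter_upwards with x
        refine (hgn x).trans ?_
        rw [hPe, sub_self]
        simp only [Real.rpow_zero]
        apply indicator_le_self'
        intro _ _
        norm_num
      rw [ENNReal.ofReal_one] at h4
      have := ENNReal.toReal_mono ENNReal.one_ne_top h4
      simpa using this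
    rw [hPe, div_one, Real.rpow_one]
    calc J ≤ D * nrm q g volume := h1
      _ ≤ D * 1 := by gcongr
      _ = D := mul_one D
  · set Q := q.toReal with hQ
    have hQ1 : 1 ≤ Q := by
      rw [hQ, ← ENNReal.toReal_one]
      exact ENNReal.toReal_mono hq hq1
    have hsum : P⁻¹ + Q⁻¹ = 1 := by
      have h3 := conj_sum hpq
      rwa [one_div, one_div, ENNReal.toReal_inv, ENNReal.toReal_inv] at h3
    have hPlt : 1 < P := by
      by_contra hcon
      have hP1' : P = 1 := le_antisymm (not_lt.1 hcon) hP1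
      rw [hP1', inv_one] at hsum
      have : Q⁻¹ = 0 := by linarith
      rw [inv_eq_zero] at this
      linarith
    have hPQ : P.HolderConjugate Q := Real.holderConjugate_iff.2 ⟨hPlt, hsum⟩
    have hexp : (P - 1) * Q = P := hPQ.sub_one_mul_conj
    have h3 : nrm q g volume ≤ J ^ (1 / Q) := by
      have h4 : nrm q g volume ^ Q = (∫⁻ x, ‖g x‖ₑ ^ Q).toReal := nrm_rpow g hq1 hq
      have h5 : (∫⁻ x, ‖g x‖ₑ ^ Q) ≤ ENNReal.ofReal J := by
        have hint : IntegrableOn (fun x => ‖u x‖ ^ P) E := by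
          apply Measure.integrableOn_of_bounded (M := C ^ P) hEf
          · exact (hu.norm.pow_const P).aestronglyMeasurable
          · filter_upwards with x
            rw [Real.norm_of_nonneg (by positivity)]
            exact Real.rpow_le_rpow (norm_nonneg _) (hC x) (by linarith)
        rw [hJ, ofReal_integral_eq_lintegral_ofReal hint (by filter_upwards with x; positivity),
          ← lintegral_indicator hEm]
        apply lintegral_mono
        intro x
        simp only
        by_cases hx : x ∈ E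
        · rw [indicator_of_mem hx]
          have h6 := hgn x
          rw [indicator_of_mem hx] at h6
          rw [← ofReal_norm, ENNReal.ofReal_rpow_of_nonneg (norm_nonneg _) (by linarith)]
          apply ENNReal.ofReal_le_ofReal
          calc ‖g x‖ ^ Q ≤ (‖u x‖ ^ (P - 1)) ^ Q := Real.rpow_le_rpow (norm_nonneg _) h6 (by linarith)
            _ = ‖u x‖ ^ P := by rw [← Real.rpow_mul (norm_nonneg _), hexp]
        · have h6 := hgn x
          rw [indicator_of_notMem hx] at h6
          have h7 : g x = 0 := norm_eq_zero.1 (le_antisymm h6 (norm_nonneg _))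
          rw [h7, enorm_zero, ENNReal.zero_rpow_of_pos (by linarith)]
          exact zero_le
      have h6 : nrm q g volume ^ Q ≤ J := by
        rw [h4]
        have := ENNReal.toReal_mono ENNReal.ofReal_ne_top h5
        rwa [ENNReal.toReal_ofReal hJ0] at this
      calc nrm q g volume = (nrm q g volume ^ Q) ^ (1 / Q) := by
            rw [← Real.rpow_mul nrm_nonneg, mul_one_div, div_self (by linarith), Real.rpow_one]
        _ ≤ J ^ (1 / Q) := Real.rpow_le_rpow (Real.rpow_nonneg nrm_nonneg _) h6 (by positivity)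
    exact dual_alg hJ0 hD hPQ (h1.trans (by gcongr))

theorem dual_fi {p q : ℝ≥0∞} (hpq : p⁻¹ + q⁻¹ = 1) (hp' : p ≠ ⊤) {u : E3 → ℂ}
    (hu : Measurable u) {C : ℝ} (hC : ∀ x, ‖u x‖ ≤ C) {D : ℝ} (hD : 0 ≤ D)
    (h : ∀ g, Adm volume g → ‖∫ x, u x * g x‖ ≤ D * nrm q g volume) :
    eLpNorm u p volume ≤ ENNReal.ofReal D := by
  have hp1 := one_le_of_conj hpq
  have hp0 : p ≠ 0 := fun h => by rw [h] at hp1; exact absurd hp1 (by norm_num)
  have hPpos : 0 < p.toReal := ENNReal.toReal_pos hp0 hp'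
  have hC0 : 0 ≤ C := (norm_nonneg _).trans (hC 0)
  rw [eLpNorm_eq_lintegral_rpow_enorm_toReal hp0 hp']
  have hloc : ∀ n : ℕ, ∫⁻ x, (Metric.ball (0:E3) n).indicator (fun x => ‖u x‖ₑ ^ p.toReal) x ≤
      ENNReal.ofReal (D ^ p.toReal) := by
    intro n
    have h1 := dual_loc hpq hp' hu hC hD h n
    have hEm : MeasurableSet (Metric.ball (0:E3) (n:ℝ)) := Metric.isOpen_ball.measurableSet
    have hint : IntegrableOn (fun x => ‖u x‖ ^ p.toReal) (Metric.ball (0:E3) n) := by
      apply Measure.integrableOn_of_bounded (M := C ^ p.toReal) measure_ball_lt_top.ne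
      · exact (hu.norm.pow_const _).aestronglyMeasurable
      · filter_upwards with x
        rw [Real.norm_of_nonneg (by positivity)]
        exact Real.rpow_le_rpow (norm_nonneg _) (hC x) (by linarith)
    rw [lintegral_indicator hEm]
    have e1 : ∀ x, ‖u x‖ₑ ^ p.toReal = ENNReal.ofReal (‖u x‖ ^ p.toReal) := by
      intro x
      rw [← ofReal_norm, ENNReal.ofReal_rpow_of_nonneg (norm_nonneg _) hPpos.le]
    simp_rw [e1]
    rw [← ofReal_integral_eq_lintegral_ofReal hint (by filter_upwards with x; positivity)]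
    apply ENNReal.ofReal_le_ofReal
    set J := ∫ x in Metric.ball (0:E3) n, ‖u x‖ ^ p.toReal with hJ
    have hJ0 : 0 ≤ J := integral_nonneg fun x => by positivity
    calc J = (J ^ (1 / p.toReal)) ^ p.toReal := by
          rw [← Real.rpow_mul hJ0, one_div, inv_mul_cancel₀ hPpos.ne', Real.rpow_one]
      _ ≤ D ^ p.toReal := Real.rpow_le_rpow (by positivity) h1 hPpos.le
  have hsup : ∫⁻ x, ‖u x‖ₑ ^ p.toReal = ⨆ n : ℕ, ∫⁻ x,
      (Metric.ball (0:E3) n).indicator (fun x => ‖u x‖ₑ ^ p.toReal) x := by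
    rw [← lintegral_iSup]
    · congr 1
      ext x
      obtain ⟨N, hN⟩ := exists_nat_gt ‖x‖
      apply le_antisymm
      · refine le_iSup_of_le N ?_
        rw [indicator_of_mem (by simpa using hN)]
      · apply iSup_le
        intro n
        exact indicator_le_self _ _ _
    · intro n
      exact (hu.enorm.pow_const _).indicator Metric.isOpen_ball.measurableSet
    · intro a b hab x
      apply indicator_le_indicator_of_subset
      · exact Metric.ball_subset_ball (by exact_mod_cast hab)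
      · intro _; exact zero_le
  have hfin : ∫⁻ x, ‖u x‖ₑ ^ p.toReal ≤ ENNReal.ofReal (D ^ p.toReal) := by
    rw [hsup]; exact iSup_le hloc
  calc _ ≤ (ENNReal.ofReal (D ^ p.toReal)) ^ (1 / p.toReal) := by gcongr
    _ = ENNReal.ofReal D := by
        rw [ENNReal.ofReal_rpow_of_nonneg (by positivity) (by positivity), ← Real.rpow_mul hD, mul_one_div,
          div_self hPpos.ne', Real.rpow_one]

/-- the dual exponent -/
theorem Bd.dual {p q : ℝ≥0∞} (hpq : p⁻¹ + q⁻¹ = 1) (hq' : q ≠ ⊤) (hm : Integrable m) {A : ℝ} (hA : 0 ≤ A)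
    (h : Bd m p (ENNReal.ofReal A)) : Bd m q (ENNReal.ofReal A) := by
  have hp1 := one_le_of_conj hpq
  have hqp : q⁻¹ + p⁻¹ = 1 := by rwa [add_comm] at hpq
  have hq1 : 1 ≤ q := one_le_of_conj hqp
  have hneg : Bd (fun ξ => m (-ξ)) p (ENNReal.ofReal A) := by
    apply Bd.isom (LinearIsometryEquiv.neg ℝ)
    have : (fun ξ => m (-ξ)) ∘ (LinearIsometryEquiv.neg ℝ : E3 ≃ₗᵢ[ℝ] E3) = m := by
      ext ξ; simp
    rw [this]; exact h
  intro f hf
  have hu : Continuous (LM m f) := LM_cont hm hf.int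
  rw [← hf.ofReal_nrm hq1, ← ENNReal.ofReal_mul hA]
  apply dual_fi hqp hq' hu.measurable (LM_bdd m f) (mul_nonneg hA nrm_nonneg)
  intro g hg
  rw [LM_pair hm hf hg]
  have hc : Continuous (LM (fun ξ => m (-ξ)) g) := LM_cont hm.comp_neg hg.int
  have h1 := norm_integral_mul_le hc.aestronglyMeasurable hf p q hpq hq1 (B := A * nrm p g volume)
    (mul_nonneg hA nrm_nonneg) (by
      rw [ENNReal.ofReal_mul hA, hg.ofReal_nrm hp1]
      exact hneg g hg)
  calc _ ≤ _ := h1
    _ = _ := by ring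

/-! ## smooth compactly supported multipliers, `L²` -/

theorem Bd.smooth (hm : ContDiff ℝ ∞ m) (hc : HasCompactSupport m) : ∃ A : ℝ, 0 ≤ A ∧ ∀ p : ℝ≥0∞, 1 ≤ p →
    Bd m p (ENNReal.ofReal A) := by
  set M : 𝓢(E3, ℂ) := hc.toSchwartzMap hm with hM
  have hMe : (M : E3 → ℂ) = m := rfl
  set K : 𝓢(E3, ℂ) := 𝓕⁻ M with hK
  refine ⟨∫ y, ‖K y‖, integral_nonneg fun _ => norm_nonneg _, ?_⟩
  intro p hp f hf
  have h1 : LM m f = cv K f := by
    unfold LM
    rw [← hMe, hK, cv_schwartz_eq M hf.int]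
  rw [h1]
  refine (young_L1 K.continuous.measurable hf.meas p hp).trans (le_of_eq ?_)
  rw [ofReal_integral_norm_eq_lintegral_enorm K.integrable]

theorem Bd.two (hm : Integrable m) {B : ℝ} (hB : ∀ ξ, ‖m ξ‖ ≤ B) : Bd m 2 (ENNReal.ofReal B) := by
  have hB0 : 0 ≤ B := (norm_nonneg _).trans (hB 0)
  have h22 : (2:ℝ≥0∞)⁻¹ + (2:ℝ≥0∞)⁻¹ = 1 := ENNReal.inv_two_add_inv_two
  intro f hf
  rw [← hf.ofReal_nrm (by norm_num), ← ENNReal.ofReal_mul hB0]
  apply dual_fi h22 (by norm_num) (LM_cont hm hf.int).measurable (LM_bdd m f) (mul_nonneg hB0 nrm_nonneg)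
  intro g hg
  rw [LM_cv hm hf.int]
  exact multiplier_L2 hm hB hf hg

end Vale.Agent.P117.Top
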