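import Vale.Agent.P117.K.TopFin
import Mathlib.Analysis.Calculus.BumpFunction.Convolution
import Mathlib.Analysis.Calculus.BumpFunction.FiniteDimension
import Mathlib.Analysis.Calculus.ContDiff.Convolution

/-! # [TOP3] Bounds on Schwartz functions extend to all admissible functions -/

open MeasureTheory Complex Set Filter
open scoped ENNReal NNReal ContDiff FourierTransform SchwartzMap ComplexConjugate Topology Convolution

set_option linter.all false

namespace Vale.Agent.P117.Top

open Vale.Agent.P117

variable {m : E3 → ℂ}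

/-- passage to the limit in `L¹` -/
theorem LM_lim (hm : Integrable m) {F : ℕ → E3 → ℂ} {f : E3 → ℂ} (hF : ∀ n, Adm volume (F n)) (hf : Adm volume f)
    (hlim : Tendsto (fun n => ∫ y, ‖F n y - f y‖) atTop (𝓝 0)) {p A B : ℝ≥0∞}
    (h : ∀ n, eLpNorm (LM m (F n)) p volume ≤ B) : eLpNorm (LM m f) p volume ≤ B := by
  have hK : Continuous (𝓕⁻ m) := continuous_fourierInv hm
  have hKb := norm_fourierInv_le m
  have h1 : ∀ x, Tendsto (fun n => LM m (F n) x) atTop (𝓝 (LM m f x)) := by
    intro x
    rw [tendsto_iff_norm_sub_tendsto_zero]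
    have h2 : ∀ n, ‖LM m (F n) x - LM m f x‖ ≤ (∫ v, ‖m v‖) * ∫ y, ‖F n y - f y‖ := by
      intro n
      rw [LM_cv hm (hF n).int, LM_cv hm hf.int]
      have e : cv (𝓕⁻ m) (F n) x - cv (𝓕⁻ m) f x = cv (𝓕⁻ m) (fun y => F n y - f y) x := by
        unfold cv
        rw [← integral_sub (integrable_cv_arg hK hKb (hF n) x) (integrable_cv_arg hK hKb hf x)]
        congr 1
        ext y; ring
      rw [e]
      exact norm_cv_le hKb ((hF n).int.sub hf.int) x
    have h3 : Tendsto (fun n => (∫ v, ‖m v‖) * ∫ y, ‖F n y - f y‖) atTop (𝓝 0) := by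
      simpa using hlim.const_mul (∫ v, ‖m v‖)
    exact squeeze_zero (fun n => norm_nonneg _) h2 h3
  have h4 := Lp.eLpNorm_lim_le_liminf_eLpNorm (p := p) (μ := (volume : Measure E3))
    (f := fun n : ℕ => LM m (F n)) (fun n => (LM_cont hm (hF n).int).aestronglyMeasurable) (LM m f)
    (Filter.Eventually.of_forall h1)
  exact h4.trans ((Filter.liminf_le_liminf (Filter.Eventually.of_forall h)).trans (by simp))

/-- standard bump -/
noncomputable def bp (n : ℕ) : ContDiffBump (0 : E3) where
  rIn := 1 / (2 * ((n:ℝ) + 1))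
  rOut := 1 / ((n:ℝ) + 1)
  rIn_pos := by positivity
  rIn_lt_rOut := by
    apply one_div_lt_one_div_of_lt (by positivity)
    have : (0:ℝ) < (n:ℝ) + 1 := by positivity
    linarith

theorem bp_lim : Tendsto (fun n => (bp n).rOut) atTop (𝓝 0) := tendsto_one_div_add_atTop_nhds_zero_nat

/-- mollification -/
noncomputable def mol (n : ℕ) (f : E3 → ℂ) : E3 → ℂ := cv (fun x => (((bp n).normed volume x : ℝ) : ℂ)) f

theorem mol_eq (n : ℕ) (f : E3 → ℂ) : mol n f = ((bp n).normed volume ⋆[ContinuousLinearMap.lsmul ℝ ℝ, volume] f) := by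
  ext x
  rw [convolution_eq_swap]
  unfold mol cv
  congr 1

theorem mol_L1 (n : ℕ) : ∫⁻ x : E3, ‖(((bp n).normed volume x : ℝ) : ℂ)‖ₑ = 1 := by
  have h1 : ∀ x : E3, ‖(((bp n).normed volume x : ℝ) : ℂ)‖ₑ = ENNReal.ofReal ((bp n).normed volume x) := by
    intro x
    rw [← ofReal_norm, Complex.norm_real, Real.norm_of_nonneg ((bp n).nonneg_normed x)]
  simp_rw [h1]
  rw [← ofReal_integral_eq_lintegral_ofReal (bp n).integrable_normed (Filter.Eventually.of_forall (bp n).nonneg_normed),
    (bp n).integral_normed, ENNReal.ofReal_one]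

theorem mol_norm {f : E3 → ℂ} (hf : Adm volume f) {p : ℝ≥0∞} (hp : 1 ≤ p) (n : ℕ) :
    eLpNorm (mol n f) p volume ≤ eLpNorm f p volume := by
  have hK : Measurable (fun x : E3 => (((bp n).normed volume x : ℝ) : ℂ)) :=
    Complex.measurable_ofReal.comp (bp n).continuous_normed.measurable
  have := young_L1 hK hf.meas p hp
  rwa [mol_L1, one_mul] at this

theorem mol_bdd {f : E3 → ℂ} (hf : Adm volume f) {C : ℝ} (hC : ∀ x, ‖f x‖ ≤ C) (n : ℕ) (x : E3) : ‖mol n f x‖ ≤ C := by
  unfold mol cv
  have hi : Integrable (fun y : E3 => (bp n).normed volume (x - y) * C) := by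
    exact (((bp n).integrable_normed (μ := volume)).comp_sub_left x).mul_const C
  calc ‖∫ y, (((bp n).normed volume (x - y) : ℝ) : ℂ) * f y‖ ≤ ∫ y, (bp n).normed volume (x - y) * C := by
        apply norm_integral_le_of_norm_le hi
        filter_upwards with y
        rw [norm_mul, Complex.norm_real, Real.norm_of_nonneg ((bp n).nonneg_normed _)]
        exact mul_le_mul_of_nonneg_left (hC y) ((bp n).nonneg_normed _)
    _ = C := by
        rw [integral_mul_const, integral_sub_left_eq_self (fun y => (bp n).normed volume y), (bp n).integral_normed, one_mul]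

theorem mol_smooth {f : E3 → ℂ} (hf : Adm volume f) (n : ℕ) : ContDiff ℝ ∞ (mol n f) := by
  rw [mol_eq]
  exact HasCompactSupport.contDiff_convolution_left _ (bp n).hasCompactSupport_normed (bp n).contDiff_normed
    hf.int.locallyIntegrable

theorem mol_supp {f : E3 → ℂ} (hc : HasCompactSupport f) (n : ℕ) : HasCompactSupport (mol n f) := by
  rw [mol_eq]
  exact HasCompactSupport.convolution _ (bp n).hasCompactSupport_normed hc

theorem mol_zero {f : E3 → ℂ} {j : ℝ} (hj : ∀ x, j < ‖x‖ → f x = 0) (n : ℕ) {x : E3} (hx : j + 1 < ‖x‖) : mol n f x = 0 := by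
  unfold mol cv
  have : ∀ y, (((bp n).normed volume (x - y) : ℝ) : ℂ) * f y = 0 := by
    intro y
    by_cases hy : j < ‖y‖
    · rw [hj y hy, mul_zero]
    · push Not at hy
      have h1 : (bp n).normed volume (x - y) = 0 := by
        have h2 : x - y ∉ Function.support ((bp n).normed volume) := by
          rw [ContDiffBump.support_normed_eq, Metric.mem_ball, dist_zero_right, not_lt]
          have h3 : (bp n).rOut ≤ 1 := by
            show 1 / ((n:ℝ) + 1) ≤ 1
            rw [div_le_one (by positivity)]
            have : (0:ℝ) ≤ n := by positivity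
            linarith
          have h4 := norm_sub_norm_le x y
          linarith
        simpa using h2
      rw [h1, Complex.ofReal_zero, zero_mul]
  simp_rw [this]
  exact integral_zero _ _

/-- compactly supported functions -/
theorem Bd_cpt (hm : Integrable m) {p A : ℝ≥0∞} (hp : 1 ≤ p)
    (h : ∀ f : 𝓢(E3, ℂ), eLpNorm (LM m (f : E3 → ℂ)) p volume ≤ A * eLpNorm (f : E3 → ℂ) p volume)
    {f : E3 → ℂ} (hf : Adm volume f) {j : ℝ} (hj : ∀ x, j < ‖x‖ → f x = 0) :
    eLpNorm (LM m f) p volume ≤ A * eLpNorm f p volume := by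
  have hc : HasCompactSupport f := by
    apply HasCompactSupport.of_support_subset_isCompact (isCompact_closedBall (0:E3) j)
    intro x hx
    rw [mem_closedBall_zero_iff]
    by_contra hcon
    exact hx (hj x (not_le.1 hcon))
  obtain ⟨C, hC⟩ := hf.bdd
  have hS : ∀ n, ∃ g : 𝓢(E3, ℂ), (g : E3 → ℂ) = mol n f := fun n =>
    ⟨(mol_supp hc n).toSchwartzMap (mol_smooth hf n), rfl⟩
  have hA : ∀ n, Adm volume (mol n f) := by
    intro n
    obtain ⟨g, hg⟩ := hS n
    rw [← hg]; exact adm_sch g
  refine LM_lim (A := A) hm hA hf ?_ ?_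
  · -- dominated convergence
    have hae : ∀ᵐ x : E3, Tendsto (fun n => mol n f x) atTop (𝓝 (f x)) := by
      have h1 := ContDiffBump.ae_convolution_tendsto_right_of_locallyIntegrable (μ := (volume : Measure E3))
        (φ := bp) (K := 2) bp_lim (Filter.Eventually.of_forall fun n => by
          show 1 / ((n:ℝ) + 1) ≤ 2 * (1 / (2 * ((n:ℝ) + 1)))
          have : (0:ℝ) < (n:ℝ) + 1 := by positivity
          apply le_of_eq
          field_simp) hf.int.locallyIntegrable
      filter_upwards [h1] with x hx
      simpa [mol_eq] using hx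
    have h0 : (0:ℝ) = ∫ y : E3, (0:ℝ) := by simp
    rw [h0]
    apply tendsto_integral_of_dominated_convergence ((Metric.closedBall (0:E3) (j + 1)).indicator fun _ => 2 * C)
    · intro n
      exact ((hA n).int.sub hf.int).norm.aestronglyMeasurable
    · exact (integrable_indicator_iff Metric.isClosed_closedBall.measurableSet).2
        (integrableOn_const measure_closedBall_lt_top.ne)
    · intro n
      filter_upwards with x
      rw [norm_norm]
      by_cases hx : x ∈ Metric.closedBall (0:E3) (j + 1)
      · rw [indicator_of_mem hx]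
        have := mol_bdd hf hC n x
        have h2 := hC x
        have h3 := norm_sub_le (mol n f x) (f x)
        linarith
      · rw [indicator_of_notMem hx]
        rw [mem_closedBall_zero_iff, not_le] at hx
        rw [mol_zero hj n hx, hj x (by linarith), sub_zero, norm_zero]
    · filter_upwards [hae] with x hx
      rw [tendsto_iff_norm_sub_tendsto_zero] at hx
      exact hx
  · intro n
    obtain ⟨g, hg⟩ := hS n
    rw [← hg]
    refine (h g).trans ?_
    rw [hg]
    exact mul_le_mul' le_rfl (mol_norm hf hp n)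

/-- **bounds on Schwartz functions extend to admissible functions** -/
theorem Bd_of_schwartz (hm : Integrable m) {p A : ℝ≥0∞} (hp : 1 ≤ p)
    (h : ∀ f : 𝓢(E3, ℂ), eLpNorm (LM m (f : E3 → ℂ)) p volume ≤ A * eLpNorm (f : E3 → ℂ) p volume) : Bd m p A := by
  intro f hf
  have hms : ∀ n : ℕ, MeasurableSet (Metric.closedBall (0:E3) (n:ℝ)) := fun n => Metric.isClosed_closedBall.measurableSet
  have hA : ∀ n : ℕ, Adm volume ((Metric.closedBall (0:E3) (n:ℝ)).indicator f) := fun n => hf.indicator (hms n)
  refine LM_lim (A := A) hm hA hf ?_ ?_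
  · have h0 : (0:ℝ) = ∫ y : E3, (0:ℝ) := by simp
    rw [h0]
    apply tendsto_integral_of_dominated_convergence (fun x => ‖f x‖)
    · intro n
      exact ((hA n).int.sub hf.int).norm.aestronglyMeasurable
    · exact hf.int.norm
    · intro n
      filter_upwards with x
      rw [norm_norm]
      by_cases hx : x ∈ Metric.closedBall (0:E3) (n:ℝ)
      · rw [indicator_of_mem hx, sub_self, norm_zero]; exact norm_nonneg _
      · rw [indicator_of_notMem hx, zero_sub, norm_neg]
    · filter_upwards with x
      obtain ⟨N, hN⟩ := exists_nat_ge ‖x‖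
      apply tendsto_const_nhds.congr'
      filter_upwards [eventually_ge_atTop N] with n hn
      have : x ∈ Metric.closedBall (0:E3) (n:ℝ) := by
        rw [mem_closedBall_zero_iff]
        exact hN.trans (by exact_mod_cast hn)
      rw [indicator_of_mem this, sub_self, norm_zero]
  · intro n
    refine (Bd_cpt hm hp h (hA n) (j := n) ?_).trans ?_
    · intro x hx
      apply indicator_of_notMem
      rw [mem_closedBall_zero_iff, not_le]
      exact hx
    · exact mul_le_mul' le_rfl (eLpNorm_indicator_le f)

end Vale.Agent.P117.Top
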